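import Vale.Agent.Lib.P322B.S3
import Vale.Agent.Lib.P322.CubeBasics

/-! # Module B: tensorisation. -/

namespace Vale.Agent.Lib.P322B

open Real Set Finset
open Vale.Agent.Lib.P322

variable {n : ℕ}

/-- The Dirichlet form. -/
noncomputable def dirichB (g : Cube n → ℝ) : ℝ :=
  avg (fun y => ∑ j, JJ (g y) (g (P322.flip j y))) / 4

/-! ### Elementary facts about averages -/

lemma abs_avg_lt {g : Cube n → ℝ} (hg : ∀ y, |g y| < 1) : |avg g| < 1 := by
  have hn : (0:ℝ) < 2 ^ n := by positivity
  have hc : ((univ : Finset (Cube n)).card : ℝ) = 2 ^ n := by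
    simp [Finset.card_univ, Fintype.card_pi]
  have hne : (univ : Finset (Cube n)).Nonempty := univ_nonempty
  unfold avg
  rw [abs_div, abs_of_pos hn, div_lt_one hn]
  calc |∑ y, g y| ≤ ∑ y, |g y| := abs_sum_le_sum_abs _ _
    _ < ∑ _y : Cube n, (1:ℝ) := sum_lt_sum_of_nonempty hne (fun y _ => hg y)
    _ = 2 ^ n := by simp [Finset.card_univ, Fintype.card_pi]

lemma avg_hh_le {g : Cube n → ℝ} (hg : ∀ y, |g y| < 1) :
    avg (fun y => hh (g y)) ≤ hh (avg g) := by
  have ha := abs_avg_lt hg
  have h1 : avg (fun y => hh (g y)) ≤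
      avg (fun y => (hh (avg g) + At (avg g) * avg g) - At (avg g) * g y) := by
    apply avg_mono
    intro y
    have := hh_le_tangent ha (hg y)
    linarith
  rw [avg_sub, avg_const, avg_const_mul] at h1
  linarith

lemma avg_hh_pos {g : Cube n → ℝ} (hg : ∀ y, |g y| < 1) : 0 < avg (fun y => hh (g y)) := by
  have hn : (0:ℝ) < 2 ^ n := by positivity
  unfold avg
  apply div_pos _ hn
  exact sum_pos (fun y _ => hh_pos (hg y)) univ_nonempty

/-- Tangent bound for `x log (x/y)`. -/
lemma xlog_tangent {u v r : ℝ} (hu : 0 < u) (hv : 0 < v) (hr : 0 < r) :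
    u * (1 + log r) - v * r ≤ u * log (u / v) := by
  have hz : 0 < v * r / u := by positivity
  have h1 := Real.log_le_sub_one_of_pos hz
  have e : log (v * r / u) = log r - log (u / v) := by
    rw [Real.log_div (by positivity) hu.ne', Real.log_mul hv.ne' hr.ne',
      Real.log_div hu.ne' hv.ne']
    ring
  rw [e] at h1
  have h2 := mul_le_mul_of_nonneg_left h1 hu.le
  have e2 : u * (v * r / u - 1) = v * r - u := by field_simp
  rw [e2] at h2
  nlinarith

lemma xlog_jensen {U V : Cube n → ℝ} (hU : ∀ y, 0 < U y) (hV : ∀ y, 0 < V y) :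
    avg U * log (avg U / avg V) ≤ avg (fun y => U y * log (U y / V y)) := by
  have hn : (0:ℝ) < 2 ^ n := by positivity
  have hUa : 0 < avg U := div_pos (sum_pos (fun y _ => hU y) univ_nonempty) hn
  have hVa : 0 < avg V := div_pos (sum_pos (fun y _ => hV y) univ_nonempty) hn
  have hr : 0 < avg U / avg V := div_pos hUa hVa
  have h1 : avg (fun y => (1 + log (avg U / avg V)) * U y - (avg U / avg V) * V y) ≤
      avg (fun y => U y * log (U y / V y)) := by
    apply avg_mono
    intro y
    have := xlog_tangent (hU y) (hV y) hr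
    linarith
  rw [avg_sub, avg_const_mul, avg_const_mul] at h1
  have e : (avg U / avg V) * avg V = avg U := by field_simp
  rw [e] at h1
  nlinarith

lemma JJ_eq_sum {s x : ℝ} (hs : |s| < 1) (hx : |x| < 1) :
    2 * JJ s x = (1 + s) * log ((1 + s) / (1 + x)) + (1 + x) * log ((1 + x) / (1 + s))
      + (1 - s) * log ((1 - s) / (1 - x)) + (1 - x) * log ((1 - x) / (1 - s)) := by
  obtain ⟨a1, a2⟩ := abs_lt_one_pos hs
  obtain ⟨b1, b2⟩ := abs_lt_one_pos hx
  unfold JJ At
  rw [Real.log_div a1.ne' b1.ne', Real.log_div b1.ne' a1.ne', Real.log_div a2.ne' b2.ne',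
    Real.log_div b2.ne' a2.ne']
  ring

/-- Joint convexity of `JJ` in Jensen form. -/
lemma JJ_jensen {p q : Cube n → ℝ} (hp : ∀ y, |p y| < 1) (hq : ∀ y, |q y| < 1) :
    JJ (avg p) (avg q) ≤ avg (fun y => JJ (p y) (q y)) := by
  have hap := abs_avg_lt hp
  have haq := abs_avg_lt hq
  have e1 : ∀ w : Cube n → ℝ, avg (fun y => 1 + w y) = 1 + avg w := by
    intro w
    rw [avg_add, avg_const]
  have e2 : ∀ w : Cube n → ℝ, avg (fun y => 1 - w y) = 1 - avg w := by
    intro w
    rw [avg_sub, avg_const]
  have posp : ∀ y, 0 < 1 + p y ∧ 0 < 1 - p y := fun y => abs_lt_one_pos (hp y)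
  have posq : ∀ y, 0 < 1 + q y ∧ 0 < 1 - q y := fun y => abs_lt_one_pos (hq y)
  have h1 := xlog_jensen (U := fun y => 1 + p y) (V := fun y => 1 + q y)
    (fun y => (posp y).1) (fun y => (posq y).1)
  have h2 := xlog_jensen (U := fun y => 1 + q y) (V := fun y => 1 + p y)
    (fun y => (posq y).1) (fun y => (posp y).1)
  have h3 := xlog_jensen (U := fun y => 1 - p y) (V := fun y => 1 - q y)
    (fun y => (posp y).2) (fun y => (posq y).2)
  have h4 := xlog_jensen (U := fun y => 1 - q y) (V := fun y => 1 - p y)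
    (fun y => (posq y).2) (fun y => (posp y).2)
  simp only [e1, e2] at h1 h2 h3 h4
  have hsum : 2 * avg (fun y => JJ (p y) (q y)) =
      avg (fun y => (1 + p y) * log ((1 + p y) / (1 + q y))) +
      avg (fun y => (1 + q y) * log ((1 + q y) / (1 + p y))) +
      avg (fun y => (1 - p y) * log ((1 - p y) / (1 - q y))) +
      avg (fun y => (1 - q y) * log ((1 - q y) / (1 - p y))) := by
    rw [← avg_add, ← avg_add, ← avg_add, ← avg_const_mul]
    congr 1
    funext y
    exact JJ_eq_sum (hp y) (hq y)
  have h5 := JJ_eq_sum hap haq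
  linarith

lemma JJ_self (s : ℝ) : JJ s s = 0 := by
  unfold JJ; ring

lemma JJ_neg_neg (s x : ℝ) : JJ (-s) (-x) = JJ s x := by
  unfold JJ
  rw [At_neg, At_neg]
  ring

/-! ### The recursion -/

lemma dirichB_zero (g : Cube 0 → ℝ) : dirichB g = 0 := by
  simp [dirichB, avg]

lemma avg_cube_zero' (g : Cube 0 → ℝ) : avg g = g default := by
  unfold avg
  simp only [Fintype.sum_unique, pow_zero, div_one]
  exact congrArg g (Subsingleton.elim _ _)

lemma dirichB_succ (g : Cube (n + 1) → ℝ) :
    dirichB g = (dirichB (restr true g) + dirichB (restr false g)) / 2 +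
      avg (fun y => JJ (restr true g y) (restr false g y)) / 4 := by
  unfold dirichB
  rw [avg_succ]
  have e : ∀ b : Bool, restr b (fun y => ∑ j, JJ (g y) (g (P322.flip j y))) =
      fun y => JJ (restr b g y) (restr (!b) g y) +
        ∑ j, JJ (restr b g y) (restr b g (P322.flip j y)) := by
    intro b
    funext y
    simp only [restr]
    rw [Fin.sum_univ_succ]
    simp only [flip_cons_zero, flip_cons_succ]
  rw [e, e, avg_add, avg_add]
  have e2 : avg (fun y => JJ (restr (!false) g y) (restr false g y) ) =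
      avg (fun y => JJ (restr true g y) (restr false g y)) := rfl
  have e3 : avg (fun y => JJ (restr false g y) (restr (!false) g y)) =
      avg (fun y => JJ (restr true g y) (restr false g y)) := by
    congr 1
    funext y
    exact JJ_comm _ _
  rw [e3]
  simp only [Bool.not_true]
  ring

/-! ### The two point step with arbitrary signs -/

lemma GG_abs_abs (a b : ℝ) : GG |a| |b| = GG a b := by
  unfold GG
  rcases abs_cases a with ⟨ha, _⟩ | ⟨ha, _⟩ <;> rcases abs_cases b with ⟨hb, _⟩ | ⟨hb, _⟩ <;>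
    rw [ha, hb]
  · rw [show a + -b = a - b by ring, show a - -b = a + b by ring]
    ring
  · rw [show -a + b = -(a - b) by ring, show -a - b = -(a + b) by ring, Ph_neg, Ph_neg, Ph_neg]
    ring
  · rw [show -a + -b = -(a + b) by ring, show -a - -b = -(a - b) by ring, Ph_neg, Ph_neg, Ph_neg]

lemma mm_abs (a : ℝ) : mm |a| = mm a := by
  rcases abs_cases a with ⟨ha, _⟩ | ⟨ha, _⟩ <;> rw [ha]
  exact mm_neg a

lemma DD_abs (a : ℝ) : DD |a| = DD a := by
  rcases abs_cases a with ⟨ha, _⟩ | ⟨ha, _⟩ <;> rw [ha]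
  exact DD_neg a

lemma abs_add_abs_lt {a b : ℝ} (h1 : |a + b| < 1) (h2 : |a - b| < 1) : |a| + |b| < 1 := by
  rw [abs_lt] at h1 h2
  rcases abs_cases a with ⟨ha, _⟩ | ⟨ha, _⟩ <;> rcases abs_cases b with ⟨hb, _⟩ | ⟨hb, _⟩ <;>
    rw [ha, hb] <;> linarith [h1.1, h1.2, h2.1, h2.2]

lemma hh_pair_abs (a b : ℝ) :
    hh (|a| + |b|) + hh (|a| - |b|) = hh (a + b) + hh (a - b) := by
  rcases abs_cases a with ⟨ha, _⟩ | ⟨ha, _⟩ <;> rcases abs_cases b with ⟨hb, _⟩ | ⟨hb, _⟩ <;>
    rw [ha, hb]
  · rw [show a + -b = a - b by ring, show a - -b = a + b by ring]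
    ring
  · rw [show -a + b = -(a - b) by ring, show -a - b = -(a + b) by ring, hh_neg, hh_neg]
    ring
  · rw [show -a + -b = -(a + b) by ring, show -a - -b = -(a - b) by ring, hh_neg, hh_neg]

lemma JJ_pair_abs (a b : ℝ) : JJ (|a| + |b|) (|a| - |b|) = JJ (a + b) (a - b) := by
  rcases abs_cases a with ⟨ha, _⟩ | ⟨ha, _⟩ <;> rcases abs_cases b with ⟨hb, _⟩ | ⟨hb, _⟩ <;>
    rw [ha, hb]
  · rw [show a + -b = a - b by ring, show a - -b = a + b by ring]
    exact JJ_comm _ _
  · rw [show -a + b = -(a - b) by ring, show -a - b = -(a + b) by ring, JJ_neg_neg]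
    exact JJ_comm _ _
  · rw [show -a + -b = -(a + b) by ring, show -a - -b = -(a - b) by ring, JJ_neg_neg]

/-- The two point inequality for arbitrary signs of `a`, `b`. -/
lemma step_core {a b l c : ℝ} (h1 : |a + b| < 1) (h2 : |a - b| < 1) (hb : b ≠ 0) (hl : 0 < l)
    (hlb : l ≤ (hh (a + b) + hh (a - b)) / 2)
    (hJ : JJ (a + b) (a - b) / 4 ≤ c)
    (hP : ∀ T : ℝ, 0 < T → T < 1 → lamP T * |b| - muP T * l ≤ c) :
    GG a b + (Psi (mm a) l - Psi (mm a - DD b) l) ≤ c := by
  have h := S3 (a := |a|) (b := |b|) (l := l) (c := c) (abs_nonneg a) (abs_pos.2 hb)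
    (abs_add_abs_lt h1 h2) hl (by rw [hh_pair_abs]; exact hlb) (by rw [JJ_pair_abs]; exact hJ) hP
  rwa [GG_abs_abs, mm_abs, DD_abs] at h

lemma mm_pos_of_abs {a : ℝ} (h : |a| < 1) : 0 < mm a := by
  have h1 := one_sub_sq_pos h
  unfold mm
  have : 0 < 1 - a ^ 2 / 8 := by nlinarith [sq_nonneg a]
  positivity

/-- The window bottom is positive for arbitrary signs. -/
lemma window_pos {a b : ℝ} (h1 : |a + b| < 1) (h2 : |a - b| < 1) : 0 < mm a - DD b := by
  have h := mm_sub_DD_pos (a := |a|) (b := |b|) (abs_nonneg a) (abs_nonneg b) (abs_add_abs_lt h1 h2)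
  rwa [mm_abs, DD_abs] at h

lemma plane_avg {p q : Cube n → ℝ} (hp : ∀ y, |p y| < 1) (hq : ∀ y, |q y| < 1) {T : ℝ}
    (hT0 : 0 < T) (hT1 : T < 1) :
    lamP T * ((avg p - avg q) / 2) -
        muP T * ((avg (fun y => hh (p y)) + avg (fun y => hh (q y))) / 2) ≤
      avg (fun y => JJ (p y) (q y)) / 4 := by
  have h1 : avg (fun y => lamP T * ((p y - q y) / 2) - muP T * ((hh (p y) + hh (q y)) / 2)) ≤
      avg (fun y => JJ (p y) (q y) / 4) := by
    apply avg_mono
    intro y
    exact PI hT0 hT1 (hp y) (hq y)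
  have e1 : avg (fun y => lamP T * ((p y - q y) / 2) - muP T * ((hh (p y) + hh (q y)) / 2)) =
      lamP T * ((avg p - avg q) / 2) -
        muP T * ((avg (fun y => hh (p y)) + avg (fun y => hh (q y))) / 2) := by
    have a1 : avg (fun y => (p y - q y) / 2) = (avg p - avg q) / 2 := by
      have : (fun y => (p y - q y) / 2) = fun y => (1 / 2) * (p y - q y) := by
        funext y; ring
      rw [this, avg_const_mul, avg_sub]
      ring
    have a2 : avg (fun y => (hh (p y) + hh (q y)) / 2) =
        (avg (fun y => hh (p y)) + avg (fun y => hh (q y))) / 2 := by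
      have : (fun y => (hh (p y) + hh (q y)) / 2) = fun y => (1 / 2) * (hh (p y) + hh (q y)) := by
        funext y; ring
      rw [this, avg_const_mul, avg_add]
      ring
    rw [avg_sub, avg_const_mul, avg_const_mul, a1, a2]
  have e2 : avg (fun y => JJ (p y) (q y) / 4) = avg (fun y => JJ (p y) (q y)) / 4 := by
    have : (fun y => JJ (p y) (q y) / 4) = fun y => (1 / 4) * JJ (p y) (q y) := by
      funext y; ring
    rw [this, avg_const_mul]
    ring
  rw [e1, e2] at h1
  exact h1

/-- Bellman inequality. -/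
theorem bellman : ∀ (n : ℕ) (g : Cube n → ℝ), (∀ y, |g y| < 1) → ∀ τ ∈ Ico (0:ℝ) 1,
    2 * hh (avg g) + CC τ * mm (avg g) ≤ dirichB g + (kk τ + 2) * avg (fun y => hh (g y)) := by
  intro n
  induction n with
  | zero =>
      intro g hg τ hτ
      rw [dirichB_zero, avg_cube_zero', avg_cube_zero']
      have ha := hg default
      have hb := bregman (σ := 0) (τ := τ) (left_mem_Ico.mpr one_pos) hτ
      rw [hh_zero, CC_zero, kk_zero, mul_zero, sub_zero] at hb
      have hm := mm_pos_of_abs ha
      have hk := kk_nonneg hτ.1 hτ.2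
      have h1 := mul_le_mul_of_nonneg_right hb hm.le
      have h2 := log_two_mul_mm_le_hh ha
      have h3 := mul_le_mul_of_nonneg_left h2 hk
      nlinarith
  | succ m ih =>
      intro g hg τ hτ
      set p := restr true g with hp
      set q := restr false g with hq
      have hp1 : ∀ y, |p y| < 1 := fun y => hg _
      have hq1 : ∀ y, |q y| < 1 := fun y => hg _
      have hga : avg g = (avg p + avg q) / 2 := avg_succ g
      have hgl : avg (fun y => hh (g y)) =
          (avg (fun y => hh (p y)) + avg (fun y => hh (q y))) / 2 := by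
        rw [avg_succ]
        rfl
      have hD := dirichB_succ g
      rw [← hp, ← hq] at hD
      set ap := avg p with hap
      set aq := avg q with haq
      set lp := avg (fun y => hh (p y)) with hlp
      set lq := avg (fun y => hh (q y)) with hlq
      set c := avg (fun y => JJ (p y) (q y)) / 4 with hc
      have hapa : |ap| < 1 := abs_avg_lt hp1
      have haqa : |aq| < 1 := abs_avg_lt hq1
      rw [hga, hgl, hD]
      -- the midpoint parameters
      obtain ⟨a, ha⟩ : ∃ a, a = (ap + aq) / 2 := ⟨_, rfl⟩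
      obtain ⟨b, hb⟩ : ∃ b, b = (ap - aq) / 2 := ⟨_, rfl⟩
      obtain ⟨l, hl⟩ : ∃ l, l = (lp + lq) / 2 := ⟨_, rfl⟩
      have ep : ap = a + b := by rw [ha, hb]; ring
      have eq' : aq = a - b := by rw [ha, hb]; ring
      rw [← ha, ← hl]
      have hlpos : 0 < l := by
        have h1 := avg_hh_pos hp1
        have h2 := avg_hh_pos hq1
        rw [hl]
        have : 0 < lp + lq := add_pos h1 h2
        linarith
      have hcJ : JJ ap aq / 4 ≤ c := by
        have := JJ_jensen hp1 hq1
        rw [hc]
        linarith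
      by_cases hb0 : b = 0
      · -- equal children
        have e1 : ap = a := by rw [ep, hb0]; ring
        have e2 : aq = a := by rw [eq', hb0]; ring
        have i1 := ih p hp1 τ hτ
        have i2 := ih q hq1 τ hτ
        rw [← hap, e1] at i1
        rw [← haq, e2] at i2
        rw [e1, e2, JJ_self] at hcJ
        rw [hl]
        nlinarith
      · -- the general case
        have hA1 : |a + b| < 1 := by rw [← ep]; exact hapa
        have hA2 : |a - b| < 1 := by rw [← eq']; exact haqa
        have hA : |a| < 1 := by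
          have h := abs_add_abs_lt hA1 hA2
          have := abs_nonneg b
          linarith
        have hM' := window_pos hA1 hA2
        have hlb : l ≤ (hh (a + b) + hh (a - b)) / 2 := by
          have h1 := avg_hh_le hp1
          have h2 := avg_hh_le hq1
          rw [← hap, ← hlp, ep] at h1
          rw [← haq, ← hlq, eq'] at h2
          rw [hl]
          linarith
        have hP : ∀ T : ℝ, 0 < T → T < 1 → lamP T * |b| - muP T * l ≤ c := by
          intro T hT0 hT1
          have h1 := plane_avg hp1 hq1 hT0 hT1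
          have h2 := plane_avg hq1 hp1 hT0 hT1
          have e : avg (fun y => JJ (q y) (p y)) = avg (fun y => JJ (p y) (q y)) := by
            congr 1
            funext y
            exact JJ_comm _ _
          rw [e] at h2
          rw [← hc, ← hap, ← haq, ← hlp, ← hlq] at h1
          rw [← hc, ← hap, ← haq, ← hlp, ← hlq] at h2
          rcases abs_cases b with ⟨hab, _⟩ | ⟨hab, _⟩
          · rw [hab, hb, hl]
            exact h1
          · rw [hab, hb, hl]
            have e3 : -((ap - aq) / 2) = (aq - ap) / 2 := by ring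
            rw [e3]
            have e4 : (lp + lq) / 2 = (lq + lp) / 2 := by ring
            rw [e4]
            exact h2
        have hS3 := step_core hA1 hA2 hb0 hlpos hlb (by rw [← ep, ← eq']; exact hcJ) hP
        -- induction hypothesis at the optimal parameter of the window
        set τ₂ := tauY (l / (mm a - DD b)) with hτ₂
        have hτ₂m : τ₂ ∈ Ico (0:ℝ) 1 := tauY_mem _
        have i1 := ih p hp1 τ₂ hτ₂m
        have i2 := ih q hq1 τ₂ hτ₂m
        rw [← hap, ← hlp] at i1
        rw [← haq, ← hlq] at i2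
        have hCC2 := CC_nonneg hτ₂m.1 hτ₂m.2
        have hmid : mm a - DD b ≤ (mm ap + mm aq) / 2 := by
          rw [ep, eq']
          unfold mm DD
          nlinarith [mul_nonneg (sq_nonneg a) (sq_nonneg b)]
        have hCCM := mul_le_mul_of_nonneg_left hmid hCC2
        have hPsi2 : Psi (mm a - DD b) l = CC τ₂ * (mm a - DD b) - kk τ₂ * l := rfl
        have hPsi1 := le_Psi hτ (mm_pos_of_abs hA) hlpos
        have hGG : hh ap + hh aq + GG a b = 2 * hh a := by
          rw [ep, eq']
          unfold hh GG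
          ring
        have hl2 : (kk τ₂ + 2) * lp + (kk τ₂ + 2) * lq = 2 * ((kk τ₂ + 2) * l) := by
          rw [hl]; ring
        have hcc : CC τ₂ * ((mm ap + mm aq) / 2) = (CC τ₂ * mm ap + CC τ₂ * mm aq) / 2 := by ring
        rw [hcc] at hCCM
        have e5 : (kk τ + 2) * l = kk τ * l + 2 * l := by ring
        have e6 : (kk τ₂ + 2) * l = kk τ₂ * l + 2 * l := by ring
        rw [e5]
        rw [e6] at hl2
        linarith

end Vale.Agent.Lib.P322B
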