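import Vale.Agent.Lib.P322B.Defs

/-! # Module C: calculus facts. -/

namespace Vale.Agent.Lib.P322B

open Real Set

lemma abs_lt_one_pos {t : ℝ} (h : |t| < 1) : 0 < 1 + t ∧ 0 < 1 - t := by
  have := abs_lt.mp h
  constructor <;> linarith [this.1, this.2]

lemma one_sub_sq_pos {t : ℝ} (h : |t| < 1) : 0 < 1 - t ^ 2 := by
  obtain ⟨h1, h2⟩ := abs_lt_one_pos h
  have : 1 - t ^ 2 = (1 + t) * (1 - t) := by ring
  rw [this]; positivity

lemma abs_lt_of_Ioo {t : ℝ} (h0 : 0 < t) (h1 : t < 1) : |t| < 1 := by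
  rw [abs_of_pos h0]; exact h1

lemma abs_lt_of_Ico {t : ℝ} (h0 : 0 ≤ t) (h1 : t < 1) : |t| < 1 := by
  rw [abs_of_nonneg h0]; exact h1

/-- Monotonicity from a pointwise derivative. -/
lemma mono_of_hasDeriv {s : Set ℝ} (hs : Convex ℝ s) {f f' : ℝ → ℝ} (hc : ContinuousOn f s)
    (hd : ∀ x ∈ interior s, HasDerivAt f (f' x) x) (hn : ∀ x ∈ interior s, 0 ≤ f' x) :
    MonotoneOn f s := by
  apply monotoneOn_of_deriv_nonneg hs hc
  · intro x hx; exact (hd x hx).differentiableAt.differentiableWithinAt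
  · intro x hx; rw [(hd x hx).deriv]; exact hn x hx

lemma anti_of_hasDeriv {s : Set ℝ} (hs : Convex ℝ s) {f f' : ℝ → ℝ} (hc : ContinuousOn f s)
    (hd : ∀ x ∈ interior s, HasDerivAt f (f' x) x) (hn : ∀ x ∈ interior s, f' x ≤ 0) :
    AntitoneOn f s := by
  apply antitoneOn_of_deriv_nonpos hs hc
  · intro x hx; exact (hd x hx).differentiableAt.differentiableWithinAt
  · intro x hx; rw [(hd x hx).deriv]; exact hn x hx

lemma At_neg (t : ℝ) : At (-t) = -At t := by
  unfold At; rw [sub_neg_eq_add, ← sub_eq_add_neg]; ring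

lemma Ph_neg (t : ℝ) : Ph (-t) = Ph t := by
  unfold Ph; rw [sub_neg_eq_add, ← sub_eq_add_neg]; ring

lemma hh_neg (t : ℝ) : hh (-t) = hh t := by unfold hh; rw [Ph_neg]
lemma mm_neg (t : ℝ) : mm (-t) = mm t := by unfold mm; ring
lemma DD_neg (t : ℝ) : DD (-t) = DD t := by unfold DD; ring
lemma JJ_comm (s x : ℝ) : JJ s x = JJ x s := by unfold JJ; ring

lemma At_zero : At 0 = 0 := by simp [At]
lemma Ph_zero : Ph 0 = 0 := by simp [Ph]
lemma hh_zero : hh 0 = log 2 := by simp [hh, Ph_zero]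

lemma continuous_Ph : Continuous Ph := by
  have h1 : Continuous fun t : ℝ => (1 + t) * log (1 + t) :=
    continuous_mul_log.comp (continuous_const.add continuous_id)
  have h2 : Continuous fun t : ℝ => (1 - t) * log (1 - t) :=
    continuous_mul_log.comp (continuous_const.sub continuous_id)
  exact (h1.add h2).div_const 2

lemma continuous_hh : Continuous hh := continuous_const.sub continuous_Ph

lemma continuousOn_hh : ContinuousOn hh (Ioo (-1) 1) := continuous_hh.continuousOn

lemma Ph_one : Ph 1 = log 2 := by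
  unfold Ph; norm_num

lemma hh_one : hh 1 = 0 := by unfold hh; rw [Ph_one]; ring

lemma hasDerivAt_At {t : ℝ} (h : |t| < 1) : HasDerivAt At (1 / (1 - t ^ 2)) t := by
  obtain ⟨h1, h2⟩ := abs_lt_one_pos h
  have d1 : HasDerivAt (fun t : ℝ => log (1 + t)) (1 / (1 + t)) t := by
    have := ((hasDerivAt_id t).const_add 1).log (by simpa using h1.ne')
    simpa using this
  have d2 : HasDerivAt (fun t : ℝ => log (1 - t)) (-1 / (1 - t)) t := by
    have := ((hasDerivAt_id t).const_sub 1).log (by simpa using h2.ne')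
    simpa using this
  have h3 : HasDerivAt At ((1 / (1 + t) - -1 / (1 - t)) / 2) t := (d1.sub d2).div_const 2
  refine h3.congr_deriv ?_
  have : 1 - t ^ 2 = (1 + t) * (1 - t) := by ring
  rw [this]
  field_simp
  ring

lemma hasDerivAt_Ph {t : ℝ} (h : |t| < 1) : HasDerivAt Ph (At t) t := by
  obtain ⟨h1, h2⟩ := abs_lt_one_pos h
  have d1 : HasDerivAt (fun t : ℝ => log (1 + t)) (1 / (1 + t)) t := by
    have := ((hasDerivAt_id t).const_add 1).log (by simpa using h1.ne')
    simpa using this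
  have d2 : HasDerivAt (fun t : ℝ => log (1 - t)) (-1 / (1 - t)) t := by
    have := ((hasDerivAt_id t).const_sub 1).log (by simpa using h2.ne')
    simpa using this
  have e1 : HasDerivAt (fun t : ℝ => 1 + t) 1 t := by
    simpa using (hasDerivAt_id t).const_add 1
  have e2 : HasDerivAt (fun t : ℝ => 1 - t) (-1) t := by
    simpa using (hasDerivAt_id t).const_sub 1
  have h3 : HasDerivAt Ph ((1 * log (1 + t) + (1 + t) * (1 / (1 + t)) +
      (-1 * log (1 - t) + (1 - t) * (-1 / (1 - t)))) / 2) t :=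
    ((e1.mul d1).add (e2.mul d2)).div_const 2
  refine h3.congr_deriv ?_
  unfold At
  field_simp
  ring

lemma hasDerivAt_hh {t : ℝ} (h : |t| < 1) : HasDerivAt hh (-At t) t :=
  (hasDerivAt_Ph h).const_sub (log 2)

lemma At_pos {t : ℝ} (h0 : 0 < t) (h1 : t < 1) : 0 < At t := by
  unfold At
  have : log (1 - t) < log (1 + t) := log_lt_log (by linarith) (by linarith)
  linarith

lemma At_nonneg {t : ℝ} (h0 : 0 ≤ t) (h1 : t < 1) : 0 ≤ At t := by
  rcases h0.eq_or_lt with rfl | h
  · simp [At_zero]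
  · exact (At_pos h h1).le

lemma continuousOn_At : ContinuousOn At (Ioo (-1) 1) := by
  intro x hx
  have : |x| < 1 := abs_lt.mpr hx
  exact (hasDerivAt_At this).continuousAt.continuousWithinAt

lemma continuousOn_At' {s : Set ℝ} (hs : ∀ x ∈ s, |x| < 1) : ContinuousOn At s := by
  intro x hx
  exact (hasDerivAt_At (hs x hx)).continuousAt.continuousWithinAt

lemma interior_Ico' {a b : ℝ} : interior (Ico a b) = Ioo a b := interior_Ico

lemma self_le_At {t : ℝ} (h0 : 0 ≤ t) (h1 : t < 1) : t ≤ At t := by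
  have hm : MonotoneOn (fun x => At x - x) (Ico 0 1) := by
    apply mono_of_hasDeriv (convex_Ico 0 1) (f' := fun x => 1 / (1 - x ^ 2) - 1)
    · apply ContinuousOn.sub _ continuousOn_id
      exact continuousOn_At' (fun x hx => abs_lt_of_Ico hx.1 hx.2)
    · intro x hx
      rw [interior_Ico] at hx
      exact (hasDerivAt_At (abs_lt_of_Ioo hx.1 hx.2)).sub (hasDerivAt_id x)
    · intro x hx
      rw [interior_Ico] at hx
      have hp := one_sub_sq_pos (abs_lt_of_Ioo hx.1 hx.2)
      have : 1 - x ^ 2 ≤ 1 := by nlinarith [sq_nonneg x]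
      have : 1 ≤ 1 / (1 - x ^ 2) := by
        rw [le_div_iff₀ hp]; linarith
      linarith
  have := hm (left_mem_Ico.mpr one_pos) (mem_Ico.mpr ⟨h0, h1⟩) h0
  simp only [At_zero, sub_zero] at this
  linarith

/-- `t/(1-t²)` has derivative `(1+t²)/(1-t²)²`. -/
lemma hasDerivAt_rat {t : ℝ} (h : |t| < 1) :
    HasDerivAt (fun t : ℝ => t / (1 - t ^ 2)) ((1 + t ^ 2) / (1 - t ^ 2) ^ 2) t := by
  have hp := one_sub_sq_pos h
  have e : HasDerivAt (fun t : ℝ => 1 - t ^ 2) (-(2 * t)) t := by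
    simpa using ((hasDerivAt_id t).pow 2).const_sub 1
  have h3 := (hasDerivAt_id t).div e hp.ne'
  refine HasDerivAt.congr_deriv (f := fun t : ℝ => t / (1 - t ^ 2)) h3 ?_
  simp only [id]
  field_simp
  ring

lemma At_le {t : ℝ} (h0 : 0 ≤ t) (h1 : t < 1) : At t ≤ t / (1 - t ^ 2) := by
  have hm : MonotoneOn (fun x => x / (1 - x ^ 2) - At x) (Ico 0 1) := by
    apply mono_of_hasDeriv (convex_Ico 0 1)
      (f' := fun x => (1 + x ^ 2) / (1 - x ^ 2) ^ 2 - 1 / (1 - x ^ 2))
    · apply ContinuousOn.sub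
      · apply ContinuousOn.div continuousOn_id (by fun_prop)
        intro x hx
        exact (one_sub_sq_pos (abs_lt_of_Ico hx.1 hx.2)).ne'
      · exact continuousOn_At' (fun x hx => abs_lt_of_Ico hx.1 hx.2)
    · intro x hx
      rw [interior_Ico] at hx
      have hx' := abs_lt_of_Ioo hx.1 hx.2
      exact (hasDerivAt_rat hx').sub (hasDerivAt_At hx')
    · intro x hx
      rw [interior_Ico] at hx
      have hp := one_sub_sq_pos (abs_lt_of_Ioo hx.1 hx.2)
      have : (1 + x ^ 2) / (1 - x ^ 2) ^ 2 - 1 / (1 - x ^ 2) = 2 * x ^ 2 / (1 - x ^ 2) ^ 2 := by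
        field_simp
        ring
      rw [this]
      positivity
  have := hm (left_mem_Ico.mpr one_pos) (mem_Ico.mpr ⟨h0, h1⟩) h0
  simp only [At_zero] at this
  norm_num at this
  linarith

lemma Xi_eq {t : ℝ} (h : |t| < 1) : Xi t = -(t * At t) - log (1 - t ^ 2) := by
  obtain ⟨h1, h2⟩ := abs_lt_one_pos h
  have : log (1 - t ^ 2) = log (1 + t) + log (1 - t) := by
    rw [← log_mul h1.ne' h2.ne']; congr 1; ring
  rw [this]
  unfold Xi Ph At
  ring

lemma kk_zero : kk 0 = 0 := by simp [kk]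

lemma kk_eq {t : ℝ} (h : t ≠ 0) : kk t = t / ((1 - t ^ 2) * At t) - 1 := by simp [kk, h]

lemma kk_nonneg {t : ℝ} (h0 : 0 ≤ t) (h1 : t < 1) : 0 ≤ kk t := by
  rcases h0.eq_or_lt with rfl | h
  · simp [kk_zero]
  · rw [kk_eq h.ne']
    have hp := one_sub_sq_pos (abs_lt_of_Ioo h h1)
    have hA := At_pos h h1
    have hl := At_le h0 h1
    rw [le_div_iff₀ hp] at hl
    have : 1 ≤ t / ((1 - t ^ 2) * At t) := by
      rw [le_div_iff₀ (by positivity)]
      nlinarith
    linarith

lemma kk_le {t : ℝ} (h0 : 0 ≤ t) (h1 : t < 1) : kk t ≤ t ^ 2 / (1 - t ^ 2) := by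
  rcases h0.eq_or_lt with rfl | h
  · simp [kk_zero]
  · rw [kk_eq h.ne']
    have hp := one_sub_sq_pos (abs_lt_of_Ioo h h1)
    have hA := At_pos h h1
    have hl := self_le_At h0 h1
    have e : t ^ 2 / (1 - t ^ 2) = 1 / (1 - t ^ 2) - 1 := by
      field_simp
      ring
    rw [e]
    have : t / ((1 - t ^ 2) * At t) ≤ 1 / (1 - t ^ 2) := by
      rw [div_le_div_iff₀ (by positivity) hp]
      have : 0 ≤ (1 - t ^ 2) * (At t - t) := mul_nonneg hp.le (by linarith)
      nlinarith
    linarith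

lemma kkD_nonneg {t : ℝ} (h0 : 0 < t) (h1 : t < 1) : 0 ≤ kkD t := by
  unfold kkD
  have hl := self_le_At h0.le h1
  apply div_nonneg _ (by positivity)
  nlinarith [sq_nonneg t, At_pos h0 h1]

lemma hasDerivAt_kk {t : ℝ} (h0 : 0 < t) (h1 : t < 1) : HasDerivAt kk (kkD t) t := by
  have hAbs := abs_lt_of_Ioo h0 h1
  have hp := one_sub_sq_pos hAbs
  have hA := At_pos h0 h1
  have e : HasDerivAt (fun t : ℝ => 1 - t ^ 2) (-(2 * t)) t := by
    simpa using ((hasDerivAt_id t).pow 2).const_sub 1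
  have d := e.mul (hasDerivAt_At hAbs)
  have d2 := ((hasDerivAt_id t).div d (mul_pos hp hA).ne').sub_const 1
  have hev : kk =ᶠ[nhds t] fun x => x / ((1 - x ^ 2) * At x) - 1 := by
    filter_upwards [lt_mem_nhds h0] with x hx
    rw [kk_eq hx.ne']
  refine HasDerivAt.congr_of_eventuallyEq ?_ hev
  refine HasDerivAt.congr_deriv (f := fun x : ℝ => x / ((1 - x ^ 2) * At x) - 1) d2 ?_
  unfold kkD
  simp only [id, Pi.mul_apply]
  field_simp
  ring

lemma hasDerivAt_Xi {t : ℝ} (h0 : 0 < t) (h1 : t < 1) : HasDerivAt Xi (At t * kk t) t := by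
  have hAbs := abs_lt_of_Ioo h0 h1
  have hp := one_sub_sq_pos hAbs
  have hA := At_pos h0 h1
  have d := ((hasDerivAt_id t).mul (hasDerivAt_At hAbs)).sub ((hasDerivAt_Ph hAbs).const_mul 2)
  have : At t * kk t = 1 * At t + id t * (1 / (1 - t ^ 2)) - 2 * At t := by
    rw [kk_eq h0.ne']
    simp only [id]
    field_simp
    ring
  rw [this]
  exact d

lemma hasDerivAt_CC {t : ℝ} (h0 : 0 < t) (h1 : t < 1) : HasDerivAt CC (kkD t * hh t) t := by
  have hAbs := abs_lt_of_Ioo h0 h1
  have d := (hasDerivAt_Xi h0 h1).add ((hasDerivAt_kk h0 h1).mul (hasDerivAt_hh hAbs))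
  have : kkD t * hh t = At t * kk t + (kkD t * hh t + kk t * -At t) := by ring
  rw [this]
  exact d

lemma continuousOn_kk : ContinuousOn kk (Ico 0 1) := by
  intro x hx
  rcases hx.1.eq_or_lt with rfl | h
  · -- continuity at zero by squeezing
    rw [ContinuousWithinAt, kk_zero]
    have hlim : Filter.Tendsto (fun t : ℝ => t ^ 2 / (1 - t ^ 2)) (nhdsWithin 0 (Ico 0 1)) (nhds 0) := by
      have h3 : ContinuousAt (fun t : ℝ => t ^ 2 / (1 - t ^ 2)) 0 := by
        apply ContinuousAt.div (by fun_prop) (by fun_prop)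
        norm_num
      have h2 := h3.tendsto
      have h4 : ((0:ℝ) ^ 2 / (1 - 0 ^ 2)) = 0 := by norm_num
      rw [h4] at h2
      exact h2.mono_left nhdsWithin_le_nhds
    apply squeeze_zero' _ _ hlim
    · filter_upwards [self_mem_nhdsWithin] with t ht
      exact kk_nonneg ht.1 ht.2
    · filter_upwards [self_mem_nhdsWithin] with t ht
      exact kk_le ht.1 ht.2
  · exact (hasDerivAt_kk h hx.2).continuousAt.continuousWithinAt

lemma continuousOn_Xi : ContinuousOn Xi (Ico 0 1) := by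
  unfold Xi
  apply ContinuousOn.sub
  · exact continuousOn_id.mul (continuousOn_At' (fun x hx => abs_lt_of_Ico hx.1 hx.2))
  · exact continuousOn_const.mul continuous_Ph.continuousOn

lemma continuousOn_CC : ContinuousOn CC (Ico 0 1) := by
  unfold CC
  exact continuousOn_Xi.add (continuousOn_kk.mul continuous_hh.continuousOn)

lemma hh_strictAnti : StrictAntiOn hh (Icc 0 1) := by
  apply strictAntiOn_of_deriv_neg (convex_Icc 0 1) continuous_hh.continuousOn
  intro x hx
  rw [interior_Icc] at hx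
  rw [(hasDerivAt_hh (abs_lt_of_Ioo hx.1 hx.2)).deriv]
  linarith [At_pos hx.1 hx.2]

lemma hh_anti : StrictAntiOn hh (Ico 0 1) :=
  hh_strictAnti.mono Ico_subset_Icc_self

lemma hh_abs (t : ℝ) : hh |t| = hh t := by
  rcases abs_cases t with ⟨h, _⟩ | ⟨h, _⟩
  · rw [h]
  · rw [h, hh_neg]

lemma hh_pos {t : ℝ} (h : |t| < 1) : 0 < hh t := by
  rw [← hh_abs t, ← hh_one]
  exact hh_strictAnti ⟨abs_nonneg t, h.le⟩ ⟨zero_le_one, le_rfl⟩ h

lemma hh_le {t : ℝ} (h : |t| < 1) : hh t ≤ log 2 := by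
  rw [← hh_abs t, ← hh_zero]
  exact hh_strictAnti.antitoneOn ⟨le_rfl, zero_le_one⟩ ⟨abs_nonneg t, h.le⟩ (abs_nonneg t)

lemma hh_nonneg_of_Icc {t : ℝ} (h0 : 0 ≤ t) (h1 : t ≤ 1) : 0 ≤ hh t := by
  rw [← hh_one]
  exact hh_strictAnti.antitoneOn ⟨h0, h1⟩ ⟨zero_le_one, le_rfl⟩ h1

lemma log_two_pos' : 0 < log 2 := log_pos (by norm_num)

lemma Xi_nonneg {t : ℝ} (h0 : 0 ≤ t) (h1 : t < 1) : 0 ≤ Xi t := by
  have hm : MonotoneOn Xi (Ico 0 1) := by
    apply mono_of_hasDeriv (convex_Ico 0 1) (f' := fun x => At x * kk x) continuousOn_Xi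
    · intro x hx
      rw [interior_Ico] at hx
      exact hasDerivAt_Xi hx.1 hx.2
    · intro x hx
      rw [interior_Ico] at hx
      exact mul_nonneg (At_pos hx.1 hx.2).le (kk_nonneg hx.1.le hx.2)
  have := hm (left_mem_Ico.mpr one_pos) (mem_Ico.mpr ⟨h0, h1⟩) h0
  simpa [Xi, At_zero, Ph_zero] using this

lemma kk_mono : MonotoneOn kk (Ico 0 1) := by
  apply mono_of_hasDeriv (convex_Ico 0 1) (f' := kkD) continuousOn_kk
  · intro x hx
    rw [interior_Ico] at hx
    exact hasDerivAt_kk hx.1 hx.2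
  · intro x hx
    rw [interior_Ico] at hx
    exact kkD_nonneg hx.1 hx.2

lemma CC_mono : MonotoneOn CC (Ico 0 1) := by
  apply mono_of_hasDeriv (convex_Ico 0 1) (f' := fun x => kkD x * hh x) continuousOn_CC
  · intro x hx
    rw [interior_Ico] at hx
    exact hasDerivAt_CC hx.1 hx.2
  · intro x hx
    rw [interior_Ico] at hx
    exact mul_nonneg (kkD_nonneg hx.1 hx.2) (hh_pos (abs_lt_of_Ioo hx.1 hx.2)).le

lemma CC_zero : CC 0 = 0 := by simp [CC, Xi, At_zero, Ph_zero, kk_zero]

lemma CC_nonneg {t : ℝ} (h0 : 0 ≤ t) (h1 : t < 1) : 0 ≤ CC t := by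
  have := CC_mono (left_mem_Ico.mpr one_pos) (mem_Ico.mpr ⟨h0, h1⟩) h0
  rwa [CC_zero] at this

/-- `hh` maps `(0,1)` onto `(0, log 2)`. -/
lemma exists_hh_eq {y : ℝ} (h0 : 0 < y) (h1 : y < log 2) : ∃ τ ∈ Ioo (0:ℝ) 1, hh τ = y := by
  have hy : y ∈ Icc (hh 1) (hh 0) := by
    rw [hh_one, hh_zero]; exact ⟨h0.le, h1.le⟩
  obtain ⟨τ, hτ, e⟩ := intermediate_value_Icc' (zero_le_one) continuous_hh.continuousOn hy
  refine ⟨τ, ⟨?_, ?_⟩, e⟩
  · rcases hτ.1.eq_or_lt with rfl | h
    · rw [hh_zero] at e; linarith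
    · exact h
  · rcases hτ.2.eq_or_lt with rfl | h
    · rw [hh_one] at e; linarith
    · exact h

/-- Tangent form of the convexity of `Ph`. -/
lemma Ph_tangent {a x : ℝ} (ha : |a| < 1) (hx : |x| < 1) : Ph a + At a * (x - a) ≤ Ph x := by
  obtain ⟨a1, a2⟩ := abs_lt_one_pos ha
  obtain ⟨x1, x2⟩ := abs_lt_one_pos hx
  have key : ∀ {r s : ℝ}, 0 < r → 0 < s → r - s ≤ r * (log r - log s) := by
    intro r s hr hs
    have := log_le_sub_one_of_pos (show 0 < s / r by positivity)
    rw [log_div hs.ne' hr.ne'] at this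
    have h2 : r * (log s - log r) ≤ r * (s / r - 1) :=
      mul_le_mul_of_nonneg_left this hr.le
    have h3 : r * (s / r - 1) = s - r := by field_simp
    nlinarith
  have h1 := key x1 a1
  have h2 := key x2 a2
  unfold Ph At
  nlinarith

/-- Tangent-line (Jensen) form: `hh` is concave on `(-1,1)`. -/
lemma hh_le_tangent {a x : ℝ} (ha : |a| < 1) (hx : |x| < 1) : hh x ≤ hh a - At a * (x - a) := by
  have := Ph_tangent ha hx
  unfold hh
  linarith

/-- Midpoint convexity of `Ph`. -/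
lemma Ph_midpoint {x y : ℝ} (hx : |x| < 1) (hy : |y| < 1) : 2 * Ph ((x + y) / 2) ≤ Ph x + Ph y := by
  have hm : |(x + y) / 2| < 1 := by
    have h1 := abs_lt.mp hx
    have h2 := abs_lt.mp hy
    rw [abs_lt]; constructor <;> linarith [h1.1, h1.2, h2.1, h2.2]
  have h1 := Ph_tangent hm hx
  have h2 := Ph_tangent hm hy
  nlinarith

/-- `GG` is nonnegative. -/
lemma GG_nonneg {a b : ℝ} (h1 : |a + b| < 1) (h2 : |a - b| < 1) : 0 ≤ GG a b := by
  have := Ph_midpoint h1 h2
  have e : (a + b + (a - b)) / 2 = a := by ring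
  rw [e] at this
  unfold GG
  linarith

/-- `At x / x` is monotone. -/
lemma At_div_mono {x a : ℝ} (hx : 0 < x) (hxa : x ≤ a) (ha : a < 1) : At x * a ≤ At a * x := by
  have hm : MonotoneOn (fun y => At y / y) (Ioo 0 1) := by
    apply mono_of_hasDeriv (convex_Ioo 0 1)
      (f' := fun y => (y / (1 - y ^ 2) - At y) / y ^ 2)
    · intro y hy
      have hy' := abs_lt_of_Ioo hy.1 hy.2
      apply ContinuousAt.continuousWithinAt
      exact ((hasDerivAt_At hy').continuousAt).div continuousAt_id hy.1.ne'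
    · intro y hy
      rw [interior_Ioo] at hy
      have hy' := abs_lt_of_Ioo hy.1 hy.2
      have h3 := (hasDerivAt_At hy').div (hasDerivAt_id y) hy.1.ne'
      refine HasDerivAt.congr_deriv (f := fun y : ℝ => At y / y) h3 ?_
      simp only [id]
      have hp := one_sub_sq_pos hy'
      field_simp
    · intro y hy
      rw [interior_Ioo] at hy
      have := At_le hy.1.le hy.2
      apply div_nonneg (by linarith) (by positivity)
  have h := hm (mem_Ioo.mpr ⟨hx, by linarith⟩) (mem_Ioo.mpr ⟨by linarith, ha⟩) hxa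
  rw [div_le_div_iff₀ hx (by linarith)] at h
  linarith

/-- The classical entropy bound `log 2 * (1 - a²) ≤ hh a`. -/
lemma log_two_mul_le_hh {a : ℝ} (h : |a| < 1) : log 2 * (1 - a ^ 2) ≤ hh a := by
  wlog h0 : 0 ≤ a generalizing a
  · have h' : |-a| < 1 := by rwa [abs_neg]
    have := this h' (by linarith)
    rw [hh_neg] at this
    convert this using 2
    ring
  rw [abs_of_nonneg h0] at h
  rcases h0.eq_or_lt with rfl | hpos
  · simp [hh_zero]
  set g : ℝ → ℝ := fun x => hh x - log 2 * (1 - x ^ 2) with hg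
  have hgc : Continuous g := by
    rw [hg]; exact continuous_hh.sub (by fun_prop)
  have hgd : ∀ x : ℝ, 0 < x → x < 1 → HasDerivAt g (-At x + 2 * log 2 * x) x := by
    intro x h1 h2
    have h3 := (hasDerivAt_hh (abs_lt_of_Ioo h1 h2)).sub
      ((((hasDerivAt_id x).pow 2).const_sub 1).const_mul (log 2))
    refine HasDerivAt.congr_deriv (f := g) h3 ?_
    simp only [id]
    norm_num
    ring
  by_cases hc : At a ≤ 2 * log 2 * a
  · -- `g` increases on `[0,a]`
    have hm : MonotoneOn g (Icc 0 a) := by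
      apply mono_of_hasDeriv (convex_Icc 0 a) (f' := fun x => -At x + 2 * log 2 * x) hgc.continuousOn
      · intro x hx
        rw [interior_Icc] at hx
        exact hgd x hx.1 (by linarith [hx.2])
      · intro x hx
        rw [interior_Icc] at hx
        have h3 := At_div_mono hx.1 hx.2.le h
        have : At x * a ≤ 2 * log 2 * x * a := by
          have : At a * x ≤ 2 * log 2 * a * x := mul_le_mul_of_nonneg_right hc hx.1.le
          nlinarith
        have h4 : At x ≤ 2 * log 2 * x := le_of_mul_le_mul_right this hpos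
        linarith
    have := hm ⟨le_rfl, h0⟩ ⟨h0, le_rfl⟩ h0
    simp only [hg, hh_zero] at this
    norm_num at this
    linarith
  · -- `g` decreases on `[a,1]`
    have hm : AntitoneOn g (Icc a 1) := by
      apply anti_of_hasDeriv (convex_Icc a 1) (f' := fun x => -At x + 2 * log 2 * x) hgc.continuousOn
      · intro x hx
        rw [interior_Icc] at hx
        exact hgd x (by linarith [hx.1]) hx.2
      · intro x hx
        rw [interior_Icc] at hx
        have hx0 : 0 < x := by linarith [hx.1]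
        have h3 := At_div_mono hpos hx.1.le hx.2
        push Not at hc
        have : 2 * log 2 * a * x ≤ At x * a := by
          have : 2 * log 2 * a * x ≤ At a * x := mul_le_mul_of_nonneg_right hc.le hx0.le
          nlinarith
        have h4 : 2 * log 2 * x ≤ At x := by
          have : 2 * log 2 * x * a ≤ At x * a := by nlinarith
          exact le_of_mul_le_mul_right this hpos
        linarith
    have := hm ⟨le_rfl, h.le⟩ ⟨h.le, le_rfl⟩ h.le
    simp only [hg, hh_one] at this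
    norm_num at this
    linarith

/-- Entropy lower bound: `log 2 * m(a) ≤ hh a`. -/
lemma log_two_mul_mm_le_hh {a : ℝ} (h : |a| < 1) : log 2 * mm a ≤ hh a := by
  have h1 := log_two_mul_le_hh h
  have hp := one_sub_sq_pos h
  have hl := log_two_pos'
  have : log 2 * mm a ≤ log 2 * (1 - a ^ 2) := by
    apply mul_le_mul_of_nonneg_left _ hl.le
    unfold mm
    nlinarith [sq_nonneg a]
  linarith

end Vale.Agent.Lib.P322B
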