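import Vale.Agent.Lib.P322B.Calculus

set_option linter.unusedSectionVars false

/-! # Module X: rational parametrisation of the crossing surface.

For `t ∈ (0,1)` (= tanh w) and `σ ∈ [0,1)` (= tanh δ) the children `a₊ = tanh(δ+w)`, `a₋ = tanh(δ-w)` have
`ā = abar`, `b = bbar`. With `u = t²`, `z = σ²`, `p = pp`, `q = qq`. -/

namespace Vale.Agent.Lib.P322B

open Real Set

noncomputable def abar (t σ : ℝ) : ℝ := σ * (1 - t ^ 2) / (1 - t ^ 2 * σ ^ 2)
noncomputable def bbar (t σ : ℝ) : ℝ := t * (1 - σ ^ 2) / (1 - t ^ 2 * σ ^ 2)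
noncomputable def pp (t σ : ℝ) : ℝ := (1 - σ ^ 2) / (1 - t ^ 2 * σ ^ 2)
noncomputable def qq (t σ : ℝ) : ℝ := σ ^ 2 * (1 - t ^ 2) / (1 - t ^ 2 * σ ^ 2)

/-- The explicit form of the crossing slack minus `p Xi`. -/
noncomputable def BB (t σ : ℝ) : ℝ :=
  log (1 - t ^ 4 * σ ^ 2) - log (1 - t ^ 2 * σ ^ 2) - qq t σ * log (1 - t ^ 2)
    - 2 * abar t σ * At (t ^ 2 * σ)

lemma eeF_nonneg {x : ℝ} (hx : x < 1) : 0 ≤ eeF x := by
  unfold eeF
  have := log_le_sub_one_of_pos (show 0 < 1 - x by linarith)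
  linarith

section
variable {t σ : ℝ} (ht0 : 0 < t) (ht1 : t < 1) (hσ0 : 0 ≤ σ) (hσ1 : σ < 1)
include ht0 ht1 hσ0 hσ1

lemma ts_lt_one : t * σ < 1 := by nlinarith

lemma Den_pos : 0 < 1 - t ^ 2 * σ ^ 2 := by
  have h := ts_lt_one ht0 ht1 hσ0 hσ1
  have h2 : 0 ≤ t * σ := by positivity
  have : 1 - t ^ 2 * σ ^ 2 = (1 - t * σ) * (1 + t * σ) := by ring
  rw [this]
  apply mul_pos <;> linarith

lemma sq_t_lt : t ^ 2 < 1 := by nlinarith
lemma sq_s_lt : σ ^ 2 < 1 := by nlinarith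
lemma u_mul_s_lt : t ^ 2 * σ < 1 := by
  have := sq_t_lt ht0 ht1 hσ0 hσ1
  nlinarith [sq_nonneg t]

lemma pp_pos : 0 < pp t σ := by
  unfold pp
  have hD := Den_pos ht0 ht1 hσ0 hσ1
  have hD' := hD.ne'
  have hD'' : 1 - σ ^ 2 * t ^ 2 ≠ 0 := by rwa [mul_comm] at hD'
  have := sq_s_lt ht0 ht1 hσ0 hσ1
  apply div_pos (by linarith) hD

lemma pp_le_one : pp t σ ≤ 1 := by
  unfold pp
  have hD := Den_pos ht0 ht1 hσ0 hσ1
  have hD' := hD.ne'
  have hD'' : 1 - σ ^ 2 * t ^ 2 ≠ 0 := by rwa [mul_comm] at hD'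
  rw [div_le_one hD]
  have := sq_t_lt ht0 ht1 hσ0 hσ1
  nlinarith [sq_nonneg σ, sq_nonneg t]

lemma qq_nonneg : 0 ≤ qq t σ := by
  unfold qq
  have hD := Den_pos ht0 ht1 hσ0 hσ1
  have hD' := hD.ne'
  have hD'' : 1 - σ ^ 2 * t ^ 2 ≠ 0 := by rwa [mul_comm] at hD'
  have := sq_t_lt ht0 ht1 hσ0 hσ1
  apply div_nonneg _ hD.le
  apply mul_nonneg (sq_nonneg σ) (by linarith)

lemma pp_add_qq : pp t σ + qq t σ = 1 := by
  unfold pp qq
  have hD := Den_pos ht0 ht1 hσ0 hσ1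
  have hD' := hD.ne'
  have hD'' : 1 - σ ^ 2 * t ^ 2 ≠ 0 := by rwa [mul_comm] at hD'
  field_simp
  ring

lemma qq_lt_one : qq t σ < 1 := by
  have := pp_add_qq ht0 ht1 hσ0 hσ1
  have := pp_pos ht0 ht1 hσ0 hσ1
  linarith

lemma abar_nonneg : 0 ≤ abar t σ := by
  unfold abar
  have hD := Den_pos ht0 ht1 hσ0 hσ1
  have hD' := hD.ne'
  have hD'' : 1 - σ ^ 2 * t ^ 2 ≠ 0 := by rwa [mul_comm] at hD'
  have := sq_t_lt ht0 ht1 hσ0 hσ1
  apply div_nonneg _ hD.le
  apply mul_nonneg hσ0 (by linarith)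

lemma bbar_pos : 0 < bbar t σ := by
  unfold bbar
  have hD := Den_pos ht0 ht1 hσ0 hσ1
  have hD' := hD.ne'
  have hD'' : 1 - σ ^ 2 * t ^ 2 ≠ 0 := by rwa [mul_comm] at hD'
  have := sq_s_lt ht0 ht1 hσ0 hσ1
  apply div_pos _ hD
  apply mul_pos ht0 (by linarith)

lemma bbar_eq : bbar t σ = pp t σ * t := by
  unfold bbar pp
  ring

lemma abar_add_bbar : abar t σ + bbar t σ = (σ + t) / (1 + σ * t) := by
  unfold abar bbar
  have hD := Den_pos ht0 ht1 hσ0 hσ1
  have hD' := hD.ne'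
  have hD'' : 1 - σ ^ 2 * t ^ 2 ≠ 0 := by rwa [mul_comm] at hD'
  have h1 : 0 < 1 + σ * t := by positivity
  have h2 := ts_lt_one ht0 ht1 hσ0 hσ1
  have h3 : 1 - t ^ 2 * σ ^ 2 = (1 - t * σ) * (1 + σ * t) := by ring
  have h4 : 0 < 1 - t * σ := by linarith
  have h4' := h4.ne'
  have h4'' : 1 - σ * t ≠ 0 := by intro h; apply h4'; linarith
  have h4''' : 1 - t * σ ≠ 0 := by intro h; apply h4'; linarith
  rw [h3]
  field_simp
  ring

lemma abar_sub_bbar : abar t σ - bbar t σ = (σ - t) / (1 - σ * t) := by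
  unfold abar bbar
  have hD := Den_pos ht0 ht1 hσ0 hσ1
  have hD' := hD.ne'
  have hD'' : 1 - σ ^ 2 * t ^ 2 ≠ 0 := by rwa [mul_comm] at hD'
  have h1 : 0 < 1 + t * σ := by positivity
  have h2 := ts_lt_one ht0 ht1 hσ0 hσ1
  have h3 : 1 - t ^ 2 * σ ^ 2 = (1 - σ * t) * (1 + t * σ) := by ring
  have h4 : 0 < 1 - σ * t := by nlinarith
  have h4' := h4.ne'
  have h4'' : 1 - σ * t ≠ 0 := by intro h; apply h4'; linarith
  have h4''' : 1 - t * σ ≠ 0 := by intro h; apply h4'; linarith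
  rw [h3]
  field_simp
  ring

lemma abar_add_bbar_lt_one : abar t σ + bbar t σ < 1 := by
  rw [abar_add_bbar ht0 ht1 hσ0 hσ1]
  have h1 : 0 < 1 + σ * t := by positivity
  rw [div_lt_one h1]
  nlinarith

lemma log_one_add_aplus : log (1 + (abar t σ + bbar t σ)) =
    log (1 + σ) + log (1 + t) - log (1 + σ * t) := by
  rw [abar_add_bbar ht0 ht1 hσ0 hσ1]
  have h1 : 0 < 1 + σ * t := by positivity
  have h2 : 1 + (σ + t) / (1 + σ * t) = (1 + σ) * (1 + t) / (1 + σ * t) := by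
    field_simp
    ring
  rw [h2, log_div (by positivity) h1.ne', log_mul (by positivity) (by positivity)]

lemma log_one_sub_aplus : log (1 - (abar t σ + bbar t σ)) =
    log (1 - σ) + log (1 - t) - log (1 + σ * t) := by
  rw [abar_add_bbar ht0 ht1 hσ0 hσ1]
  have h1 : 0 < 1 + σ * t := by positivity
  have h2 : 1 - (σ + t) / (1 + σ * t) = (1 - σ) * (1 - t) / (1 + σ * t) := by
    field_simp
    ring
  have h3 : 0 < 1 - σ := by linarith
  have h4 : 0 < 1 - t := by linarith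
  rw [h2, log_div (by positivity) h1.ne', log_mul h3.ne' h4.ne']

lemma log_one_add_aminus : log (1 + (abar t σ - bbar t σ)) =
    log (1 + σ) + log (1 - t) - log (1 - σ * t) := by
  rw [abar_sub_bbar ht0 ht1 hσ0 hσ1]
  have h1 : 0 < 1 - σ * t := by nlinarith
  have h1' := h1.ne'
  have h2 : 1 + (σ - t) / (1 - σ * t) = (1 + σ) * (1 - t) / (1 - σ * t) := by
    field_simp
    ring
  have h4 : 0 < 1 - t := by linarith
  have h5 : 0 < 1 + σ := by linarith
  rw [h2, log_div (by positivity) h1.ne', log_mul h5.ne' h4.ne']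

lemma log_one_sub_aminus : log (1 - (abar t σ - bbar t σ)) =
    log (1 - σ) + log (1 + t) - log (1 - σ * t) := by
  rw [abar_sub_bbar ht0 ht1 hσ0 hσ1]
  have h1 : 0 < 1 - σ * t := by nlinarith
  have h1' := h1.ne'
  have h2 : 1 - (σ - t) / (1 - σ * t) = (1 - σ) * (1 + t) / (1 - σ * t) := by
    field_simp
    ring
  have h4 : 0 < 1 + t := by linarith
  have h5 : 0 < 1 - σ := by linarith
  rw [h2, log_div (by positivity) h1.ne', log_mul h5.ne' h4.ne']

lemma log_Den : log (1 - t ^ 2 * σ ^ 2) = log (1 + σ * t) + log (1 - σ * t) := by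
  have h1 : 0 < 1 + σ * t := by positivity
  have h2 : 0 < 1 - σ * t := by nlinarith
  rw [← log_mul h1.ne' h2.ne']
  congr 1
  ring

lemma log_one_add_abar : log (1 + abar t σ) =
    log (1 + σ) + log (1 - t ^ 2 * σ) - log (1 - t ^ 2 * σ ^ 2) := by
  have hD := Den_pos ht0 ht1 hσ0 hσ1
  have hD' := hD.ne'
  have hD'' : 1 - σ ^ 2 * t ^ 2 ≠ 0 := by rwa [mul_comm] at hD'
  have h1 := u_mul_s_lt ht0 ht1 hσ0 hσ1
  have h2 : 1 + abar t σ = (1 + σ) * (1 - t ^ 2 * σ) / (1 - t ^ 2 * σ ^ 2) := by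
    unfold abar
    field_simp
    ring
  have h3 : 0 < 1 - t ^ 2 * σ := by linarith
  have h5 : 0 < 1 + σ := by linarith
  rw [h2, log_div (mul_pos h5 h3).ne' hD.ne', log_mul h5.ne' h3.ne']

lemma log_one_sub_abar : log (1 - abar t σ) =
    log (1 - σ) + log (1 + t ^ 2 * σ) - log (1 - t ^ 2 * σ ^ 2) := by
  have hD := Den_pos ht0 ht1 hσ0 hσ1
  have hD' := hD.ne'
  have hD'' : 1 - σ ^ 2 * t ^ 2 ≠ 0 := by rwa [mul_comm] at hD'
  have h1 : 0 ≤ t ^ 2 * σ := by positivity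
  have h2 : 1 - abar t σ = (1 - σ) * (1 + t ^ 2 * σ) / (1 - t ^ 2 * σ ^ 2) := by
    unfold abar
    field_simp
    ring
  have h3 : 0 < 1 + t ^ 2 * σ := by linarith
  have h5 : 0 < 1 - σ := by linarith
  rw [h2, log_div (mul_pos h5 h3).ne' hD.ne', log_mul h5.ne' h3.ne']

lemma log_t_four : log (1 - t ^ 4 * σ ^ 2) = log (1 + t ^ 2 * σ) + log (1 - t ^ 2 * σ) := by
  have h1 := u_mul_s_lt ht0 ht1 hσ0 hσ1
  have h2 : 0 ≤ t ^ 2 * σ := by positivity
  have h3 : 0 < 1 + t ^ 2 * σ := by linarith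
  have h4 : 0 < 1 - t ^ 2 * σ := by linarith
  rw [← log_mul h3.ne' h4.ne']
  congr 1
  ring

lemma log_one_sub_t_sq : log (1 - t ^ 2) = log (1 + t) + log (1 - t) := by
  have h3 : 0 < 1 + t := by linarith
  have h4 : 0 < 1 - t := by linarith
  rw [← log_mul h3.ne' h4.ne']
  congr 1
  ring

/-- `atanh` of the children. -/
lemma At_children : At (abar t σ + bbar t σ) - At (abar t σ - bbar t σ) = 2 * At t := by
  unfold At
  rw [log_one_add_aplus ht0 ht1 hσ0 hσ1, log_one_sub_aplus ht0 ht1 hσ0 hσ1,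
    log_one_add_aminus ht0 ht1 hσ0 hσ1, log_one_sub_aminus ht0 ht1 hσ0 hσ1]
  ring

/-- The `J` cost at the crossing. -/
lemma JJ_children : JJ (abar t σ + bbar t σ) (abar t σ - bbar t σ) / 4 = bbar t σ * At t := by
  unfold JJ
  rw [At_children ht0 ht1 hσ0 hσ1]
  ring

/-- Closed form of the second difference. -/
lemma GG_eq : GG (abar t σ) (bbar t σ) = log (1 - t ^ 2) + 2 * bbar t σ * At t
    + log (1 - t ^ 2 * σ ^ 2) - log (1 - t ^ 4 * σ ^ 2) + 2 * abar t σ * At (t ^ 2 * σ) := by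
  unfold GG Ph
  have e1 : abar t σ + bbar t σ + 0 = abar t σ + bbar t σ := by ring
  rw [log_one_add_aplus ht0 ht1 hσ0 hσ1, log_one_sub_aplus ht0 ht1 hσ0 hσ1,
    log_one_add_aminus ht0 ht1 hσ0 hσ1, log_one_sub_aminus ht0 ht1 hσ0 hσ1,
    log_one_add_abar ht0 ht1 hσ0 hσ1, log_one_sub_abar ht0 ht1 hσ0 hσ1,
    log_one_sub_t_sq ht0 ht1 hσ0 hσ1, log_t_four ht0 ht1 hσ0 hσ1, log_Den ht0 ht1 hσ0 hσ1]
  unfold At
  ring

/-- Main identity. -/
lemma Gamma_eq : bbar t σ * At t - GG (abar t σ) (bbar t σ) = pp t σ * Xi t + BB t σ := by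
  rw [GG_eq ht0 ht1 hσ0 hσ1, Xi_eq (abs_lt_of_Ioo ht0 ht1), bbar_eq ht0 ht1 hσ0 hσ1]
  unfold BB
  have := pp_add_qq ht0 ht1 hσ0 hσ1
  have hq : qq t σ = 1 - pp t σ := by linarith
  rw [hq]
  ring

/-- `m(ā) = p · v` with `v = (1 + u q)(1 - q g/8)`, `g = 1 - p u`. -/
lemma mm_abar : mm (abar t σ) = pp t σ *
    ((1 + t ^ 2 * qq t σ) * (1 - qq t σ * (1 - pp t σ * t ^ 2) / 8)) := by
  have hD := Den_pos ht0 ht1 hσ0 hσ1
  have hD' := hD.ne'
  have hD'' : 1 - σ ^ 2 * t ^ 2 ≠ 0 := by rwa [mul_comm] at hD'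
  unfold mm abar pp qq
  field_simp
  ring

lemma DD_bbar : DD (bbar t σ) = pp t σ * (pp t σ * t ^ 2 * (9 / 8 - pp t σ ^ 2 * t ^ 2 / 8)) := by
  rw [bbar_eq ht0 ht1 hσ0 hσ1]
  unfold DD
  ring
end

/-! ### The lower bound for `BB`: a path at fixed `q`. -/

section path

/-- The path `x(s) = u(s) s`. -/
noncomputable def xP (q s : ℝ) : ℝ := (s ^ 2 - q) / ((1 - q) * s)

/-- `BB` along the path. -/
noncomputable def FP (q s : ℝ) : ℝ :=
  log (1 - xP q s ^ 2) - log (1 - s ^ 2) + log (1 - q)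
    - q * (log q + log (1 - s ^ 2) - log (1 - q) - 2 * log s) - 2 * (q / s) * At (xP q s)

/-- The comparison function along the path. -/
noncomputable def GP (q s : ℝ) : ℝ :=
  q / (1 - q) * (-(1 - q / s ^ 2) - (log q - 2 * log s))

variable {q s : ℝ}

lemma one_sub_xP_sq (hq1 : q < 1) (hs0 : 0 < s) :
    1 - xP q s ^ 2 = (1 - s ^ 2) * (s ^ 2 - q ^ 2) / ((1 - q) ^ 2 * s ^ 2) := by
  have hp : 0 < 1 - q := by linarith
  have hp' := hp.ne'
  unfold xP
  field_simp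
  ring

lemma xP_nonneg (hq1 : q < 1) (hs0 : 0 < s) (hqs : q ≤ s ^ 2) : 0 ≤ xP q s := by
  have hp : 0 < 1 - q := by linarith
  have hp' := hp.ne'
  unfold xP
  apply div_nonneg (by linarith) (by positivity)

lemma xP_lt_one (hq0 : 0 < q) (hq1 : q < 1) (hs0 : 0 < s) (hs1 : s < 1) : xP q s < 1 := by
  have hp : 0 < 1 - q := by linarith
  have hp' := hp.ne'
  unfold xP
  rw [div_lt_one (by positivity)]
  nlinarith

lemma hasDerivAt_xP (hq1 : q < 1) (hs0 : 0 < s) :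
    HasDerivAt (xP q) ((s ^ 2 + q) / ((1 - q) * s ^ 2)) s := by
  have hp : 0 < 1 - q := by linarith
  have hp' := hp.ne'
  have h1 : HasDerivAt (fun s : ℝ => s ^ 2 - q) (2 * s) s := by
    simpa using ((hasDerivAt_id s).pow 2).sub_const q
  have h2 : HasDerivAt (fun s : ℝ => (1 - q) * s) (1 - q) s := by
    simpa using (hasDerivAt_id s).const_mul (1 - q)
  have h3 := h1.div h2 (by positivity)
  refine HasDerivAt.congr_deriv (f := xP q) h3 ?_
  field_simp
  ring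

lemma hasDerivAt_FP (hq0 : 0 < q) (hq1 : q < 1) (hs0 : 0 < s) (hs1 : s < 1) (hqs : q ≤ s ^ 2) :
    HasDerivAt (FP q) (2 * q * At (xP q s) / s ^ 2) s := by
  have hp : 0 < 1 - q := by linarith
  have hp' := hp.ne'
  have hss : 0 < 1 - s ^ 2 := by nlinarith
  have hss' := hss.ne'
  have hqq : 0 < s ^ 2 - q ^ 2 := by nlinarith
  have hqq' := hqq.ne'
  have hx0 := xP_nonneg hq1 hs0 hqs
  have hx1 := xP_lt_one hq0 hq1 hs0 hs1
  have hxabs : |xP q s| < 1 := abs_lt_of_Ico hx0 hx1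
  have hxx := one_sub_xP_sq hq1 hs0
  have hxp : 0 < 1 - xP q s ^ 2 := one_sub_sq_pos hxabs
  have dx := hasDerivAt_xP hq1 hs0
  have d1 : HasDerivAt (fun s => log (1 - xP q s ^ 2))
      ((-(2 * xP q s * ((s ^ 2 + q) / ((1 - q) * s ^ 2)))) / (1 - xP q s ^ 2)) s := by
    have h := ((dx.pow 2).const_sub 1).log hxp.ne'
    refine HasDerivAt.congr_deriv h ?_
    norm_num
  have d2 : HasDerivAt (fun s : ℝ => log (1 - s ^ 2)) ((-(2 * s)) / (1 - s ^ 2)) s := by
    have h := (((hasDerivAt_id s).pow 2).const_sub 1).log hss.ne'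
    refine HasDerivAt.congr_deriv h ?_
    norm_num
  have d3 : HasDerivAt (fun s : ℝ => log s) (1 / s) s := by
    simpa using hasDerivAt_log hs0.ne'
  have d4 : HasDerivAt (fun s : ℝ => q / s) (-q / s ^ 2) s := by
    have h := (hasDerivAt_const s q).div (hasDerivAt_id s) hs0.ne'
    refine HasDerivAt.congr_deriv (f := fun s : ℝ => q / s) h ?_
    simp only [id]
    field_simp
    ring
  have d5 : HasDerivAt (fun s => At (xP q s)) (1 / (1 - xP q s ^ 2) * ((s ^ 2 + q) / ((1 - q) * s ^ 2))) s :=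
    (hasDerivAt_At hxabs).comp s dx
  have d := ((((d1.sub d2).add_const (log (1 - q))).sub
    (((((hasDerivAt_const s (log q)).add d2).sub_const (log (1 - q))).sub (d3.const_mul 2)).const_mul q)).sub
    ((d4.const_mul 2).mul d5))
  have e : ∀ s', FP q s' = log (1 - xP q s' ^ 2) - log (1 - s' ^ 2) + log (1 - q)
    - q * (log q + log (1 - s' ^ 2) - log (1 - q) - 2 * log s') - (2 * (q / s')) * At (xP q s') := fun _ => rfl
  refine HasDerivAt.congr_deriv (f := FP q) d ?_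
  rw [hxx]
  have hxe : xP q s = (s ^ 2 - q) / ((1 - q) * s) := rfl
  rw [hxe]
  have h5 : At ((s ^ 2 - q) / ((1 - q) * s)) = At (xP q s) := rfl
  rw [h5]
  generalize At (xP q s) = AA
  field_simp
  ring

lemma hasDerivAt_GP (hq1 : q < 1) (hs0 : 0 < s) :
    HasDerivAt (GP q) (2 * q * xP q s / s ^ 2) s := by
  have hp : 0 < 1 - q := by linarith
  have hp' := hp.ne'
  have d3 : HasDerivAt (fun s : ℝ => log s) (1 / s) s := by
    simpa using hasDerivAt_log hs0.ne'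
  have d4 : HasDerivAt (fun s : ℝ => q / s ^ 2) (-(q * (2 * s)) / (s ^ 2) ^ 2) s := by
    have h := (hasDerivAt_const s q).div ((hasDerivAt_id s).pow 2) (pow_ne_zero 2 hs0.ne')
    refine HasDerivAt.congr_deriv (f := fun s : ℝ => q / s ^ 2) h ?_
    simp only [id, Pi.pow_apply]
    field_simp
    ring
  have d := (((d4.const_sub 1).neg).sub ((d3.const_mul 2).const_sub (log q))).const_mul (q / (1 - q))
  refine HasDerivAt.congr_deriv (f := GP q) d ?_
  unfold xP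
  field_simp
  ring

/-- The monotone difference along the path. -/
lemma GP_le_FP {σ : ℝ} (hq0 : 0 < q) (hq1 : q < 1) (hs0 : 0 < σ) (hs1 : σ < 1) (hqs : q ≤ σ ^ 2) :
    GP q σ ≤ FP q σ := by
  set s₀ := √q with hs₀
  have hs₀0 : 0 < s₀ := Real.sqrt_pos.mpr hq0
  have hs₀sq : s₀ ^ 2 = q := Real.sq_sqrt hq0.le
  have hs₀σ : s₀ ≤ σ := by
    apply Real.sqrt_le_iff.mpr
    exact ⟨hs0.le, hqs⟩
  have hp : 0 < 1 - q := by linarith
  have hp' := hp.ne'
  have hsq : ∀ s ∈ Icc s₀ σ, q ≤ s ^ 2 ∧ 0 < s ∧ s < 1 := by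
    intro s hs
    have : 0 < s := by linarith [hs.1]
    refine ⟨?_, this, by linarith [hs.2]⟩
    nlinarith [hs.1]
  have hm : MonotoneOn (fun s => FP q s - GP q s) (Icc s₀ σ) := by
    apply mono_of_hasDeriv (convex_Icc s₀ σ)
      (f' := fun s => 2 * q * At (xP q s) / s ^ 2 - 2 * q * xP q s / s ^ 2)
    · intro s hs
      obtain ⟨h1, h2, h3⟩ := hsq s hs
      -- continuity: at the left end the derivative formula is still valid
      exact ((hasDerivAt_FP hq0 hq1 h2 h3 h1).sub (hasDerivAt_GP hq1 h2)).continuousAt.continuousWithinAt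
    · intro s hs
      have hs' : s ∈ Icc s₀ σ := interior_subset hs
      obtain ⟨h1, h2, h3⟩ := hsq s hs'
      exact (hasDerivAt_FP hq0 hq1 h2 h3 h1).sub (hasDerivAt_GP hq1 h2)
    · intro s hs
      have hs' : s ∈ Icc s₀ σ := interior_subset hs
      obtain ⟨h1, h2, h3⟩ := hsq s hs'
      have h4 := self_le_At (xP_nonneg hq1 h2 h1) (xP_lt_one hq0 hq1 h2 h3)
      have : 2 * q * At (xP q s) / s ^ 2 - 2 * q * xP q s / s ^ 2 =
          2 * q * (At (xP q s) - xP q s) / s ^ 2 := by ring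
      rw [this]
      apply div_nonneg (mul_nonneg (by positivity) (by linarith)) (by positivity)
  have h := hm ⟨le_rfl, hs₀σ⟩ ⟨hs₀σ, le_rfl⟩ hs₀σ
  have h0 : FP q s₀ - GP q s₀ = 0 := by
    have hx0 : xP q s₀ = 0 := by
      unfold xP
      rw [hs₀sq]
      simp
    have hl : log q = 2 * log s₀ := by
      rw [← hs₀sq, log_pow]
      norm_num
    unfold FP GP
    rw [hx0, hs₀sq, hl, At_zero]
    have hs2 : 2 * log s₀ - 2 * log s₀ = 0 := by ring
    have hq : q / q = 1 := div_self hq0.ne'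
    rw [hs2, hq]
    simp
  simp only at h
  linarith

end path

section
variable {t σ : ℝ} (ht0 : 0 < t) (ht1 : t < 1) (hσ0 : 0 ≤ σ) (hσ1 : σ < 1)
include ht0 ht1 hσ0 hσ1

/-- Lower bound for `BB`. -/
lemma BB_lower : qq t σ / pp t σ * eeF (pp t σ * t ^ 2) ≤ BB t σ := by
  rcases hσ0.eq_or_lt with rfl | hσ
  · simp [BB, qq, abar]
  have hD := Den_pos ht0 ht1 hσ0 hσ1
  have hD' := hD.ne'
  have hD'' : 1 - σ ^ 2 * t ^ 2 ≠ 0 := by rwa [mul_comm] at hD'
  have hu := sq_t_lt ht0 ht1 hσ0 hσ1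
  have hz := sq_s_lt ht0 ht1 hσ0 hσ1
  have hz' : 1 - σ ^ 2 ≠ 0 := by intro h; linarith
  have hP := pp_pos ht0 ht1 hσ0 hσ1
  have hpq := pp_add_qq ht0 ht1 hσ0 hσ1
  have hpe : 1 - qq t σ = pp t σ := by linarith
  have hq1 := qq_lt_one ht0 ht1 hσ0 hσ1
  have hq0 : 0 < qq t σ := by
    unfold qq
    apply div_pos _ hD
    apply mul_pos (by positivity) (by linarith)
  have hqz : qq t σ ≤ σ ^ 2 := by
    unfold qq
    rw [div_le_iff₀ hD]
    nlinarith [sq_nonneg σ, sq_nonneg t, mul_nonneg (sq_nonneg σ) (sq_nonneg t),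
      mul_nonneg (sq_nonneg σ) (sub_nonneg.mpr hz.le)]
  have key := GP_le_FP hq0 hq1 hσ hσ1 hqz
  -- identify both sides
  have hx : xP (qq t σ) σ = t ^ 2 * σ := by
    unfold xP
    rw [hpe]
    unfold pp qq
    field_simp
    ring
  have e1 : 1 - t ^ 4 * σ ^ 2 = 1 - (t ^ 2 * σ) ^ 2 := by ring
  have hlogs : log (1 - t ^ 2) = log (qq t σ) + log (1 - σ ^ 2) - log (pp t σ) - 2 * log σ := by
    have h1 : 1 - t ^ 2 = qq t σ * (1 - σ ^ 2) / (pp t σ * σ ^ 2) := by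
      unfold qq pp
      field_simp
    rw [h1, log_div (by positivity) (by positivity), log_mul hq0.ne' (by linarith),
      log_mul hP.ne' (by positivity), log_pow]
    norm_num
    ring
  have hlogD : log (1 - t ^ 2 * σ ^ 2) = log (1 - σ ^ 2) - log (pp t σ) := by
    have h1 : 1 - t ^ 2 * σ ^ 2 = (1 - σ ^ 2) / pp t σ := by
      unfold pp
      field_simp
    rw [h1, log_div (by linarith) hP.ne']
  have habar : abar t σ = qq t σ / σ := by
    unfold abar qq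
    field_simp
  have hF : FP (qq t σ) σ = BB t σ := by
    unfold FP BB
    rw [hx, hpe, ← e1, hlogs, hlogD, habar]
    ring
  have hG : GP (qq t σ) σ = qq t σ / pp t σ * eeF (pp t σ * t ^ 2) := by
    unfold GP eeF
    rw [hpe]
    have h1 : 1 - pp t σ * t ^ 2 = qq t σ / σ ^ 2 := by
      unfold pp qq
      field_simp
      ring
    rw [h1, log_div hq0.ne' (by positivity), log_pow]
    have h2 : pp t σ * t ^ 2 = 1 - qq t σ / σ ^ 2 := by linarith
    rw [h2]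
    norm_num
  rw [← hF, ← hG]
  exact key

/-- `BB` is nonnegative. -/
lemma BB_nonneg : 0 ≤ BB t σ := by
  refine le_trans ?_ (BB_lower ht0 ht1 hσ0 hσ1)
  have hP := pp_pos ht0 ht1 hσ0 hσ1
  have hq := qq_nonneg ht0 ht1 hσ0 hσ1
  have hp1 := pp_le_one ht0 ht1 hσ0 hσ1
  have hu := sq_t_lt ht0 ht1 hσ0 hσ1
  apply mul_nonneg (div_nonneg hq hP.le)
  apply eeF_nonneg
  nlinarith [sq_nonneg t]

end

/-- Every `(a,b)` with `a ≥ 0`, `b > 0`, `a + b < 1` is on the surface. -/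
lemma exists_param {a b : ℝ} (ha : 0 ≤ a) (hb : 0 < b) (hab : a + b < 1) :
    ∃ t σ : ℝ, 0 < t ∧ t < 1 ∧ 0 ≤ σ ∧ σ < 1 ∧ abar t σ = a ∧ bbar t σ = b := by
  have hbl : b < 1 := by linarith
  have hm1 : 0 < 1 + (a - b) := by linarith
  have hm2 : 0 < 1 - (a - b) := by linarith
  have hp1 : 0 < 1 + (a + b) := by linarith
  have hp2 : 0 < 1 - (a + b) := by linarith
  set R := (1 + (a + b)) / (1 - (a + b)) with hR
  set S := (1 + (a - b)) / (1 - (a - b)) with hS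
  have hRpos : 0 < R := div_pos hp1 hp2
  have hSpos : 0 < S := div_pos hm1 hm2
  set A := √R with hA
  set B := √S with hB
  have hA0 : 0 < A := Real.sqrt_pos.mpr hRpos
  have hB0 : 0 < B := Real.sqrt_pos.mpr hSpos
  have hA2 : A ^ 2 = R := Real.sq_sqrt hRpos.le
  have hB2 : B ^ 2 = S := Real.sq_sqrt hSpos.le
  have hp2' := hp2.ne'
  have hm2' := hm2.ne'
  have hAR : (A ^ 2 - 1) / (A ^ 2 + 1) = a + b := by
    rw [hA2, hR]
    have : 1 + (a + b) + (1 - (a + b)) ≠ 0 := by norm_num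
    have e1 : (1 + (a + b)) / (1 - (a + b)) - 1 = 2 * (a + b) / (1 - (a + b)) := by
      field_simp
      ring
    have e2 : (1 + (a + b)) / (1 - (a + b)) + 1 = 2 / (1 - (a + b)) := by
      field_simp
      ring
    rw [e1, e2]
    field_simp
  have hBS : (B ^ 2 - 1) / (B ^ 2 + 1) = a - b := by
    rw [hB2, hS]
    have e1 : (1 + (a - b)) / (1 - (a - b)) - 1 = 2 * (a - b) / (1 - (a - b)) := by
      field_simp
      ring
    have e2 : (1 + (a - b)) / (1 - (a - b)) + 1 = 2 / (1 - (a - b)) := by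
      field_simp
      ring
    rw [e1, e2]
    field_simp
  have hSR : S < R := by
    rw [hR, hS, div_lt_div_iff₀ hm2 hp2]
    nlinarith
  have hBA : B < A := Real.sqrt_lt_sqrt hSpos.le hSR
  have hRS : 1 ≤ R * S := by
    rw [hR, hS, div_mul_div_comm, le_div_iff₀ (by positivity)]
    nlinarith
  have hAB : 1 ≤ A * B := by
    have : (1:ℝ) ≤ (A * B) ^ 2 := by rw [mul_pow, hA2, hB2]; exact hRS
    nlinarith [mul_pos hA0 hB0]
  set t := (A - B) / (A + B) with ht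
  set σ := (A * B - 1) / (A * B + 1) with hσ
  have hAB2 : 0 < A * B := mul_pos hA0 hB0
  have ht0 : 0 < t := div_pos (by linarith) (by linarith)
  have ht1 : t < 1 := by rw [ht, div_lt_one (by linarith)]; linarith
  have hσ0 : 0 ≤ σ := div_nonneg (by linarith) (by linarith)
  have hσ1 : σ < 1 := by rw [hσ, div_lt_one (by linarith)]; linarith
  have h1 := abar_add_bbar ht0 ht1 hσ0 hσ1
  have h2 := abar_sub_bbar ht0 ht1 hσ0 hσ1
  have h3 : (σ + t) / (1 + σ * t) = a + b := by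
    rw [← hAR, hσ, ht]
    have h5 : 0 < A + B := by linarith
    have h6 : 0 < A * B + 1 := by linarith
    have h7 : 0 < A ^ 2 + 1 := by positivity
    have h8 : (A * B - 1) / (A * B + 1) + (A - B) / (A + B) =
        2 * B * (A ^ 2 - 1) / ((A * B + 1) * (A + B)) := by
      field_simp
      ring
    have h9 : 1 + (A * B - 1) / (A * B + 1) * ((A - B) / (A + B)) =
        2 * B * (A ^ 2 + 1) / ((A * B + 1) * (A + B)) := by
      field_simp
      ring
    rw [h8, h9]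
    field_simp
  have h4 : (σ - t) / (1 - σ * t) = a - b := by
    rw [← hBS, hσ, ht]
    have h5 : 0 < A + B := by linarith
    have h6 : 0 < A * B + 1 := by linarith
    have h7 : 0 < B ^ 2 + 1 := by positivity
    have h8 : (A * B - 1) / (A * B + 1) - (A - B) / (A + B) =
        2 * A * (B ^ 2 - 1) / ((A * B + 1) * (A + B)) := by
      field_simp
      ring
    have h9 : 1 - (A * B - 1) / (A * B + 1) * ((A - B) / (A + B)) =
        2 * A * (B ^ 2 + 1) / ((A * B + 1) * (A + B)) := by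
      field_simp
      ring
    rw [h8, h9]
    field_simp
  refine ⟨t, σ, ht0, ht1, hσ0, hσ1, ?_, ?_⟩
  · rw [h3] at h1; rw [h4] at h2; linarith
  · rw [h3] at h1; rw [h4] at h2; linarith

/-- Given `t` and `p ∈ (0,1]`, the `σ` with `pp t σ = p`. -/
lemma exists_sigma {t p : ℝ} (ht0 : 0 < t) (ht1 : t < 1) (hp0 : 0 < p) (hp1 : p ≤ 1) :
    ∃ σ : ℝ, 0 ≤ σ ∧ σ < 1 ∧ pp t σ = p := by
  have hu : t ^ 2 < 1 := by nlinarith
  have hu0 : 0 ≤ t ^ 2 := sq_nonneg t
  have hd : 0 < 1 - p * t ^ 2 := by nlinarith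
  have hd' := hd.ne'
  have hd'' : 1 - t ^ 2 * p ≠ 0 := by intro h; apply hd'; linarith
  have hz0 : 0 ≤ (1 - p) / (1 - p * t ^ 2) := div_nonneg (by linarith) hd.le
  have hz1 : (1 - p) / (1 - p * t ^ 2) < 1 := by
    rw [div_lt_one hd]
    nlinarith
  refine ⟨√((1 - p) / (1 - p * t ^ 2)), Real.sqrt_nonneg _, ?_, ?_⟩
  · rw [Real.sqrt_lt' one_pos]
    simpa using hz1
  · unfold pp
    rw [Real.sq_sqrt hz0]
    have h2 : 0 < 1 - t ^ 2 := by linarith
    have h2' := h2.ne'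
    have e1 : 1 - (1 - p) / (1 - p * t ^ 2) = p * (1 - t ^ 2) / (1 - p * t ^ 2) := by
      field_simp
      ring
    have e2 : 1 - t ^ 2 * ((1 - p) / (1 - p * t ^ 2)) = (1 - t ^ 2) / (1 - p * t ^ 2) := by
      field_simp
      ring
    rw [e1, e2]
    field_simp

/-- Monotonicity of the half-difference of `atanh` in `a ≥ 0`. -/
lemma At_diff_mono {a a' b : ℝ} (ha : 0 ≤ a) (haa : a ≤ a') (hb : 0 ≤ b) (hab : a' + b < 1) :
    At (a + b) - At (a - b) ≤ At (a' + b) - At (a' - b) := by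
  have hin : ∀ x ∈ Icc 0 a', |x + b| < 1 ∧ |x - b| < 1 := by
    intro x hx
    have h1 := hx.1
    have h2 := hx.2
    constructor <;> rw [abs_lt] <;> constructor <;> linarith
  have hm : MonotoneOn (fun x => At (x + b) - At (x - b)) (Icc 0 a') := by
    apply mono_of_hasDeriv (convex_Icc 0 a')
      (f' := fun x => 1 / (1 - (x + b) ^ 2) - 1 / (1 - (x - b) ^ 2))
    · intro x hx
      obtain ⟨h1, h2⟩ := hin x hx
      have d1 := (hasDerivAt_At h1).comp_add_const x b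
      have d2 := (hasDerivAt_At h2).comp_sub_const x b
      exact (d1.sub d2).continuousAt.continuousWithinAt
    · intro x hx
      obtain ⟨h1, h2⟩ := hin x (interior_subset hx)
      have d1 := (hasDerivAt_At h1).comp_add_const x b
      have d2 := (hasDerivAt_At h2).comp_sub_const x b
      exact d1.sub d2
    · intro x hx
      have hx' := interior_subset hx
      obtain ⟨h1, h2⟩ := hin x hx'
      have p1 := one_sub_sq_pos h1
      have p2 := one_sub_sq_pos h2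
      have : 1 / (1 - (x - b) ^ 2) ≤ 1 / (1 - (x + b) ^ 2) := by
        apply one_div_le_one_div_of_le p1
        nlinarith [hx'.1, mul_nonneg hx'.1 hb]
      linarith
  have := hm ⟨ha, haa⟩ ⟨by linarith, le_rfl⟩ haa
  exact this

end Vale.Agent.Lib.P322B
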