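import Mathlib

/-!
# Definitions for the Bellman-function proof of balanced Courtade-Kumar
All functions in nats, on the scale `t ∈ (-1,1)` with `t = 2p-1`.
-/

namespace Vale.Agent.Lib.P322B

open Real

/-- `atanh t`. -/
noncomputable def At (t : ℝ) : ℝ := (log (1 + t) - log (1 - t)) / 2

/-- `Phi(t) = ((1+t)log(1+t)+(1-t)log(1-t))/2`; `log 2 - Phi` is the binary entropy at `(1+t)/2`. -/
noncomputable def Ph (t : ℝ) : ℝ := ((1 + t) * log (1 + t) + (1 - t) * log (1 - t)) / 2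

/-- Binary entropy (nats) of `(1+t)/2`. -/
noncomputable def hh (t : ℝ) : ℝ := log 2 - Ph t

/-- `Xi(t) = t atanh t - 2 Phi(t)`. -/
noncomputable def Xi (t : ℝ) : ℝ := t * At t - 2 * Ph t

/-- `kk(t) = t A'(t)/A(t) - 1` (this is `kappa - 2`), with value `0` at `t = 0`. -/
noncomputable def kk (t : ℝ) : ℝ := if t = 0 then 0 else t / ((1 - t ^ 2) * At t) - 1

/-- Derivative of `kk` on `(0,1)`. -/
noncomputable def kkD (t : ℝ) : ℝ := (At t * (1 + t ^ 2) - t) / ((1 - t ^ 2) ^ 2 * (At t) ^ 2)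

/-- `CC(t) = Xi(t) + kk(t) hh(t)`. -/
noncomputable def CC (t : ℝ) : ℝ := Xi t + kk t * hh t

/-- The weight `m(a) = (1-a²)(1-a²/8)`. -/
noncomputable def mm (a : ℝ) : ℝ := (1 - a ^ 2) * (1 - a ^ 2 / 8)

/-- `D(b) = 1 - m(b) = b²(9/8 - b²/8)`. -/
noncomputable def DD (b : ℝ) : ℝ := b ^ 2 * (9 / 8 - b ^ 2 / 8)

/-- `J(s,x) = (atanh s - atanh x)(s - x)`. -/
noncomputable def JJ (s x : ℝ) : ℝ := (At s - At x) * (s - x)

/-- Second difference of `Phi`. -/
noncomputable def GG (a b : ℝ) : ℝ := Ph (a + b) + Ph (a - b) - 2 * Ph a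

/-- `rho(v) = v log v - v + 1`. -/
noncomputable def rhoF (v : ℝ) : ℝ := v * log v - v + 1

/-- `e(x) = -x - log(1-x)`. -/
noncomputable def eeF (x : ℝ) : ℝ := -x - log (1 - x)

/-- Slope parameter `mu(T)` of the plane family. -/
noncomputable def muP (T : ℝ) : ℝ := T ^ 2 / (1 - T ^ 2) / (T * At T + hh T)

/-- Slope parameter `lambda(T)` of the plane family. -/
noncomputable def lamP (T : ℝ) : ℝ := At T * (1 - muP T) + T / (1 - T ^ 2)

end Vale.Agent.Lib.P322B
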