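import Vale.Agent.Lib.P322B.Calculus

/-! # Module D: the perspective function `Psi` and its dual description. -/

namespace Vale.Agent.Lib.P322B

open Real Set

/-- Bregman-type inequality (concavity of `CC` as a function of `kk`). -/
lemma bregman {σ τ : ℝ} (hσ : σ ∈ Ico (0:ℝ) 1) (hτ : τ ∈ Ico (0:ℝ) 1) :
    CC τ - hh σ * kk τ ≤ CC σ - hh σ * kk σ := by
  have hc : ∀ {a b : ℝ}, 0 ≤ a → b < 1 → ContinuousOn (fun x => CC x - hh σ * kk x) (Icc a b) := by
    intro a b ha hb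
    have hs : Icc a b ⊆ Ico 0 1 := fun x hx => ⟨by linarith [hx.1], by linarith [hx.2]⟩
    exact (continuousOn_CC.mono hs).sub (continuousOn_const.mul (continuousOn_kk.mono hs))
  have hd : ∀ x, 0 < x → x < 1 → HasDerivAt (fun x => CC x - hh σ * kk x) (kkD x * (hh x - hh σ)) x := by
    intro x h0 h1
    have d := (hasDerivAt_CC h0 h1).sub ((hasDerivAt_kk h0 h1).const_mul (hh σ))
    refine HasDerivAt.congr_deriv d ?_
    ring
  rcases le_total τ σ with h | h
  · have hm : MonotoneOn (fun x => CC x - hh σ * kk x) (Icc τ σ) := by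
      apply mono_of_hasDeriv (convex_Icc τ σ) (f' := fun x => kkD x * (hh x - hh σ)) (hc hτ.1 hσ.2)
      · intro x hx
        rw [interior_Icc] at hx
        exact hd x (by linarith [hx.1, hτ.1]) (by linarith [hx.2, hσ.2])
      · intro x hx
        rw [interior_Icc] at hx
        have h0 : 0 < x := by linarith [hx.1, hτ.1]
        have h1 : x < 1 := by linarith [hx.2, hσ.2]
        apply mul_nonneg (kkD_nonneg h0 h1)
        have := hh_anti.antitoneOn (mem_Ico.mpr ⟨h0.le, h1⟩) hσ hx.2.le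
        linarith
    exact hm ⟨le_rfl, h⟩ ⟨h, le_rfl⟩ h
  · have hm : AntitoneOn (fun x => CC x - hh σ * kk x) (Icc σ τ) := by
      apply anti_of_hasDeriv (convex_Icc σ τ) (f' := fun x => kkD x * (hh x - hh σ)) (hc hσ.1 hτ.2)
      · intro x hx
        rw [interior_Icc] at hx
        exact hd x (by linarith [hx.1, hσ.1]) (by linarith [hx.2, hτ.2])
      · intro x hx
        rw [interior_Icc] at hx
        have h0 : 0 < x := by linarith [hx.1, hσ.1]
        have h1 : x < 1 := by linarith [hx.2, hτ.2]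
        apply mul_nonpos_of_nonneg_of_nonpos (kkD_nonneg h0 h1)
        have := hh_anti.antitoneOn hσ (mem_Ico.mpr ⟨h0.le, h1⟩) hx.1.le
        linarith
    exact hm ⟨le_rfl, h⟩ ⟨h, le_rfl⟩ h

open Classical in
/-- Inverse of `hh` on `(0, log 2)`, and `0` for `y ≥ log 2`. -/
noncomputable def tauY (y : ℝ) : ℝ :=
  if h : 0 < y ∧ y < log 2 then Classical.choose (exists_hh_eq h.1 h.2) else 0

lemma tauY_spec {y : ℝ} (h0 : 0 < y) (h1 : y < log 2) : tauY y ∈ Ioo (0:ℝ) 1 ∧ hh (tauY y) = y := by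
  unfold tauY
  rw [dif_pos ⟨h0, h1⟩]
  exact Classical.choose_spec (exists_hh_eq h0 h1)

lemma tauY_mem (y : ℝ) : tauY y ∈ Ico (0:ℝ) 1 := by
  by_cases h : 0 < y ∧ y < log 2
  · have := (tauY_spec h.1 h.2).1
    exact ⟨this.1.le, this.2⟩
  · unfold tauY
    rw [dif_neg h]
    exact ⟨le_rfl, one_pos⟩

lemma tauY_floor {y : ℝ} (h : log 2 ≤ y) : tauY y = 0 := by
  unfold tauY
  rw [dif_neg]
  intro h2
  linarith [h2.2]

lemma tauY_hh {t : ℝ} (h0 : 0 < t) (h1 : t < 1) : tauY (hh t) = t := by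
  have hp := hh_pos (abs_lt_of_Ioo h0 h1)
  have hlt : hh t < log 2 := by
    rw [← hh_zero]
    exact hh_anti (left_mem_Ico.mpr one_pos) (mem_Ico.mpr ⟨h0.le, h1⟩) h0
  obtain ⟨hm, he⟩ := tauY_spec hp hlt
  exact hh_anti.injOn (mem_Ico.mpr ⟨hm.1.le, hm.2⟩) (mem_Ico.mpr ⟨h0.le, h1⟩) he

/-- `tauY` is antitone on positive reals. -/
lemma tauY_anti {y y' : ℝ} (h0 : 0 < y) (h : y ≤ y') : tauY y' ≤ tauY y := by
  by_cases h1 : y < log 2
  · obtain ⟨hm, he⟩ := tauY_spec h0 h1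
    by_cases h2 : y' < log 2
    · obtain ⟨hm', he'⟩ := tauY_spec (by linarith) h2
      by_contra hc
      push Not at hc
      have := hh_anti (mem_Ico.mpr ⟨hm.1.le, hm.2⟩) (mem_Ico.mpr ⟨hm'.1.le, hm'.2⟩) hc
      rw [he, he'] at this
      linarith
    · rw [tauY_floor (not_lt.mp h2)]
      exact hm.1.le
  · rw [tauY_floor (not_lt.mp h1), tauY_floor (by linarith [not_lt.mp h1])]

/-- `Psi(m,l) = sup_τ [CC(τ) m - kk(τ) l]`, attained at `τ = tauY (l/m)`. -/
noncomputable def Psi (m l : ℝ) : ℝ := CC (tauY (l / m)) * m - kk (tauY (l / m)) * l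

lemma le_Psi {τ m l : ℝ} (hτ : τ ∈ Ico (0:ℝ) 1) (hm : 0 < m) (hl : 0 < l) :
    CC τ * m - kk τ * l ≤ Psi m l := by
  unfold Psi
  have hlm : 0 < l / m := div_pos hl hm
  have e : l = (l / m) * m := by field_simp
  by_cases h : l / m < log 2
  · obtain ⟨hs, he⟩ := tauY_spec hlm h
    have hb := bregman (σ := tauY (l / m)) (τ := τ) (mem_Ico.mpr ⟨hs.1.le, hs.2⟩) hτ
    rw [he] at hb
    have := mul_le_mul_of_nonneg_right hb hm.le
    calc CC τ * m - kk τ * l = (CC τ - l / m * kk τ) * m := by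
          rw [sub_mul]; rw [mul_assoc, mul_comm (kk τ) m, ← mul_assoc, ← e]; ring
      _ ≤ (CC (tauY (l / m)) - l / m * kk (tauY (l / m))) * m := this
      _ = _ := by
          rw [sub_mul]; rw [mul_assoc, mul_comm (kk _) m, ← mul_assoc, ← e]; ring
  · have h2 := not_lt.mp h
    rw [tauY_floor h2, CC_zero, kk_zero]
    have hb := bregman (σ := 0) (τ := τ) (left_mem_Ico.mpr one_pos) hτ
    rw [hh_zero, CC_zero, kk_zero] at hb
    have hk := kk_nonneg hτ.1 hτ.2
    have h3 : m * log 2 ≤ l := by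
      rw [le_div_iff₀ hm] at h2
      linarith
    have h4 : kk τ * (m * log 2) ≤ kk τ * l := mul_le_mul_of_nonneg_left h3 hk
    have h5 : CC τ * m ≤ log 2 * kk τ * m := by
      apply mul_le_mul_of_nonneg_right _ hm.le
      linarith
    nlinarith

lemma Psi_nonneg {m l : ℝ} (hm : 0 < m) (hl : 0 < l) : 0 ≤ Psi m l := by
  have := le_Psi (τ := 0) (left_mem_Ico.mpr one_pos) hm hl
  rw [CC_zero, kk_zero] at this
  simpa using this

lemma Psi_floor {m l : ℝ} (hm : 0 < m) (h : m * log 2 ≤ l) : Psi m l = 0 := by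
  unfold Psi
  have h2 : log 2 ≤ l / m := by
    rw [le_div_iff₀ hm]
    linarith
  rw [tauY_floor h2, CC_zero, kk_zero]
  ring

/-- Value on the non-floor part. -/
lemma Psi_eq {t m : ℝ} (h0 : 0 < t) (h1 : t < 1) (hm : 0 < m) : Psi m (m * hh t) = m * Xi t := by
  unfold Psi
  have e : m * hh t / m = hh t := by field_simp
  rw [e, tauY_hh h0 h1]
  unfold CC
  ring

lemma Psi_homog {p m l : ℝ} (hp : 0 < p) (hm : 0 < m) : Psi (p * m) (p * l) = p * Psi m l := by
  unfold Psi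
  have e : p * l / (p * m) = l / m := by field_simp
  rw [e]
  ring

lemma Psi_mono_left {m m' l : ℝ} (hm : 0 < m) (hmm : m ≤ m') (hl : 0 < l) : Psi m l ≤ Psi m' l := by
  have h1 := le_Psi (τ := tauY (l / m)) (tauY_mem _) (show 0 < m' by linarith) hl
  have hc := CC_nonneg (tauY_mem (l / m)).1 (tauY_mem (l / m)).2
  have h2 : CC (tauY (l / m)) * m ≤ CC (tauY (l / m)) * m' := mul_le_mul_of_nonneg_left hmm hc
  unfold Psi at h1 ⊢
  linarith

/-- Submodularity. -/
lemma Psi_submod {M M' l l' : ℝ} (hM : 0 < M) (hMM : M ≤ M') (hl' : 0 < l') (hll : l' ≤ l) :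
    Psi M' l + Psi M l' ≤ Psi M' l' + Psi M l := by
  have hM' : 0 < M' := by linarith
  have hl : 0 < l := by linarith
  set τ₁ := tauY (l / M') with hτ₁
  set τ₂ := tauY (l' / M) with hτ₂
  have m₁ : τ₁ ∈ Ico (0:ℝ) 1 := tauY_mem _
  have m₂ : τ₂ ∈ Ico (0:ℝ) 1 := tauY_mem _
  have e₁ : Psi M' l = CC τ₁ * M' - kk τ₁ * l := rfl
  have e₂ : Psi M l' = CC τ₂ * M - kk τ₂ * l' := rfl
  rcases le_total τ₂ τ₁ with h | h
  · have h1 := le_Psi m₁ hM' hl'
    have h2 := le_Psi m₂ hM hl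
    have hk := kk_mono m₂ m₁ h
    have : 0 ≤ (kk τ₁ - kk τ₂) * (l - l') := mul_nonneg (by linarith) (by linarith)
    rw [e₁, e₂]
    nlinarith
  · have h1 := le_Psi m₂ hM' hl'
    have h2 := le_Psi m₁ hM hl
    have hk := CC_mono m₁ m₂ h
    have : 0 ≤ (CC τ₂ - CC τ₁) * (M' - M) := mul_nonneg (by linarith) (by linarith)
    rw [e₁, e₂]
    nlinarith

end Vale.Agent.Lib.P322B
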