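import Mathlib

/-! # A rational checker for the cell decomposition of `E_main`. -/

namespace Vale.Agent.Lib.P322B.EC

/-- Lower bound of `log 2`. -/
def ln2lo : ℚ := 693147180 / 1000000000
/-- Upper bound of `log 2`. -/
def ln2hi : ℚ := 693147181 / 1000000000
/-- Lower bound of `log (32/31)`. -/
def lnrlo : ℚ := 15874349157 / 500000000000
/-- Upper bound of `log (32/31)`. -/
def lnrhi : ℚ := 6349739663 / 200000000000

/-- The grid `2^-i (31/32)^j`. -/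
def gridQ (i j : ℕ) : ℚ := (1 / 2) ^ i * (31 / 32) ^ j
/-- Lower bound of `- log (gridQ i j)`. -/
def llo (i j : ℕ) : ℚ := i * ln2lo + j * lnrlo
/-- Upper bound of `- log (gridQ i j)`. -/
def lhi (i j : ℕ) : ℚ := i * ln2hi + j * lnrhi

/-- Partial sums for the logarithm. -/
def sumS (E : ℚ) : ℕ → ℚ
  | 0 => 0
  | n + 1 => sumS E n + (-E) ^ (n + 1) / ((n : ℚ) + 1)

/-- Upper bound of `hh` at the grid point. -/
def hhiQ (i j : ℕ) : ℚ :=
  -sumS (gridQ i j) 24 + (gridQ i j) ^ 25 / (1 - gridQ i j) + lhi i j * gridQ i j / (1 + gridQ i j)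

/-- Upper bound of `CC` at the grid point. -/
def ChiQ (i j : ℕ) : ℚ :=
  (1 - gridQ i j) / (1 + gridQ i j) * (lhi i j / 2)
    + (1 + (1 - (gridQ i j) ^ 2) / (4 * (llo i j / 2) * gridQ i j)) * hhiQ i j - 2 * ln2lo

/-- `u = t²` at the grid point. -/
def uQ (i j : ℕ) : ℚ := ((1 - gridQ i j) / (1 + gridQ i j)) ^ 2

/-- The function `gamma`. -/
def gamU (u q : ℚ) : ℚ := u - (1 - (1 - q) * u) * (1 + u * q) / 8

/-- A lower bound of `v₂` on a cell. -/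
def v2Low (u₁ u₂ q₁ q₂ : ℚ) : ℚ :=
  1 - q₂ / 8 + u₁ * (q₁ + q₁ * (1 - q₂) / 8) - u₂ * (q₂ ^ 2 / 8 + 9 / 8 * (1 - q₁))
    + u₁ ^ 2 * (1 - q₂) * (q₁ ^ 2 + (1 - q₂) ^ 2) / 8

/-- One cell: `q₁ = k / 2^m`, grid hint `(a,b)` for the entropy term and grid hint `(c,d)`
for the child; `d = 1000` means that no child term is used. -/
structure Cell where
  k : ℕ
  m : ℕ
  a : ℕ
  b : ℕ
  c : ℕ
  d : ℕ

/-- The lower end of the cell. -/
def Cell.q₁ (c : Cell) : ℚ := (c.k : ℚ) / 2 ^ c.m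

/-- One slab: the new grid point `(i,j)`, the hint `(fi,fj)` and the list of cells. -/
structure Slab where
  i : ℕ
  j : ℕ
  fi : ℕ
  fj : ℕ
  cells : List Cell

/-- The lower bound of `eeF(X)/X²`. -/
def epsQ (a b : ℕ) : ℚ :=
  if a = 0 ∧ b = 0 then 1 / 2 else (llo a b - (1 - gridQ a b)) / (1 - gridQ a b) ^ 2

/-- The check of one cell. -/
def cellOK (u₁ u₂ Cb fb Lf q₂ : ℚ) (c : Cell) : Bool :=
  decide (gamU u₂ c.q₁ ≤ 0) ||
    (decide (1 - (1 - q₂) * u₁ ≤ gridQ c.a c.b) &&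
      (decide (gamU u₂ c.q₁ * (Cb + q₂ * gamU u₂ c.q₁ / 3) ≤ u₁ ^ 2 * epsQ c.a c.b) ||
        (decide (2 * gridQ c.c c.d ≤ v2Low u₁ u₂ c.q₁ q₂) && decide (fb ≤ 2 * gridQ c.c c.d) &&
          decide (0 ≤ (2 * gridQ c.c c.d * (ln2lo - lhi c.c c.d + Lf) - 2 * gridQ c.c c.d + fb) / 2) &&
          decide (gamU u₂ c.q₁ * (Cb + q₂ * gamU u₂ c.q₁ / 3) ≤ u₁ ^ 2 * epsQ c.a c.b
            + (2 * gridQ c.c c.d * (ln2lo - lhi c.c c.d + Lf) - 2 * gridQ c.c c.d + fb) / 2 / q₂))))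

/-- The check of a list of cells covering `(0,q₂]`. -/
def cellsOK (u₁ u₂ Cb fb Lf : ℚ) : ℚ → List Cell → Bool
  | q₂, [] => decide (q₂ = 0)
  | q₂, c :: cs => decide (0 < q₂) && decide (c.q₁ ≤ q₂) && cellOK u₁ u₂ Cb fb Lf q₂ c &&
      cellsOK u₁ u₂ Cb fb Lf c.q₁ cs

/-- The check of one slab starting from the grid point `(i₁,j₁)`. -/
def slabOK (i₁ j₁ : ℕ) (s : Slab) : Bool :=
  decide (gridQ s.i s.j ≤ gridQ i₁ j₁) &&
    decide (hhiQ i₁ j₁ / ln2lo ≤ gridQ s.fi s.fj) &&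
    cellsOK (uQ i₁ j₁) (uQ s.i s.j) (ChiQ s.i s.j) (gridQ s.fi s.fj) (llo s.fi s.fj) 1 s.cells

/-- The check of a list of slabs. -/
def slabsOK : ℕ → ℕ → List Slab → Bool
  | _, _, [] => true
  | i₁, j₁, s :: ss => slabOK i₁ j₁ s && slabsOK s.i s.j ss

end Vale.Agent.Lib.P322B.EC
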