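import Vale.Agent.Lib.P322B.ESound2

/-! # The corner `t → 1` of `E_main`: an analytic argument. -/

namespace Vale.Agent.Lib.P322B.EC

open Real Set
open Vale.Agent.Lib.P322B

lemma v2F_lower {u q : ℝ} (hu0 : 0 ≤ u) (hu1 : u ≤ 1) (hq0 : 0 ≤ q) (hq1 : q ≤ 1) :
    3 / 4 * (1 - u) + 7 / 4 * u * q ≤ 1 - q / 8 + u * (q + q * (1 - q) / 8)
      - u * (q ^ 2 / 8 + 9 / 8 * (1 - q)) + u ^ 2 * (1 - q) * (q ^ 2 + (1 - q) ^ 2) / 8 := by
  -- the difference is `q²(1-q)/4 + (1-u) * (-B - C (1+u))`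
  have hC : 0 ≤ (1 - q) * (2 * q ^ 2 - 2 * q + 1) / 8 := by
    apply div_nonneg (mul_nonneg (by linarith) _) (by norm_num)
    nlinarith [sq_nonneg (2 * q - 1)]
  have hB : 0 ≤ 1 / 8 + q / 4 - 3 / 4 * q ^ 2 + 1 / 2 * q ^ 3 := by
    nlinarith [mul_nonneg hq0 (sub_nonneg.mpr hq1), mul_nonneg (mul_nonneg hq0 (sub_nonneg.mpr hq1)) hq0,
      sq_nonneg (q - 1 / 4), sq_nonneg (q - 3 / 4), mul_nonneg hq0 (sq_nonneg (q - 3 / 4)),
      mul_nonneg (sub_nonneg.mpr hq1) (sq_nonneg (q - 1 / 4))]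
  have h1 : 0 ≤ (1 - u) * ((3 / 8 - q / 2 + q ^ 2 / 4)
      - (1 - q) * (2 * q ^ 2 - 2 * q + 1) / 8 * (1 + u)) := by
    apply mul_nonneg (by linarith)
    have h2 : (1 - q) * (2 * q ^ 2 - 2 * q + 1) / 8 * (1 + u) ≤
        (1 - q) * (2 * q ^ 2 - 2 * q + 1) / 8 * 2 :=
      mul_le_mul_of_nonneg_left (by linarith) hC
    nlinarith
  have h3 : 0 ≤ q ^ 2 * (1 - q) / 4 := by
    apply div_nonneg (mul_nonneg (sq_nonneg q) (by linarith)) (by norm_num)
  nlinarith

lemma corner_Y {e : ℝ} (h0 : 0 < e) (he : e ≤ 12 / 100000) : 9 ≤ -log e := by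
  have h1 : exp 9 ≤ 100000 / 12 := by
    have h2 : exp 9 = exp 1 ^ 9 := by
      rw [← exp_nat_mul]
      norm_num
    rw [h2]
    have h3 := Real.exp_one_lt_d9
    have h4 := Real.exp_pos 1
    have h5 : exp 1 ^ 9 ≤ (2.7182818286 : ℝ) ^ 9 := pow_le_pow_left₀ h4.le h3.le 9
    norm_num at h5 ⊢
    linarith
  have h2 : 9 ≤ log (100000 / 12) := (le_log_iff_exp_le (by norm_num)).mpr h1
  have h3 : log e ≤ log (12 / 100000) := log_le_log h0 he
  have h4 : log (12 / 100000 : ℝ) = -log (100000 / 12) := by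
    rw [← log_inv]
    norm_num
  linarith

/-- The coordinates of the corner. -/
lemma corner_facts {t : ℝ} (ht0 : 0 < t) (ht1 : t < 1) (he : 1 - t ^ 2 ≤ 12 / 100000) :
    0 < (1 - t) / (1 + t) ∧ (1 - t) / (1 + t) ≤ 12 / 100000 ∧ (1 - t) / (1 + t) < 1
      ∧ tE ((1 - t) / (1 + t)) = t ∧ 9 ≤ -log (1 - t ^ 2)
      ∧ -log (1 - t ^ 2) + 2 * (log 2 - (1 - t) / (1 + t)) ≤ -log ((1 - t) / (1 + t))
      ∧ -log ((1 - t) / (1 + t)) ≤ -log (1 - t ^ 2) + 2 * log 2 := by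
  have hE0 : 0 < (1 - t) / (1 + t) := div_pos (by linarith) (by linarith)
  have hE1 : (1 - t) / (1 + t) < 1 := by
    rw [div_lt_one (by linarith)]
    linarith
  have h1t : 1 + t ≠ 0 := by linarith
  have htE : tE ((1 - t) / (1 + t)) = t := by
    unfold tE
    field_simp
    ring
  have he0 : 0 < 1 - t ^ 2 := by nlinarith
  have he₁E : 1 - t ^ 2 = (1 - t) / (1 + t) * (1 + t) ^ 2 := by
    field_simp
    ring
  have hEe : (1 - t) / (1 + t) ≤ 1 - t ^ 2 := by
    rw [he₁E]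
    have : 1 ≤ (1 + t) ^ 2 := by nlinarith
    nlinarith
  have hY9 := corner_Y he0 he
  have hlt : log (1 - t ^ 2) = log ((1 - t) / (1 + t)) + 2 * log (1 + t) := by
    rw [he₁E, log_mul hE0.ne' (by positivity), log_pow]
    norm_num
  have hlog1 : log (1 + t) ≤ log 2 := log_le_log (by linarith) (by linarith)
  have hlog2 : log 2 - (1 - t) / (1 + t) ≤ log (1 + t) := by
    have h1 := one_sub_inv_le_log_of_pos (show 0 < (1 + t) / 2 by linarith)
    rw [log_div (by linarith) (by norm_num)] at h1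
    have h2 : 1 - ((1 + t) / 2)⁻¹ = -((1 - t) / (1 + t)) := by
      field_simp
      ring
    rw [h2] at h1
    linarith
  refine ⟨hE0, by linarith, hE1, htE, hY9, by linarith, by linarith⟩

lemma corner_hh {E W : ℝ} (hE0 : 0 < E) (hE1 : E < 1) (hW : W = -log E) :
    hh (tE E) ≤ E * (1 + W) := by
  rw [hh_tE hE0 hE1, ← hW]
  have hW0 : 0 < W := by rw [hW]; exact w_pos hE0 hE1
  have h1 : log (1 + E) ≤ E := by
    have := log_le_sub_one_of_pos (show 0 < 1 + E by linarith)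
    linarith
  have h2 : W * E / (1 + E) ≤ W * E := by
    apply div_le_self (by positivity)
    linarith
  nlinarith

lemma corner_EW {E W : ℝ} (hE0 : 0 < E) (hW : W = -log E) : W * E ≤ 1 / 128 + 4 * E := by
  have hl2b := Real.log_two_lt_d9
  have h1 := log_le_sub_one_of_pos (show 0 < (1 / 128) / E by positivity)
  rw [log_div (by norm_num) hE0.ne'] at h1
  have h2 : log (1 / 128 : ℝ) = -(7 * log 2) := by
    rw [show (1 / 128 : ℝ) = (2 ^ 7)⁻¹ by norm_num, log_inv, log_pow]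
    norm_num
  rw [h2] at h1
  have h3 : W ≤ 1 / 128 / E + (7 * log 2 - 1) := by rw [hW]; linarith
  have h4 : W * E ≤ (1 / 128 / E + (7 * log 2 - 1)) * E := mul_le_mul_of_nonneg_right h3 hE0.le
  have h5 : (1 / 128 / E + (7 * log 2 - 1)) * E = 1 / 128 + (7 * log 2 - 1) * E := by
    field_simp
  rw [h5] at h4
  have h6 : (7 * log 2 - 1) * E ≤ 4 * E := by
    apply mul_le_mul_of_nonneg_right _ hE0.le
    norm_num at hl2b
    linarith
  linarith

lemma corner_K {E W : ℝ} (hE0 : 0 < E) (hE1 : E < 1) (hW : W = -log E) (hW9 : 9 ≤ W)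
    (hE2 : E ≤ 12 / 100000) :
    (1 + (1 - E ^ 2) / (4 * (W / 2) * E)) * hh (tE E) ≤ log 2 - 1 / 10 := by
  have hl2a := Real.log_two_gt_d9
  have hh1 := corner_hh hE0 hE1 hW
  have ht0 := tE_pos hE0 hE1
  have ht1 := tE_lt_one hE0 hE1
  have hh0 := hh_pos (abs_lt_of_Ioo ht0 ht1)
  have hW0 : 0 < W := by linarith
  have hEW := corner_EW hE0 hW
  have h1 : (1 - E ^ 2) / (4 * (W / 2) * E) ≤ 1 / (2 * W * E) := by
    have e : 4 * (W / 2) * E = 2 * W * E := by ring
    rw [e]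
    apply div_le_div_of_nonneg_right _ (by positivity)
    nlinarith [sq_nonneg E]
  have h0 : 0 ≤ 1 + 1 / (2 * W * E) := by positivity
  have h2 : (1 + (1 - E ^ 2) / (4 * (W / 2) * E)) * hh (tE E) ≤ (1 + 1 / (2 * W * E)) * (E * (1 + W)) := by
    apply mul_le_mul (by linarith) hh1 hh0.le h0
  have h3 : (1 + 1 / (2 * W * E)) * (E * (1 + W)) = E + W * E + 1 / (2 * W) + 1 / 2 := by
    field_simp
    ring
  have h4 : 1 / (2 * W) ≤ 1 / 18 := by
    apply one_div_le_one_div_of_le (by norm_num)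
    linarith
  norm_num at hl2a
  linarith

lemma corner_CC {t E W Y : ℝ} (hE0 : 0 < E) (hE1 : E < 1) (hE2 : E ≤ 12 / 100000)
    (htE : tE E = t) (hW : W = -log E) (hW9 : 9 ≤ W) (hWle : W ≤ Y + 2 * log 2) :
    CC t ≤ Y / 2 - 1 / 10 := by
  have hK := corner_K hE0 hE1 hW hW9 hE2
  have hCE := CC_tE hE0 hE1
  rw [← hW] at hCE
  have ht1 := tE_lt_one hE0 hE1
  rw [htE] at hK hCE ht1
  rw [hCE]
  have h1 : t * (W / 2) ≤ W / 2 := by nlinarith
  linarith

lemma corner_logf {t E W Y : ℝ} (hE0 : 0 < E) (hE1 : E < 1) (hE2 : E ≤ 12 / 100000)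
    (htE : tE E = t) (hW : W = -log E) (hY : 9 ≤ Y) (hWge : Y + 2 * (log 2 - E) ≤ W) :
    log (hh t / log 2) ≤ -(4 / 5 * Y) := by
  have hl2a := Real.log_two_gt_d9
  have hl2b := Real.log_two_lt_d9
  have hl2 := log_two_pos'
  have hh1 := corner_hh hE0 hE1 hW
  have ht0 := tE_pos hE0 hE1
  have ht1 := tE_lt_one hE0 hE1
  have hh0 := hh_pos (abs_lt_of_Ioo ht0 ht1)
  rw [htE] at hh1 hh0
  have hW0 : 9 ≤ W := by
    norm_num at hl2a
    linarith
  rw [log_div hh0.ne' hl2.ne']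
  have h1 : log (hh t) ≤ log (E * (1 + W)) := log_le_log hh0 hh1
  rw [log_mul hE0.ne' (by linarith)] at h1
  have h2 : log (1 + W) ≤ (1 + W) / 10 - 1 + log 10 := by
    have h3 := log_le_sub_one_of_pos (show 0 < (1 + W) / 10 by linarith)
    rw [log_div (by linarith) (by norm_num)] at h3
    linarith
  have h4 : log 10 ≤ 2311 / 1000 := by
    have h5 : 3 * log 10 ≤ 10 * log 2 := by
      have h6 : log ((10:ℝ) ^ 3) ≤ log ((2:ℝ) ^ 10) := log_le_log (by norm_num) (by norm_num)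
      rw [log_pow, log_pow] at h6
      norm_num at h6
      linarith
    norm_num at hl2b
    linarith
  have h6 : -log (log 2) ≤ 4429 / 10000 := by
    have h7 := log_le_sub_one_of_pos (show 0 < (log 2)⁻¹ by positivity)
    rw [log_inv] at h7
    have h8 : (log 2)⁻¹ ≤ 14429 / 10000 := by
      rw [inv_le_comm₀ hl2 (by norm_num)]
      norm_num at hl2a ⊢
      linarith
    linarith
  have h7 : log E = -W := by rw [hW]; ring
  norm_num at hl2a
  linarith

/-- Reduction of the left side. -/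
lemma corner_red {t q : ℝ} (ht0 : 0 < t) (ht1 : t < 1) (hq0 : 0 < q) (hq1 : q < 1)
    (hγ : 0 ≤ gam t q) :
    q * gam t q * (CC t + q * gam t q / 3) ≤ q * (CC t + q / 3) := by
  have hC0 := CC_nonneg ht0.le ht1
  have hu1 : t ^ 2 < 1 := by nlinarith
  have hu0 : 0 < t ^ 2 := by positivity
  have hγ1 : gam t q ≤ 1 := by
    unfold gam
    have h1 : 0 ≤ (1 - (1 - q) * t ^ 2) * (1 + t ^ 2 * q) := by
      apply mul_nonneg _ (by positivity)
      nlinarith
    linarith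
  have h1 : q * gam t q ≤ q := by nlinarith
  have h2 : q * gam t q / 3 ≤ q / 3 := by linarith
  have h3 : gam t q * (CC t + q * gam t q / 3) ≤ 1 * (CC t + q / 3) := by
    apply mul_le_mul hγ1 (by linarith) (by positivity) (by norm_num)
  have e : q * gam t q * (CC t + q * gam t q / 3) = q * (gam t q * (CC t + q * gam t q / 3)) := by ring
  rw [e]
  apply mul_le_mul_of_nonneg_left _ hq0.le
  linarith

/-- The entropy term in the corner. -/
lemma corner_T {u q : ℝ} (hu0 : 0 < u) (hu1 : u < 1) (hq0 : 0 < q) (hq1 : q < 1) :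
    -log (1 - (1 - q) * u) - 1 ≤ eeF ((1 - q) * u) / (1 - q) ^ 2 ∧
    u ^ 2 / 2 ≤ eeF ((1 - q) * u) / (1 - q) ^ 2 := by
  have hp : 0 < 1 - q := by linarith
  have hX0 : 0 < (1 - q) * u := by positivity
  have hX1 : (1 - q) * u < 1 := by nlinarith
  constructor
  · have h1 : eeF ((1 - q) * u) = -((1 - q) * u) + -log (1 - (1 - q) * u) := by
      unfold eeF
      ring
    have h2 : 0 ≤ eeF ((1 - q) * u) := eeF_nonneg hX1
    have h3 : eeF ((1 - q) * u) ≤ eeF ((1 - q) * u) / (1 - q) ^ 2 := by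
      rw [le_div_iff₀ (by positivity)]
      have : (1 - q) ^ 2 ≤ 1 := by nlinarith
      nlinarith
    linarith
  · have h1 := half_sq_le_eeF hX0.le hX1
    rw [le_div_iff₀ (by positivity)]
    have e : u ^ 2 / 2 * (1 - q) ^ 2 = ((1 - q) * u) ^ 2 / 2 := by ring
    rw [e]
    exact h1

/-- The child estimate in the corner. -/
lemma corner_child {t q Y L : ℝ} (ht0 : 0 < t) (ht1 : t < 1) (hq0 : 0 < q) (hq1 : q < 1)
    (he : 1 - t ^ 2 ≤ 12 / 100000) (hY : 9 ≤ Y) (hYe : Y = -log (1 - t ^ 2))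
    (hf : log (hh t / log 2) ≤ -(4 / 5 * Y))
    (hL : L = -log (1 - (1 - q) * t ^ 2)) (hcase : L < Y / 2 + 5 / 4) :
    4 / 5 * Y - L - 517 / 1000 ≤ (log (7 / 4 * t ^ 2 * q) - log (hh t / log 2) - 1)
      ∧ q * (8748 / 10000 * (log (7 / 4 * t ^ 2 * q) - log (hh t / log 2) - 1))
          ≤ Psi (v2F t q) (hh t) := by
  have hl2a := Real.log_two_gt_d9
  have hl2b := Real.log_two_lt_d9
  have hl2 := log_two_pos'
  have hAbs := abs_lt_of_Ioo ht0 ht1
  have hh0 := hh_pos hAbs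
  have hu1 : t ^ 2 < 1 := by nlinarith
  have hu0 : 0 < t ^ 2 := by positivity
  generalize hu : t ^ 2 = u at *
  have he0 : 0 < 1 - u := by linarith
  have hp : 0 < 1 - q := by linarith
  have hgeq : 1 - (1 - q) * u = (1 - u) + q * u := by ring
  have hg0 : 0 < 1 - (1 - q) * u := by rw [hgeq]; positivity
  have h16 : 16 * (1 - u) ≤ 1 - (1 - q) * u := by
    have h1 : log (16 * (1 - u)) ≤ log (1 - (1 - q) * u) := by
      rw [log_mul (by norm_num) he0.ne']
      have h2 : log (16:ℝ) = 4 * log 2 := by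
        rw [show (16:ℝ) = 2 ^ 4 by norm_num, log_pow]
        norm_num
      rw [h2]
      have h3 : log (1 - u) = -Y := by rw [hYe]; ring
      have h4 : log (1 - (1 - q) * u) = -L := by rw [hL]; ring
      rw [h3, h4]
      norm_num at hl2b
      linarith
    exact (log_le_log_iff (by positivity) hg0).mp h1
  have hqg : 15 / 16 * (1 - (1 - q) * u) ≤ q := by
    have h1 : q * u ≤ q := by nlinarith
    rw [hgeq] at h16 ⊢
    linarith
  have hlogq : -L - 1 / 15 ≤ log q := by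
    have h1 : log (15 / 16 * (1 - (1 - q) * u)) ≤ log q := log_le_log (by positivity) hqg
    rw [log_mul (by norm_num) hg0.ne'] at h1
    have h2 : -(1 / 15 : ℝ) ≤ log (15 / 16) := by
      have h3 := one_sub_inv_le_log_of_pos (show (0:ℝ) < 15 / 16 by norm_num)
      norm_num at h3 ⊢
      linarith
    have h4 : log (1 - (1 - q) * u) = -L := by rw [hL]; ring
    linarith
  have hulow : 1 - 12 / 100000 ≤ u := by linarith
  have hlogu : -(1 / 8000 : ℝ) ≤ log u := by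
    have h1 := one_sub_inv_le_log_of_pos hu0
    have h2 : u⁻¹ ≤ 1 + 1 / 8000 := by
      rw [inv_le_comm₀ hu0 (by norm_num)]
      norm_num at hulow ⊢
      linarith
    linarith
  have hlog74 : (554 / 1000 : ℝ) ≤ log (7 / 4) := by
    have h1 : log ((2:ℝ) ^ 4) ≤ log ((7 / 4 : ℝ) ^ 5) := log_le_log (by norm_num) (by norm_num)
    rw [log_pow, log_pow] at h1
    norm_num at h1 hl2a
    linarith
  have hx0 : 0 < 7 / 4 * u * q := by positivity
  have hlogx : log (7 / 4 * u * q) = log (7 / 4) + log u + log q := by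
    rw [log_mul (by positivity) hq0.ne', log_mul (by norm_num) hu0.ne']
  have hBlow : 4 / 5 * Y - L - 517 / 1000 ≤ log (7 / 4 * u * q) - log (hh t / log 2) - 1 := by
    rw [hlogx]
    linarith
  refine ⟨hBlow, ?_⟩
  have hf0 : 0 < hh t / log 2 := div_pos hh0 hl2
  have hB0 : 0 ≤ log (7 / 4 * u * q) - log (hh t / log 2) - 1 := by linarith
  have hfx : hh t / log 2 ≤ 7 / 4 * u * q := by
    have h1 : log (hh t / log 2) ≤ log (7 / 4 * u * q) := by linarith
    exact (log_le_log_iff hf0 hx0).mp h1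
  have hv2F : 3 / 4 * (1 - u) + 7 / 4 * u * q ≤ v2F t q := by
    rw [v2F_eq, hu]
    exact v2F_lower hu0.le hu1.le hq0.le hq1.le
  have hxv : 7 / 4 * u * q ≤ v2F t q := by
    have : 0 ≤ 3 / 4 * (1 - u) := by positivity
    linarith
  have hchild := Psi_child (m := v2F t q) (x := 7 / 4 * u * q) (fb := hh t / log 2)
    (Lx := log (7 / 4 * u * q)) (Lf := -log (hh t / log 2)) hh0 le_rfl hfx hxv hf0 le_rfl le_rfl
  set B := log (7 / 4 * u * q) - log (hh t / log 2) - 1 with hB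
  have hPB : (7 / 4 * u * q) * B / 2 ≤ Psi (v2F t q) (hh t) := by
    have e : (7 / 4 * u * q) * B / 2 =
        ((7 / 4 * u * q) * (log (7 / 4 * u * q) + -log (hh t / log 2)) - (7 / 4 * u * q)) / 2 := by
      rw [hB]
      ring
    rw [e]
    linarith
  have hc₁ : 8748 / 10000 ≤ 7 / 8 * u := by
    norm_num at hulow ⊢
    linarith
  have e : (7 / 4 * u * q) * B / 2 = q * (7 / 8 * u * B) := by ring
  rw [e] at hPB
  have h2 : q * (8748 / 10000 * B) ≤ q * (7 / 8 * u * B) := by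
    apply mul_le_mul_of_nonneg_left _ hq0.le
    exact mul_le_mul_of_nonneg_right hc₁ hB0
  linarith

/-- The scalar inequality closing the corner. -/
lemma corner_scalar {C q T Y L B u : ℝ} (hq1 : q < 1) (hC : C ≤ Y / 2 - 1 / 10) (hY : 9 ≤ Y)
    (hT1 : L - 1 ≤ T) (hT2 : u ^ 2 / 2 ≤ T) (hu : 1 - 12 / 100000 ≤ u)
    (hB : 4 / 5 * Y - L - 517 / 1000 ≤ B) :
    C + q / 3 ≤ T + 8748 / 10000 * B := by
  have hu2 : (9997 / 10000 : ℝ) ≤ u ^ 2 := by
    norm_num at hu
    nlinarith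
  have hB2 := mul_le_mul_of_nonneg_left hB (show (0:ℝ) ≤ 8748 / 10000 by norm_num)
  by_cases hLc : L ≤ 7 / 4
  · linarith
  · push Not at hLc
    linarith

/-- The analytic corner. -/
theorem corner {t q : ℝ} (ht0 : 0 < t) (ht1 : t < 1) (hq0 : 0 < q) (hq1 : q < 1)
    (he : 1 - t ^ 2 ≤ 12 / 100000) (hγ : 0 ≤ gam t q) :
    q * gam t q * (CC t + q * gam t q / 3) ≤
      q * (eeF ((1 - q) * t ^ 2) / (1 - q) ^ 2) + Psi (v2F t q) (hh t) := by
  obtain ⟨hE0, hE2, hE1, htE, hY9, hWge, hWle⟩ := corner_facts ht0 ht1 he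
  have hl2a := Real.log_two_gt_d9
  have hW9 : 9 ≤ -log ((1 - t) / (1 + t)) := by
    norm_num at hl2a
    linarith
  have hCY := corner_CC hE0 hE1 hE2 htE rfl hW9 hWle
  have hlogf := corner_logf hE0 hE1 hE2 htE rfl hY9 hWge
  have hred := corner_red ht0 ht1 hq0 hq1 hγ
  have hAbs := abs_lt_of_Ioo ht0 ht1
  have hh0 := hh_pos hAbs
  have hu1 : t ^ 2 < 1 := by nlinarith
  have hu0 : 0 < t ^ 2 := by positivity
  obtain ⟨hT1, hT2⟩ := corner_T hu0 hu1 hq0 hq1
  refine le_trans hred ?_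
  have hv2F : 3 / 4 * (1 - t ^ 2) + 7 / 4 * t ^ 2 * q ≤ v2F t q := by
    rw [v2F_eq]
    exact v2F_lower hu0.le hu1.le hq0.le hq1.le
  have hv20 : 0 < v2F t q := by
    refine lt_of_lt_of_le ?_ hv2F
    have : 0 < 1 - t ^ 2 := by linarith
    positivity
  have hPsi := Psi_nonneg hv20 hh0
  by_cases hcase : -log (1 - t ^ 2) / 2 + 5 / 4 ≤ -log (1 - (1 - q) * t ^ 2)
  · have h1 : CC t + q / 3 ≤ eeF ((1 - q) * t ^ 2) / (1 - q) ^ 2 := by linarith
    have h2 := mul_le_mul_of_nonneg_left h1 hq0.le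
    linarith
  · push Not at hcase
    obtain ⟨hB, hP⟩ := corner_child ht0 ht1 hq0 hq1 he hY9 rfl hlogf rfl hcase
    have hmain := corner_scalar hq1 hCY hY9 hT1 hT2 (by linarith) hB
    have h2 := mul_le_mul_of_nonneg_left hmain hq0.le
    rw [mul_add] at h2
    linarith

end Vale.Agent.Lib.P322B.EC
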