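import Vale.Agent.Lib.P322B.UL
import Vale.Agent.Lib.P322B.Cross

/-! # Module E: definitions of the explicit two-parameter inequality. -/

namespace Vale.Agent.Lib.P322B

open Real Set

/-- `gamma(t,q) = u - g (1 + u q)/8` with `u = t²`, `g = 1 - (1-q) u`; `v = 1 + q gamma`. -/
noncomputable def gam (t q : ℝ) : ℝ := t ^ 2 - (1 - (1 - q) * t ^ 2) * (1 + t ^ 2 * q) / 8

/-- `v₂ = v - p u (9/8 - p² u/8)`. -/
noncomputable def v2F (t q : ℝ) : ℝ :=
  1 + q * gam t q - (1 - q) * t ^ 2 * (9 / 8 - (1 - q) ^ 2 * t ^ 2 / 8)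

end Vale.Agent.Lib.P322B
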