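import Vale.Agent.Lib.P322B.ECorner
import Vale.Agent.Lib.P322B.ETable

/-! # Module E: main inequality (helper82). -/

namespace Vale.Agent.Lib.P322B

open Real Set
open Vale.Agent.Lib.P322B.EC

lemma table_last : lastOf 1 0 table = (15, 4) := by decide +kernel

lemma tOf_one_zero : tOf 1 0 = 1 / 3 := by
  unfold tOf tE
  rw [gridQ_cast]
  norm_num

lemma tOf_end : 1 - tOf 15 4 ^ 2 ≤ 12 / 100000 := by
  unfold tOf tE
  rw [gridQ_cast]
  norm_num

/-- Main inequality in the region `gamma ≥ 0`. -/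
theorem E_main {t q : ℝ} (ht0 : 0 < t) (ht1 : t < 1) (hq0 : 0 < q) (hq1 : q < 1)
    (hγ : 0 ≤ gam t q) (hv2 : 0 < v2F t q) :
    q * gam t q * (CC t + q * gam t q / 3) ≤
      q * (eeF ((1 - q) * t ^ 2) / (1 - q) ^ 2) + Psi (v2F t q) (hh t) := by
  by_cases h1 : t < 1 / 3
  · -- `γ = 0`
    have hu : t ^ 2 ≤ 1 / 9 := by nlinarith
    have hg : gam t q ≤ 0 := by
      have := gamU_bound (u := t ^ 2) (u₂ := 1 / 9) (q := q) (q₁ := 0) (by positivity) hu (by norm_num)
        le_rfl hq0.le hq1.le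
      unfold gam
      norm_num at this
      linarith
    have hz : gam t q = 0 := le_antisymm hg hγ
    rw [hz]
    have hAbs := abs_lt_of_Ioo ht0 ht1
    have hPsi := Psi_nonneg hv2 (hh_pos hAbs)
    have hu1 : t ^ 2 < 1 := by nlinarith
    have hT0 : 0 ≤ eeF ((1 - q) * t ^ 2) / (1 - q) ^ 2 := by
      apply div_nonneg _ (sq_nonneg _)
      apply eeF_nonneg
      have : (1 - q) * t ^ 2 ≤ 1 * t ^ 2 :=
        mul_le_mul_of_nonneg_right (by linarith) (sq_nonneg t)
      linarith
    have := mul_nonneg hq0.le hT0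
    simp only [mul_zero, zero_mul]
    linarith
  push Not at h1
  by_cases h2 : t < tOf 15 4
  · refine slabs_sound table 1 0 (by norm_num [gridQ]) table_ok t ?_ ?_ q hq0 hq1 hγ hv2
    · rw [tOf_one_zero]
      exact h1
    · rw [table_last]
      exact h2
  · push Not at h2
    refine corner ht0 ht1 hq0 hq1 ?_ hγ
    have h3 := tOf_end
    have h4 : 0 < tOf 15 4 := tE_pos (gridR_pos _ _) (by
      have : gridQ 15 4 < 1 := by norm_num [gridQ]
      exact_mod_cast this)
    nlinarith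

end Vale.Agent.Lib.P322B
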