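import Vale.Agent.Lib.P322B.EDefs

/-! # The region `gamma < 0` of Module E: the quadratic term is dominated by the linear one. -/

namespace Vale.Agent.Lib.P322B

open Real Set

/-- `rho(v) ≤ (1-v)²/(2v)` for `0 < v ≤ 1`. -/
lemma rhoF_le {v : ℝ} (h0 : 0 < v) (h1 : v ≤ 1) : rhoF v ≤ (1 - v) ^ 2 / (2 * v) := by
  -- the difference `g` decreases on `(0,1]` and vanishes at `1`
  have hm : AntitoneOn (fun x : ℝ => (1 - x) ^ 2 / (2 * x) - rhoF x) (Icc v 1) := by
    apply anti_of_hasDeriv (convex_Icc v 1)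
      (f' := fun x => (1 / 2 - 1 / (2 * x ^ 2)) - log x)
    · intro x hx
      have hx0 : 0 < x := by linarith [hx.1]
      unfold rhoF
      apply ContinuousAt.continuousWithinAt
      have : ContinuousAt log x := continuousAt_log hx0.ne'
      apply ContinuousAt.sub
      · apply ContinuousAt.div (by fun_prop) (by fun_prop) (by positivity)
      · exact ((continuousAt_id.mul this).sub continuousAt_id).add continuousAt_const
    · intro x hx
      rw [interior_Icc] at hx
      have hx0 : 0 < x := by linarith [hx.1]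
      have d1 : HasDerivAt (fun x : ℝ => (1 - x) ^ 2) (2 * (1 - x) * (-1)) x := by
        have := ((hasDerivAt_id x).const_sub 1).fun_pow 2
        simpa using this
      have d2 : HasDerivAt (fun x : ℝ => 2 * x) 2 x := by
        simpa using (hasDerivAt_id x).const_mul 2
      have d3 := d1.div d2 (by positivity : (2 * x) ≠ 0)
      have d4 : HasDerivAt rhoF (log x) x := by
        have h3 : HasDerivAt (fun x : ℝ => x * log x) (1 * log x + x * x⁻¹) x :=
          (hasDerivAt_id x).mul (hasDerivAt_log hx0.ne')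
        have h4 := (h3.sub (hasDerivAt_id x)).add_const 1
        refine HasDerivAt.congr_deriv (f := rhoF) h4 ?_
        field_simp
        ring
      have d5 := d3.sub d4
      refine HasDerivAt.congr_deriv d5 ?_
      field_simp
      ring
    · intro x hx
      rw [interior_Icc] at hx
      have hx0 : 0 < x := by linarith [hx.1]
      -- `-log x = (1/2) log (1/x²) ≤ (1/x² - 1)/2`
      have h3 : log (1 / x ^ 2) ≤ 1 / x ^ 2 - 1 := log_le_sub_one_of_pos (by positivity)
      have h4 : log (1 / x ^ 2) = -(2 * log x) := by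
        rw [log_div (by norm_num) (by positivity), log_one, log_pow]
        norm_num
      have h5 : 1 / (2 * x ^ 2) = (1 / x ^ 2) / 2 := by field_simp
      rw [h5]
      linarith
  have := hm ⟨le_rfl, h1⟩ ⟨h1, le_rfl⟩ h1
  simp only [rhoF] at this
  norm_num at this
  simp only [rhoF]
  linarith

/-- `At t ≤ t / ((1 + 2u/3)(1-u))`, `u = t²`. -/
lemma At_le_sharp {t : ℝ} (h0 : 0 ≤ t) (h1 : t < 1) :
    At t ≤ t / ((1 + 2 * t ^ 2 / 3) * (1 - t ^ 2)) := by
  have hDpos : ∀ x ∈ Ico (0:ℝ) 1, 0 < (1 + 2 * x ^ 2 / 3) * (1 - x ^ 2) := by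
    intro x hx
    have := one_sub_sq_pos (abs_lt_of_Ico hx.1 hx.2)
    positivity
  have hm : MonotoneOn (fun x => x / ((1 + 2 * x ^ 2 / 3) * (1 - x ^ 2)) - At x) (Ico 0 1) := by
    apply mono_of_hasDeriv (convex_Ico 0 1)
      (f' := fun x => (1 + x ^ 2 / 3 + 2 * x ^ 4) / ((1 + 2 * x ^ 2 / 3) * (1 - x ^ 2)) ^ 2
          - 1 / (1 - x ^ 2))
    · apply ContinuousOn.sub
      · apply ContinuousOn.div continuousOn_id (by fun_prop)
        intro x hx
        exact (hDpos x hx).ne'
      · exact continuousOn_At' (fun x hx => abs_lt_of_Ico hx.1 hx.2)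
    · intro x hx
      rw [interior_Ico] at hx
      have hx' := abs_lt_of_Ioo hx.1 hx.2
      have hD := hDpos x ⟨hx.1.le, hx.2⟩
      have e : HasDerivAt (fun x : ℝ => (1 + 2 * x ^ 2 / 3) * (1 - x ^ 2))
          ((2 * (2 * x) / 3) * (1 - x ^ 2) + (1 + 2 * x ^ 2 / 3) * (-(2 * x))) x := by
        have a1 : HasDerivAt (fun x : ℝ => 1 + 2 * x ^ 2 / 3) (2 * (2 * x) / 3) x := by
          have := (((hasDerivAt_id x).pow 2).const_mul 2).div_const 3
          have := this.const_add 1
          simpa using this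
        have a2 : HasDerivAt (fun x : ℝ => 1 - x ^ 2) (-(2 * x)) x := by
          simpa using ((hasDerivAt_id x).pow 2).const_sub 1
        exact a1.mul a2
      have d := ((hasDerivAt_id x).div e hD.ne').sub (hasDerivAt_At hx')
      refine HasDerivAt.congr_deriv d ?_
      simp only [id]
      congr 1
      rw [div_eq_div_iff (by positivity) (by positivity)]
      ring
    · intro x hx
      rw [interior_Ico] at hx
      have hx' := abs_lt_of_Ioo hx.1 hx.2
      have hp := one_sub_sq_pos hx'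
      have hq : 0 < 1 + 2 * x ^ 2 / 3 := by positivity
      have : 1 / (1 - x ^ 2) ≤ (1 + x ^ 2 / 3 + 2 * x ^ 4) / ((1 + 2 * x ^ 2 / 3) * (1 - x ^ 2)) ^ 2 := by
        rw [div_le_div_iff₀ hp (by positivity)]
        have h5 : (1 + 2 * x ^ 2 / 3) ^ 2 * (1 - x ^ 2) ≤ 1 + x ^ 2 / 3 + 2 * x ^ 4 := by
          nlinarith [sq_nonneg x, sq_nonneg (x ^ 2), pow_pos hx.1 2, pow_pos hx.1 4,
            pow_pos hx.1 6]
        have h6 : 0 < 1 - x ^ 2 := hp
        calc 1 * ((1 + 2 * x ^ 2 / 3) * (1 - x ^ 2)) ^ 2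
            = ((1 + 2 * x ^ 2 / 3) ^ 2 * (1 - x ^ 2)) * (1 - x ^ 2) := by ring
          _ ≤ (1 + x ^ 2 / 3 + 2 * x ^ 4) * (1 - x ^ 2) :=
              mul_le_mul_of_nonneg_right h5 h6.le
      linarith
  have := hm (left_mem_Ico.mpr one_pos) (mem_Ico.mpr ⟨h0, h1⟩) h0
  simp only [At_zero] at this
  norm_num at this
  linarith

/-- `kk t ≥ (2/3) t²`. -/
lemma kk_ge {t : ℝ} (h0 : 0 < t) (h1 : t < 1) : 2 / 3 * t ^ 2 ≤ kk t := by
  rw [kk_eq h0.ne']
  have hp := one_sub_sq_pos (abs_lt_of_Ioo h0 h1)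
  have hA := At_pos h0 h1
  have hl := At_le_sharp h0.le h1
  have hq : 0 < 1 + 2 * t ^ 2 / 3 := by positivity
  rw [le_div_iff₀ (by positivity)] at hl
  have : 1 + 2 / 3 * t ^ 2 ≤ t / ((1 - t ^ 2) * At t) := by
    rw [le_div_iff₀ (by positivity)]
    nlinarith
  linarith

/-- `Ph t ≤ t² / (2 (1 - t²))`. -/
lemma Ph_le {t : ℝ} (h0 : 0 ≤ t) (h1 : t < 1) : Ph t ≤ t ^ 2 / (2 * (1 - t ^ 2)) := by
  have hm : MonotoneOn (fun x => x ^ 2 / (2 * (1 - x ^ 2)) - Ph x) (Ico 0 1) := by
    apply mono_of_hasDeriv (convex_Ico 0 1)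
      (f' := fun x => x / (1 - x ^ 2) ^ 2 - At x)
    · apply ContinuousOn.sub
      · apply ContinuousOn.div (by fun_prop) (by fun_prop)
        intro x hx
        have := one_sub_sq_pos (abs_lt_of_Ico hx.1 hx.2)
        positivity
      · exact continuous_Ph.continuousOn
    · intro x hx
      rw [interior_Ico] at hx
      have hx' := abs_lt_of_Ioo hx.1 hx.2
      have hp := one_sub_sq_pos hx'
      have e : HasDerivAt (fun x : ℝ => 2 * (1 - x ^ 2)) (2 * (-(2 * x))) x := by
        have : HasDerivAt (fun x : ℝ => 1 - x ^ 2) (-(2 * x)) x := by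
          simpa using ((hasDerivAt_id x).pow 2).const_sub 1
        exact this.const_mul 2
      have n : HasDerivAt (fun x : ℝ => x ^ 2) (2 * x) x := by
        simpa using (hasDerivAt_id x).fun_pow 2
      have d := (n.div e (by positivity)).sub (hasDerivAt_Ph hx')
      refine HasDerivAt.congr_deriv d ?_
      congr 1
      field_simp
      ring
    · intro x hx
      rw [interior_Ico] at hx
      have hx' := abs_lt_of_Ioo hx.1 hx.2
      have hp := one_sub_sq_pos hx'
      have h3 := At_le hx.1.le hx.2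
      have h4 : x / (1 - x ^ 2) ≤ x / (1 - x ^ 2) ^ 2 := by
        apply div_le_div_of_nonneg_left hx.1.le (by positivity)
        nlinarith [sq_nonneg x]
      linarith
  have := hm (left_mem_Ico.mpr one_pos) (mem_Ico.mpr ⟨h0, h1⟩) h0
  simp only [Ph_zero] at this
  norm_num at this
  linarith

/-- Core of `E_neg`, in terms of `v = 1 + q gamma`. -/
theorem E_neg_core {t v : ℝ} (h0 : 0 < t) (h1 : t < 1) (hu : 7 * t ^ 2 < 1) (hv1 : v < 1)
    (hv : hh t < v * log 2) : 2 / 3 * rhoF v ≤ CC t * (1 - v) := by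
  have hAbs := abs_lt_of_Ioo h0 h1
  have hhp := hh_pos hAbs
  have hl2 := log_two_pos'
  have hv0 : 0 < v := by
    by_contra hc
    push Not at hc
    nlinarith
  have hlow : (0.6931471803 : ℝ) < log 2 := Real.log_two_gt_d9
  have hd : 0 < 1 - v := by linarith
  have hup : 0 < t ^ 2 := by positivity
  -- the floor
  have hf1 : (1 - v) * log 2 < Ph t := by
    unfold hh at hv
    nlinarith
  -- `rho(v) ≤ d²/(2v)`
  have hr := rhoF_le hv0 hv1.le
  -- `Ph ≤ (7/12) u`
  have hPh : Ph t ≤ 7 / 12 * t ^ 2 := by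
    refine (Ph_le h0.le h1).trans ?_
    have hp := one_sub_sq_pos hAbs
    rw [div_le_iff₀ (by positivity)]
    nlinarith
  -- `hh ≥ (6/7) log 2`
  have hh1 : 6 / 7 * log 2 ≤ hh t := by
    have := log_two_mul_le_hh hAbs
    nlinarith
  have hh2 : (0.59 : ℝ) < hh t := by linarith
  -- `CC ≥ (2/3) u hh`
  have hCC : 2 / 3 * t ^ 2 * hh t ≤ CC t := by
    have h2 := kk_ge h0 h1
    have h3 := Xi_nonneg h0.le h1
    unfold CC
    nlinarith
  -- the key comparison `d ≤ 3 CC v`
  have hkey : 1 - v ≤ 3 * CC t * v := by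
    -- `d log 2 < Ph ≤ (7/12) u` and `v log 2 > hh`
    have h4 : 3 * (2 / 3 * t ^ 2 * hh t) * (hh t) ≤ 3 * CC t * (hh t) :=
      mul_le_mul_of_nonneg_right (by linarith) hhp.le
    have h5 : 7 / 12 * t ^ 2 ≤ 3 * (2 / 3 * t ^ 2 * hh t) * (hh t) := by
      have : (7 / 12 : ℝ) ≤ 2 * (hh t * hh t) := by nlinarith
      nlinarith
    have h6 : (1 - v) * log 2 ≤ 3 * CC t * (v * log 2) := by
      have hCCn : 0 ≤ 3 * CC t := by
        have := CC_nonneg h0.le h1
        linarith
      have := mul_le_mul_of_nonneg_left hv.le hCCn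
      linarith
    have h7 : (1 - v) * log 2 ≤ (3 * CC t * v) * log 2 := by linarith
    exact le_of_mul_le_mul_right h7 hl2
  have hfin : (1 - v) ^ 2 / (2 * v) * (2 / 3) ≤ CC t * (1 - v) := by
    have : (1 - v) ^ 2 / (2 * v) * (2 / 3) = (1 - v) * ((1 - v) / (3 * v)) := by
      field_simp
    rw [this, mul_comm (CC t)]
    apply mul_le_mul_of_nonneg_left _ hd.le
    rw [div_le_iff₀ (by positivity)]
    linarith
  linarith

/-- Region `gamma < 0` and `v` above the floor: the quadratic term is dominated by the linear one. -/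
theorem E_neg {t q : ℝ} (ht0 : 0 < t) (ht1 : t < 1) (hq0 : 0 < q) (hq1 : q < 1)
    (hγ : gam t q < 0) (hv : hh t < (1 + q * gam t q) * log 2) :
    2 / 3 * rhoF (1 + q * gam t q) ≤ CC t * (-(q * gam t q)) := by
  have hu0 : 0 < t ^ 2 := by positivity
  have hu1 : t ^ 2 < 1 := by nlinarith
  have hu : 7 * t ^ 2 < 1 := by
    unfold gam at hγ
    have h1 : 1 - (1 - q) * t ^ 2 ≤ 1 := by nlinarith [mul_pos (sub_pos.mpr hq1) hu0]
    have h2 : 0 < 1 - (1 - q) * t ^ 2 := by nlinarith [mul_pos hq0 hu0]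
    have h3 : 1 + t ^ 2 * q ≤ 1 + t ^ 2 := by nlinarith
    have h4 : 0 < 1 + t ^ 2 * q := by positivity
    have h5 : (1 - (1 - q) * t ^ 2) * (1 + t ^ 2 * q) ≤ 1 * (1 + t ^ 2) :=
      mul_le_mul h1 h3 h4.le zero_le_one
    linarith
  have hv1 : 1 + q * gam t q < 1 := by nlinarith [mul_pos hq0 (neg_pos.mpr hγ)]
  have := E_neg_core ht0 ht1 hu hv1 hv
  have e : 1 - (1 + q * gam t q) = -(q * gam t q) := by ring
  rwa [e] at this

end Vale.Agent.Lib.P322B
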