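import Vale.Agent.Lib.P322B.EMain
import Vale.Agent.Lib.P322B.ENeg

/-! # Module E: the explicit two-parameter inequality (`E_main`, `E_neg`). -/
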