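import Vale.Agent.Lib.P322B.EDefs
import Vale.Agent.Lib.P322B.ECheck

/-! # Soundness of the rational checker, part 1: values at the grid points. -/

namespace Vale.Agent.Lib.P322B.EC

open Real Set
open Vale.Agent.Lib.P322B

lemma ln2lo_le : (ln2lo : ℝ) ≤ log 2 := by
  have := Real.log_two_gt_d9
  unfold ln2lo
  push_cast
  linarith

lemma le_ln2hi : log 2 ≤ (ln2hi : ℝ) := by
  have := Real.log_two_lt_d9
  unfold ln2hi
  push_cast
  linarith

lemma log_r_bounds : (lnrlo : ℝ) ≤ log (32 / 31) ∧ log (32 / 31) ≤ (lnrhi : ℝ) := by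
  have h := Real.abs_log_sub_add_sum_range_le (x := 1 / 32) (by norm_num [abs_of_pos]) 8
  have e : log (1 - 1 / 32) = -log (32 / 31) := by
    rw [show (1:ℝ) - 1 / 32 = (32 / 31)⁻¹ by norm_num, log_inv]
  rw [e] at h
  have h2 := abs_le.mp h
  simp only [Finset.sum_range_succ, Finset.sum_range_zero] at h2
  norm_num [abs_of_pos] at h2
  unfold lnrlo lnrhi
  push_cast
  constructor <;> linarith [h2.1, h2.2]

lemma gridQ_cast (i j : ℕ) : ((gridQ i j : ℚ) : ℝ) = (1 / 2) ^ i * (31 / 32) ^ j := by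
  unfold gridQ
  push_cast
  ring

lemma gridQ_pos (i j : ℕ) : 0 < gridQ i j := by
  unfold gridQ
  positivity

lemma gridR_pos (i j : ℕ) : (0:ℝ) < (gridQ i j : ℝ) := by
  exact_mod_cast gridQ_pos i j

lemma log_gridQ (i j : ℕ) : log ((gridQ i j : ℚ) : ℝ) = -(i * log 2 + j * log (32 / 31)) := by
  rw [gridQ_cast, log_mul (by positivity) (by positivity), log_pow, log_pow]
  have e1 : log (1 / 2 : ℝ) = -log 2 := by
    rw [one_div, log_inv]
  have e2 : log (31 / 32 : ℝ) = -log (32 / 31) := by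
    rw [show (31 / 32 : ℝ) = (32 / 31)⁻¹ by norm_num, log_inv]
  rw [e1, e2]
  ring

lemma llo_le (i j : ℕ) : ((llo i j : ℚ) : ℝ) ≤ -log ((gridQ i j : ℚ) : ℝ) := by
  rw [log_gridQ, neg_neg]
  unfold llo
  push_cast
  have h1 := ln2lo_le
  have h2 := log_r_bounds.1
  have hi : (0:ℝ) ≤ i := Nat.cast_nonneg i
  have hj : (0:ℝ) ≤ j := Nat.cast_nonneg j
  exact add_le_add (mul_le_mul_of_nonneg_left h1 hi) (mul_le_mul_of_nonneg_left h2 hj)

lemma le_lhi (i j : ℕ) : -log ((gridQ i j : ℚ) : ℝ) ≤ ((lhi i j : ℚ) : ℝ) := by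
  rw [log_gridQ, neg_neg]
  unfold lhi
  push_cast
  have h1 := le_ln2hi
  have h2 := log_r_bounds.2
  have hi : (0:ℝ) ≤ i := Nat.cast_nonneg i
  have hj : (0:ℝ) ≤ j := Nat.cast_nonneg j
  exact add_le_add (mul_le_mul_of_nonneg_left h1 hi) (mul_le_mul_of_nonneg_left h2 hj)

lemma sumS_cast (E : ℚ) (n : ℕ) :
    ((sumS E n : ℚ) : ℝ) = ∑ i ∈ Finset.range n, (-(E : ℝ)) ^ (i + 1) / ((i : ℝ) + 1) := by
  induction n with
  | zero => simp [sumS]
  | succ n ih =>
      rw [Finset.sum_range_succ, ← ih]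
      simp only [sumS]
      push_cast
      ring

/-- The point of `(0,1)` attached to `E`. -/
noncomputable def tE (E : ℝ) : ℝ := (1 - E) / (1 + E)

section tE

variable {E : ℝ} (h0 : 0 < E) (h1 : E < 1)
include h0 h1

lemma tE_pos : 0 < tE E := by
  unfold tE
  apply div_pos <;> linarith

lemma tE_lt_one : tE E < 1 := by
  unfold tE
  rw [div_lt_one (by linarith)]
  linarith

lemma one_add_tE : 1 + tE E = 2 / (1 + E) := by
  unfold tE
  have : 1 + E ≠ 0 := by linarith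
  field_simp
  ring

lemma one_sub_tE : 1 - tE E = 2 * E / (1 + E) := by
  unfold tE
  have : 1 + E ≠ 0 := by linarith
  field_simp
  ring

lemma At_tE : At (tE E) = -log E / 2 := by
  unfold At
  rw [one_add_tE h0 h1, one_sub_tE h0 h1]
  have h2 : (1 + E) ≠ 0 := by linarith
  rw [log_div (by norm_num) h2, log_div (by positivity) h2, log_mul (by norm_num) h0.ne']
  ring

lemma hh_tE : hh (tE E) = log (1 + E) + (-log E) * E / (1 + E) := by
  unfold hh Ph
  rw [one_add_tE h0 h1, one_sub_tE h0 h1]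
  have h2 : (1 + E) ≠ 0 := by linarith
  rw [log_div (by norm_num) h2, log_div (by positivity) h2, log_mul (by norm_num) h0.ne']
  field_simp
  ring

lemma tE_div : tE E / (1 - tE E ^ 2) = (1 - E ^ 2) / (4 * E) := by
  have h2 : (1 + E) ≠ 0 := by linarith
  have e : 1 - tE E ^ 2 = 4 * E / (1 + E) ^ 2 := by
    have : 1 - tE E ^ 2 = (1 + tE E) * (1 - tE E) := by ring
    rw [this, one_add_tE h0 h1, one_sub_tE h0 h1]
    field_simp
    ring
  rw [e]
  unfold tE
  field_simp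
  ring

lemma w_pos : 0 < -log E := by
  have := log_neg h0 h1
  linarith

lemma CC_tE : CC (tE E) = tE E * (-log E / 2)
    + (1 + (1 - E ^ 2) / (4 * (-log E / 2) * E)) * hh (tE E) - 2 * log 2 := by
  have ht0 := tE_pos h0 h1
  have hw := w_pos h0 h1
  unfold CC Xi
  rw [kk_eq ht0.ne', At_tE h0 h1]
  have hd : tE E / ((1 - tE E ^ 2) * (-log E / 2)) = (1 - E ^ 2) / (4 * E) / (-log E / 2) := by
    rw [← tE_div h0 h1, div_div]
  rw [hd]
  have e2 : Ph (tE E) = log 2 - hh (tE E) := by unfold hh; ring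
  rw [e2]
  have hE : E ≠ 0 := h0.ne'
  have hw' : -log E / 2 ≠ 0 := by
    have : 0 < -log E / 2 := by linarith
    exact this.ne'
  have e3 : (1 + (1 - E ^ 2) / (4 * (-log E / 2) * E)) =
      1 + (1 - E ^ 2) / (4 * E) / (-log E / 2) := by
    field_simp
  rw [e3]
  ring

end tE

/-- The upper bound for `log (1 + E)`. -/
lemma log_one_add_le {E : ℚ} (h0 : 0 < E) (h1 : E < 1) (n : ℕ) :
    log (1 + (E : ℝ)) ≤ ((-sumS E n + E ^ (n + 1) / (1 - E) : ℚ) : ℝ) := by
  have h0' : (0:ℝ) < E := by exact_mod_cast h0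
  have h1' : (E:ℝ) < 1 := by exact_mod_cast h1
  have hab : |(-(E:ℝ))| < 1 := by
    rw [abs_neg, abs_of_pos h0']
    exact h1'
  have h := Real.abs_log_sub_add_sum_range_le hab n
  rw [abs_neg, abs_of_pos h0', sub_neg_eq_add] at h
  have h2 := (abs_le.mp h).2
  push_cast
  rw [sumS_cast]
  linarith

/-- `t` attached to the grid point. -/
noncomputable def tOf (i j : ℕ) : ℝ := tE (gridQ i j : ℝ)

lemma hh_tOf_le {i j : ℕ} (h1 : gridQ i j < 1) : hh (tOf i j) ≤ ((hhiQ i j : ℚ) : ℝ) := by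
  have h0' := gridR_pos i j
  have h1' : ((gridQ i j : ℚ) : ℝ) < 1 := by exact_mod_cast h1
  unfold tOf
  rw [hh_tE h0' h1']
  have hl := log_one_add_le (gridQ_pos i j) h1 24
  have hu := le_lhi i j
  have hE : (0:ℝ) ≤ ((gridQ i j : ℚ) : ℝ) / (1 + (gridQ i j : ℝ)) := by positivity
  have h3 : (-log ((gridQ i j : ℚ) : ℝ)) * (gridQ i j : ℝ) / (1 + (gridQ i j : ℝ)) ≤
      ((lhi i j : ℚ) : ℝ) * (gridQ i j : ℝ) / (1 + (gridQ i j : ℝ)) := by
    apply div_le_div_of_nonneg_right _ (by positivity)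
    exact mul_le_mul_of_nonneg_right hu h0'.le
  unfold hhiQ
  push_cast at hl ⊢
  linarith

lemma CC_tOf_le {i j : ℕ} (h1 : gridQ i j < 1) (hl : 0 < llo i j) :
    CC (tOf i j) ≤ ((ChiQ i j : ℚ) : ℝ) := by
  have h0' := gridR_pos i j
  have h1' : ((gridQ i j : ℚ) : ℝ) < 1 := by exact_mod_cast h1
  unfold tOf
  rw [CC_tE h0' h1']
  have hh' := hh_tOf_le h1
  unfold tOf at hh'
  set E : ℝ := ((gridQ i j : ℚ) : ℝ) with hE
  have hw := w_pos h0' h1'
  have hlo := llo_le i j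
  have hhi := le_lhi i j
  rw [← hE] at hlo hhi
  have hl' : (0:ℝ) < ((llo i j : ℚ) : ℝ) := by exact_mod_cast hl
  have ht0 := tE_pos h0' h1'
  have hpos := hh_pos (abs_lt_of_Ioo ht0 (tE_lt_one h0' h1'))
  have hE2 : 0 ≤ 1 - E ^ 2 := by nlinarith
  have h2 : (1 - E ^ 2) / (4 * (-log E / 2) * E) ≤
      (1 - E ^ 2) / (4 * (((llo i j : ℚ) : ℝ) / 2) * E) := by
    apply div_le_div_of_nonneg_left hE2 (by positivity)
    apply mul_le_mul_of_nonneg_right _ h0'.le
    linarith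
  have h3 : (0:ℝ) ≤ (1 - E ^ 2) / (4 * (-log E / 2) * E) := by
    apply div_nonneg hE2
    positivity
  have h4 : (1 + (1 - E ^ 2) / (4 * (-log E / 2) * E)) * hh (tE E) ≤
      (1 + (1 - E ^ 2) / (4 * (((llo i j : ℚ) : ℝ) / 2) * E)) * ((hhiQ i j : ℚ) : ℝ) := by
    apply mul_le_mul (by linarith) hh' hpos.le (by linarith)
  have h5 : tE E * (-log E / 2) ≤ tE E * (((lhi i j : ℚ) : ℝ) / 2) :=
    mul_le_mul_of_nonneg_left (by linarith) ht0.le
  have h6 := ln2lo_le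
  unfold ChiQ
  push_cast [← hE]
  have e1 : tE E = (1 - E) / (1 + E) := rfl
  rw [← e1]
  linarith

end Vale.Agent.Lib.P322B.EC
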