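import Vale.Agent.Lib.P322B.ESound1

/-! # Soundness of the rational checker, part 2: one cell, one slab, the whole table. -/

namespace Vale.Agent.Lib.P322B.EC

open Real Set
open Vale.Agent.Lib.P322B

lemma gamU_cast (u q : ℚ) :
    ((gamU u q : ℚ) : ℝ) = (u : ℝ) - (1 - (1 - (q : ℝ)) * u) * (1 + u * q) / 8 := by
  unfold gamU
  push_cast
  ring

lemma v2Low_cast (u₁ u₂ q₁ q₂ : ℚ) : ((v2Low u₁ u₂ q₁ q₂ : ℚ) : ℝ) =
    1 - (q₂ : ℝ) / 8 + u₁ * (q₁ + q₁ * (1 - q₂) / 8) - u₂ * ((q₂ : ℝ) ^ 2 / 8 + 9 / 8 * (1 - q₁))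
      + (u₁ : ℝ) ^ 2 * (1 - q₂) * ((q₁ : ℝ) ^ 2 + (1 - (q₂ : ℝ)) ^ 2) / 8 := by
  unfold v2Low
  push_cast
  ring

lemma gamU_bound {u u₂ q q₁ : ℝ} (hu0 : 0 ≤ u) (hu : u ≤ u₂) (hu2 : u₂ ≤ 1) (hq0 : 0 ≤ q₁)
    (hq : q₁ ≤ q) (hq1 : q ≤ 1) :
    u - (1 - (1 - q) * u) * (1 + u * q) / 8 ≤ u₂ - (1 - (1 - q₁) * u₂) * (1 + u₂ * q₁) / 8 := by
  have hq0' : 0 ≤ q := by linarith
  have h1 : 0 ≤ (u₂ - u) * (1 - (2 * q - 1) / 8 + (q - q ^ 2) * (u₂ + u) / 8) := by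
    apply mul_nonneg (by linarith)
    have : 0 ≤ (q - q ^ 2) * (u₂ + u) / 8 := by
      apply div_nonneg (mul_nonneg _ (by linarith)) (by norm_num)
      nlinarith
    linarith
  have hu20 : 0 ≤ u₂ := by linarith
  have h2 : 0 ≤ (q - q₁) * (u₂ / 4 - (1 - q₁ - q) * u₂ ^ 2 / 8) := by
    apply mul_nonneg (by linarith)
    have h3 : (1 - q₁ - q) * u₂ ^ 2 ≤ u₂ := by
      have h4 : u₂ ^ 2 ≤ u₂ := by nlinarith
      have h5 : (1 - q₁ - q) * u₂ ^ 2 ≤ 1 * u₂ ^ 2 :=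
        mul_le_mul_of_nonneg_right (by linarith) (sq_nonneg u₂)
      linarith
    linarith
  nlinarith

lemma v2_bound {u u₁ u₂ q q₁ q₂ : ℝ} (hu10 : 0 ≤ u₁) (hu1 : u₁ ≤ u) (hu2 : u ≤ u₂) (hu₂ : u₂ ≤ 1)
    (hq10 : 0 ≤ q₁) (hq1 : q₁ ≤ q) (hq2 : q ≤ q₂) (hq₂ : q₂ ≤ 1) :
    1 - q₂ / 8 + u₁ * (q₁ + q₁ * (1 - q₂) / 8) - u₂ * (q₂ ^ 2 / 8 + 9 / 8 * (1 - q₁))
      + u₁ ^ 2 * (1 - q₂) * (q₁ ^ 2 + (1 - q₂) ^ 2) / 8
    ≤ 1 - q / 8 + u * (q + q * (1 - q) / 8) - u * (q ^ 2 / 8 + 9 / 8 * (1 - q))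
      + u ^ 2 * (1 - q) * (q ^ 2 + (1 - q) ^ 2) / 8 := by
  have hu0 : 0 ≤ u := by linarith
  have hq0 : 0 ≤ q := by linarith
  have hp2 : 0 ≤ 1 - q₂ := by linarith
  have hp : 1 - q₂ ≤ 1 - q := by linarith
  have hp1 : 1 - q ≤ 1 - q₁ := by linarith
  have hpn : 0 ≤ 1 - q := by linarith
  have h1 : q₂ ≤ 1 := hq₂
  have t2 : u₁ * (q₁ + q₁ * (1 - q₂) / 8) ≤ u * (q + q * (1 - q) / 8) := by
    apply mul_le_mul hu1 _ (by positivity) hu0
    have : q₁ * (1 - q₂) ≤ q * (1 - q) := mul_le_mul hq1 hp hp2 hq0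
    linarith
  have t3 : u * (q ^ 2 / 8 + 9 / 8 * (1 - q)) ≤ u₂ * (q₂ ^ 2 / 8 + 9 / 8 * (1 - q₁)) := by
    apply mul_le_mul hu2 _ (by positivity) (by linarith)
    have : q ^ 2 ≤ q₂ ^ 2 := by nlinarith
    linarith
  have t4 : u₁ ^ 2 * (1 - q₂) * (q₁ ^ 2 + (1 - q₂) ^ 2) ≤ u ^ 2 * (1 - q) * (q ^ 2 + (1 - q) ^ 2) := by
    have h1' : u₁ ^ 2 ≤ u ^ 2 := by nlinarith
    have h2' : q₁ ^ 2 ≤ q ^ 2 := by nlinarith
    have h3' : (1 - q₂) ^ 2 ≤ (1 - q) ^ 2 := by nlinarith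
    apply mul_le_mul (mul_le_mul h1' hp hp2 (sq_nonneg u)) (by linarith) (by positivity) (by positivity)
  linarith

lemma v2F_eq (t q : ℝ) : v2F t q = 1 - q / 8 + t ^ 2 * (q + q * (1 - q) / 8)
    - t ^ 2 * (q ^ 2 / 8 + 9 / 8 * (1 - q)) + (t ^ 2) ^ 2 * (1 - q) * (q ^ 2 + (1 - q) ^ 2) / 8 := by
  unfold v2F gam
  ring

lemma hasDerivAt_eeF {y : ℝ} (hy : y < 1) : HasDerivAt eeF (y / (1 - y)) y := by
  have h1 : 1 - y ≠ 0 := by linarith
  have d := ((hasDerivAt_id y).neg).sub (((hasDerivAt_id y).const_sub 1).log h1)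
  refine HasDerivAt.congr_deriv (f := eeF) d ?_
  simp only [id]
  field_simp
  ring

lemma continuousOn_eeF : ContinuousOn eeF (Iio 1) := by
  intro y hy
  exact (hasDerivAt_eeF hy).continuousAt.continuousWithinAt

lemma eeF_zero : eeF 0 = 0 := by simp [eeF]

/-- `X²/2 ≤ eeF X`. -/
lemma half_sq_le_eeF {X : ℝ} (h0 : 0 ≤ X) (h1 : X < 1) : X ^ 2 / 2 ≤ eeF X := by
  have hm : MonotoneOn (fun y => eeF y - y ^ 2 / 2) (Ico 0 1) := by
    apply mono_of_hasDeriv (convex_Ico 0 1) (f' := fun y => y / (1 - y) - y)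
    · apply ContinuousOn.sub
      · exact continuousOn_eeF.mono fun y hy => hy.2
      · fun_prop
    · intro y hy
      rw [interior_Ico] at hy
      have d := (hasDerivAt_eeF hy.2).sub (((hasDerivAt_id y).pow 2).div_const 2)
      refine HasDerivAt.congr_deriv (f := fun y => eeF y - y ^ 2 / 2) d ?_
      simp
    · intro y hy
      rw [interior_Ico] at hy
      have h2 : 0 < 1 - y := by linarith [hy.2]
      have : y / (1 - y) - y = y ^ 2 / (1 - y) := by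
        field_simp
        ring
      rw [this]
      have := hy.1
      positivity
  have := hm (left_mem_Ico.mpr one_pos) (mem_Ico.mpr ⟨h0, h1⟩) h0
  simp only [eeF_zero] at this
  norm_num at this
  linarith

/-- `2 eeF y ≤ y²/(1-y)`. -/
lemma two_eeF_le {y : ℝ} (h0 : 0 ≤ y) (h1 : y < 1) : 2 * eeF y ≤ y ^ 2 / (1 - y) := by
  have hm : MonotoneOn (fun y => y ^ 2 / (1 - y) - 2 * eeF y) (Ico 0 1) := by
    apply mono_of_hasDeriv (convex_Ico 0 1) (f' := fun y => y ^ 2 / (1 - y) ^ 2)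
    · apply ContinuousOn.sub
      · apply ContinuousOn.div (by fun_prop) (by fun_prop)
        intro y hy
        have : y < 1 := hy.2
        linarith
      · exact continuousOn_const.mul (continuousOn_eeF.mono fun y hy => hy.2)
    · intro y hy
      rw [interior_Ico] at hy
      have h2 : 1 - y ≠ 0 := by linarith [hy.2]
      have d1 : HasDerivAt (fun y : ℝ => y ^ 2 / (1 - y))
          ((2 * y * (1 - y) - y ^ 2 * (-1)) / (1 - y) ^ 2) y := by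
        have h3 := (hasDerivAt_pow 2 y).div ((hasDerivAt_id y).const_sub 1) h2
        refine HasDerivAt.congr_deriv (f := fun y : ℝ => y ^ 2 / (1 - y)) h3 ?_
        norm_num
      have d := d1.sub ((hasDerivAt_eeF hy.2).const_mul 2)
      refine HasDerivAt.congr_deriv (f := fun y => y ^ 2 / (1 - y) - 2 * eeF y) d ?_
      field_simp
      ring
    · intro y hy
      positivity
  have := hm (left_mem_Ico.mpr one_pos) (mem_Ico.mpr ⟨h0, h1⟩) h0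
  simp only [eeF_zero] at this
  norm_num at this
  linarith

lemma eeF_div_mono {Y X : ℝ} (hY : 0 < Y) (hYX : Y ≤ X) (hX : X < 1) :
    eeF Y / Y ^ 2 ≤ eeF X / X ^ 2 := by
  have hm : MonotoneOn (fun y => eeF y / y ^ 2) (Ioo 0 1) := by
    apply mono_of_hasDeriv (convex_Ioo 0 1)
      (f' := fun y => (y / (1 - y) * y ^ 2 - eeF y * (2 * y)) / (y ^ 2) ^ 2)
    · intro y hy
      have d := (hasDerivAt_eeF hy.2).div (hasDerivAt_pow 2 y) (pow_ne_zero 2 hy.1.ne')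
      exact d.continuousAt.continuousWithinAt
    · intro y hy
      rw [interior_Ioo] at hy
      have d := (hasDerivAt_eeF hy.2).div (hasDerivAt_pow 2 y) (pow_ne_zero 2 hy.1.ne')
      refine HasDerivAt.congr_deriv (f := fun y => eeF y / y ^ 2) d ?_
      norm_num
    · intro y hy
      rw [interior_Ioo] at hy
      have h0 := hy.1
      apply div_nonneg _ (by positivity)
      have h2 := two_eeF_le h0.le hy.2
      have h3 : y / (1 - y) * y ^ 2 - eeF y * (2 * y) = y * (y ^ 2 / (1 - y) - 2 * eeF y) := by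
        have : 1 - y ≠ 0 := by linarith [hy.2]
        field_simp
      rw [h3]
      exact mul_nonneg h0.le (by linarith)
  exact hm ⟨hY, by linarith⟩ ⟨by linarith, hX⟩ hYX

lemma gridQ_lt_one {a b : ℕ} (h : ¬(a = 0 ∧ b = 0)) : gridQ a b < 1 := by
  unfold gridQ
  rcases Nat.eq_zero_or_pos a with ha | ha
  · have hb : b ≠ 0 := fun hb => h ⟨ha, hb⟩
    rw [ha, pow_zero, one_mul]
    exact pow_lt_one₀ (by norm_num) (by norm_num) hb
  · have h1 : ((1:ℚ) / 2) ^ a < 1 := pow_lt_one₀ (by norm_num) (by norm_num) ha.ne'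
    have h2 : ((31:ℚ) / 32) ^ b ≤ 1 := pow_le_one₀ (by norm_num) (by norm_num)
    have h3 : (0:ℚ) < (1 / 2) ^ a := by positivity
    nlinarith

/-- The entropy term of a cell. -/
lemma T_lower {u q u₁ q₂ : ℝ} {a b : ℕ} (h10 : 0 ≤ u₁) (h1 : u₁ ≤ u) (hu : 0 < u) (hu1 : u < 1)
    (hq0 : 0 < q) (hq : q ≤ q₂) (hq1 : q < 1) (hq₂ : q₂ ≤ 1)
    (hg : 1 - (1 - q₂) * u₁ ≤ ((gridQ a b : ℚ) : ℝ)) :
    u₁ ^ 2 * ((epsQ a b : ℚ) : ℝ) ≤ eeF ((1 - q) * u) / (1 - q) ^ 2 := by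
  have hp : 0 < 1 - q := by linarith
  set X := (1 - q) * u with hX
  have hX0 : 0 < X := mul_pos hp hu
  have hX1 : X < 1 := by
    have : (1 - q) * u ≤ 1 * u := mul_le_mul_of_nonneg_right (by linarith) hu.le
    rw [hX]
    linarith
  have e : eeF X / (1 - q) ^ 2 = u ^ 2 * (eeF X / X ^ 2) := by
    rw [hX]
    field_simp
  rw [e]
  have hr : (1:ℝ) / 2 ≤ eeF X / X ^ 2 := by
    rw [le_div_iff₀ (by positivity)]
    have := half_sq_le_eeF hX0.le hX1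
    linarith
  have he : ((epsQ a b : ℚ) : ℝ) ≤ eeF X / X ^ 2 := by
    unfold epsQ
    split_ifs with hab
    · push_cast
      exact hr
    · have hlt : ((gridQ a b : ℚ) : ℝ) < 1 := by exact_mod_cast gridQ_lt_one hab
      set g : ℝ := ((gridQ a b : ℚ) : ℝ) with hgdef
      have hY0 : 0 < 1 - g := by linarith
      have hYX : 1 - g ≤ X := by
        have h3 : (1 - q₂) * u₁ ≤ (1 - q) * u :=
          mul_le_mul (by linarith) h1 h10 (by linarith)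
        rw [hX]
        linarith
      have hm := eeF_div_mono hY0 hYX hX1
      have hee : ((llo a b : ℚ) : ℝ) - (1 - g) ≤ eeF (1 - g) := by
        have hl := llo_le a b
        rw [← hgdef] at hl
        unfold eeF
        rw [show (1:ℝ) - (1 - g) = g by ring]
        linarith
      have h4 : (((llo a b : ℚ) : ℝ) - (1 - g)) / (1 - g) ^ 2 ≤ eeF (1 - g) / (1 - g) ^ 2 :=
        div_le_div_of_nonneg_right hee (by positivity)
      push_cast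
      rw [← hgdef]
      linarith
  have h5 : u₁ ^ 2 ≤ u ^ 2 := by nlinarith
  calc u₁ ^ 2 * ((epsQ a b : ℚ) : ℝ) ≤ u₁ ^ 2 * (eeF X / X ^ 2) :=
        mul_le_mul_of_nonneg_left he (sq_nonneg _)
    _ ≤ u ^ 2 * (eeF X / X ^ 2) := mul_le_mul_of_nonneg_right h5 (by linarith)

lemma mul_log_sub_ge {r s : ℝ} (hr : 0 < r) (hs : 0 < s) : r - s ≤ r * (log r - log s) := by
  have := log_le_sub_one_of_pos (show 0 < s / r by positivity)
  rw [log_div hs.ne' hr.ne'] at this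
  have h2 : r * (log s - log r) ≤ r * (s / r - 1) :=
    mul_le_mul_of_nonneg_left this hr.le
  have h3 : r * (s / r - 1) = s - r := by field_simp
  nlinarith

/-- The child term. -/
lemma Psi_child {m l x fb Lx Lf : ℝ} (hl : 0 < l) (hf : l / log 2 ≤ fb) (hfx : fb ≤ x) (hxm : x ≤ m)
    (hfb : 0 < fb) (hLx : Lx ≤ log x) (hLf : Lf ≤ -log fb) :
    (x * (Lx + Lf) - x + fb) / 2 ≤ Psi m l := by
  have hl2 := log_two_pos'
  set f := l / log 2 with hfdef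
  have hf0 : 0 < f := div_pos hl hl2
  have hx0 : 0 < x := by linarith
  have hm0 : 0 < m := by linarith
  have hlm : l ≤ m * log 2 := by
    have : f ≤ m := by linarith
    rw [hfdef, div_le_iff₀ hl2] at this
    exact this
  have hP := Psi_lower hl hlm
  have e1 : m * log 2 / l = m / f := by
    rw [hfdef]
    field_simp
  rw [e1, log_div hm0.ne' hf0.ne'] at hP
  have hlf : log f ≤ log x := log_le_log hf0 (by linarith)
  have hA : x * (Lx + Lf) ≤ x * (log x - log fb) :=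
    mul_le_mul_of_nonneg_left (by linarith) hx0.le
  have hB : x - fb ≤ 0 + 0 + x * (log x - log x) + (x - fb) := by ring_nf; exact le_refl _
  -- step (i)
  have hi : x * (log x - log f) - x + f ≤ m * (log m - log f) - m + f := by
    have h1 := mul_log_sub_ge hm0 hx0
    have h2 : 0 ≤ (m - x) * (log x - log f) := mul_nonneg (by linarith) (by linarith)
    nlinarith
  -- step (ii)
  have hii : x * (log x - log fb) - x + fb ≤ x * (log x - log f) - x + f := by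
    have h1 := mul_log_sub_ge hfb hf0
    have h3 : log f ≤ log fb := log_le_log hf0 hf
    have h2 : fb * (log fb - log f) ≤ x * (log fb - log f) :=
      mul_le_mul_of_nonneg_right hfx (by linarith)
    nlinarith
  have hfl : l / log 2 = f := rfl
  rw [hfl] at hP
  linarith

lemma final_step {G C q Gb Cb q₂ Tl T0 ch P : ℝ} (hG0 : 0 ≤ G) (hGb : G ≤ Gb) (hC0 : 0 ≤ C)
    (hC : C ≤ Cb) (hq0 : 0 < q) (hq : q ≤ q₂) (hTl : Tl ≤ T0) (hch0 : 0 ≤ ch) (hchP : ch ≤ P)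
    (hmain : Gb * (Cb + q₂ * Gb / 3) ≤ Tl + ch / q₂) : q * G * (C + q * G / 3) ≤ q * T0 + P := by
  have hq₂ : 0 < q₂ := by linarith
  have h1 : q * G / 3 ≤ q₂ * Gb / 3 := by
    have : q * G ≤ q₂ * Gb := mul_le_mul hq hGb hG0 hq₂.le
    linarith
  have h2 : G * (C + q * G / 3) ≤ Gb * (Cb + q₂ * Gb / 3) := by
    apply mul_le_mul hGb (by linarith) (by positivity) (by linarith)
  have h3 : G * (C + q * G / 3) ≤ T0 + ch / q₂ := by linarith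
  have h4 : q * (G * (C + q * G / 3)) ≤ q * (T0 + ch / q₂) :=
    mul_le_mul_of_nonneg_left h3 hq0.le
  have h5 : q * (ch / q₂) ≤ ch := by
    have : q * (ch / q₂) = ch * (q / q₂) := by ring
    rw [this]
    have h6 : q / q₂ ≤ 1 := (div_le_one hq₂).mpr hq
    nlinarith
  have e : q * G * (C + q * G / 3) = q * (G * (C + q * G / 3)) := by ring
  rw [e]
  nlinarith

/-- One cell. -/
theorem cell_sound {t q : ℝ} {u₁ u₂ Cb fb Lf q₂ : ℚ} {c : Cell}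
    (ht0 : 0 < t) (ht1 : t < 1) (hq0 : 0 < q) (hq1 : q < 1)
    (hu0 : 0 ≤ u₁) (hu1 : (u₁ : ℝ) ≤ t ^ 2) (hu2 : t ^ 2 ≤ (u₂ : ℝ)) (hu3 : u₂ ≤ 1)
    (hq₁ : ((c.q₁ : ℚ) : ℝ) ≤ q) (hq₂ : q ≤ (q₂ : ℝ)) (hq₂1 : q₂ ≤ 1)
    (hC : CC t ≤ (Cb : ℝ)) (hf : hh t / log 2 ≤ (fb : ℝ)) (hfb : 0 < fb) (hLf : (Lf : ℝ) ≤ -log (fb : ℝ))
    (hok : cellOK u₁ u₂ Cb fb Lf q₂ c = true)
    (hγ : 0 ≤ gam t q) (hv2 : 0 < v2F t q) :
    q * gam t q * (CC t + q * gam t q / 3) ≤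
      q * (eeF ((1 - q) * t ^ 2) / (1 - q) ^ 2) + Psi (v2F t q) (hh t) := by
  have hAbs := abs_lt_of_Ioo ht0 ht1
  have hh0 := hh_pos hAbs
  have hC0 := CC_nonneg ht0.le ht1
  have hu : 0 < t ^ 2 := by positivity
  have hut : t ^ 2 < 1 := by nlinarith
  have hu0' : (0:ℝ) ≤ u₁ := by exact_mod_cast hu0
  have hu3' : (u₂:ℝ) ≤ 1 := by exact_mod_cast hu3
  have hq₂1' : (q₂:ℝ) ≤ 1 := by exact_mod_cast hq₂1
  have hq₁0 : (0:ℝ) ≤ ((c.q₁ : ℚ) : ℝ) := by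
    unfold Cell.q₁
    push_cast
    positivity
  have hPsi := Psi_nonneg hv2 hh0
  have hT0 : 0 ≤ eeF ((1 - q) * t ^ 2) / (1 - q) ^ 2 := by
    apply div_nonneg _ (sq_nonneg _)
    apply eeF_nonneg
    have : (1 - q) * t ^ 2 ≤ 1 * t ^ 2 := mul_le_mul_of_nonneg_right (by linarith) hu.le
    linarith
  have hGb : gam t q ≤ ((gamU u₂ c.q₁ : ℚ) : ℝ) := by
    rw [gamU_cast]
    exact gamU_bound hu.le hu2 hu3' hq₁0 hq₁ hq1.le
  have hgamnn : ∀ x : ℝ, x = 0 → q * x * (CC t + q * x / 3) = 0 := by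
    intro x hx
    rw [hx]
    ring
  simp only [cellOK, Bool.or_eq_true, Bool.and_eq_true, decide_eq_true_eq] at hok
  rcases hok with h | ⟨hg, h | ⟨⟨⟨h1, h2⟩, h3⟩, h4⟩⟩
  · -- `γ = 0`
    have h' : ((gamU u₂ c.q₁ : ℚ) : ℝ) ≤ 0 := by exact_mod_cast h
    have hz : gam t q = 0 := le_antisymm (by linarith) hγ
    rw [hgamnn _ hz]
    have := mul_nonneg hq0.le hT0
    linarith
  · have hg' : 1 - (1 - (q₂ : ℝ)) * u₁ ≤ ((gridQ c.a c.b : ℚ) : ℝ) := by exact_mod_cast hg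
    have hT := T_lower (a := c.a) (b := c.b) hu0' hu1 hu hut hq0 hq₂ hq1 hq₂1' hg'
    have h' : ((gamU u₂ c.q₁ : ℚ) : ℝ) * ((Cb : ℝ) + q₂ * ((gamU u₂ c.q₁ : ℚ) : ℝ) / 3) ≤
        (u₁ : ℝ) ^ 2 * ((epsQ c.a c.b : ℚ) : ℝ) := by exact_mod_cast h
    refine final_step (ch := 0) hγ hGb hC0 hC hq0 hq₂ hT le_rfl hPsi ?_
    simpa using h'
  · have hg' : 1 - (1 - (q₂ : ℝ)) * u₁ ≤ ((gridQ c.a c.b : ℚ) : ℝ) := by exact_mod_cast hg
    have hT := T_lower (a := c.a) (b := c.b) hu0' hu1 hu hut hq0 hq₂ hq1 hq₂1' hg'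
    set x : ℝ := 2 * ((gridQ c.c c.d : ℚ) : ℝ) with hx
    have hv : ((v2Low u₁ u₂ c.q₁ q₂ : ℚ) : ℝ) ≤ v2F t q := by
      rw [v2Low_cast, v2F_eq]
      exact v2_bound hu0' hu1 hu2 hu3' hq₁0 hq₁ hq₂ hq₂1'
    have h1' : x ≤ ((v2Low u₁ u₂ c.q₁ q₂ : ℚ) : ℝ) := by
      rw [hx]
      exact_mod_cast h1
    have h2' : (fb : ℝ) ≤ x := by
      rw [hx]
      exact_mod_cast h2
    have hLx : ((ln2lo - lhi c.c c.d : ℚ) : ℝ) ≤ log x := by
      rw [hx, log_mul (by norm_num) (gridR_pos _ _).ne']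
      have h5 := ln2lo_le
      have h6 := le_lhi c.c c.d
      push_cast
      linarith
    have hfb' : (0:ℝ) < fb := by exact_mod_cast hfb
    have hc := Psi_child (m := v2F t q) (x := x) hh0 hf h2' (by linarith) hfb' hLx hLf
    have h3' : 0 ≤ (x * (((ln2lo - lhi c.c c.d : ℚ) : ℝ) + (Lf : ℝ)) - x + (fb : ℝ)) / 2 := by
      rw [hx]
      have := (Rat.cast_le (K := ℝ)).mpr h3
      push_cast at this ⊢
      linarith
    have h4' : ((gamU u₂ c.q₁ : ℚ) : ℝ) * ((Cb : ℝ) + q₂ * ((gamU u₂ c.q₁ : ℚ) : ℝ) / 3) ≤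
        (u₁ : ℝ) ^ 2 * ((epsQ c.a c.b : ℚ) : ℝ) +
          (x * (((ln2lo - lhi c.c c.d : ℚ) : ℝ) + (Lf : ℝ)) - x + (fb : ℝ)) / 2 / (q₂ : ℝ) := by
      rw [hx]
      have := (Rat.cast_le (K := ℝ)).mpr h4
      push_cast at this ⊢
      linarith
    exact final_step hγ hGb hC0 hC hq0 hq₂ hT h3' hc h4'

/-- A list of cells. -/
theorem cells_sound {t : ℝ} {u₁ u₂ Cb fb Lf : ℚ}
    (ht0 : 0 < t) (ht1 : t < 1)
    (hu0 : 0 ≤ u₁) (hu1 : (u₁ : ℝ) ≤ t ^ 2) (hu2 : t ^ 2 ≤ (u₂ : ℝ)) (hu3 : u₂ ≤ 1)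
    (hC : CC t ≤ (Cb : ℝ)) (hf : hh t / log 2 ≤ (fb : ℝ)) (hfb : 0 < fb) (hLf : (Lf : ℝ) ≤ -log (fb : ℝ)) :
    ∀ (cs : List Cell) (q₂ : ℚ), q₂ ≤ 1 → cellsOK u₁ u₂ Cb fb Lf q₂ cs = true →
    ∀ q : ℝ, 0 < q → q < 1 → q ≤ (q₂ : ℝ) → 0 ≤ gam t q → 0 < v2F t q →
    q * gam t q * (CC t + q * gam t q / 3) ≤
      q * (eeF ((1 - q) * t ^ 2) / (1 - q) ^ 2) + Psi (v2F t q) (hh t) := by
  intro cs
  induction cs with
  | nil =>
      intro q₂ _ hok q hq0 _ hq _ _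
      simp only [cellsOK, decide_eq_true_eq] at hok
      rw [hok] at hq
      norm_num at hq
      linarith
  | cons c cs ih =>
      intro q₂ hq₂1 hok q hq0 hq1 hq hγ hv2
      simp only [cellsOK, Bool.and_eq_true, decide_eq_true_eq] at hok
      obtain ⟨⟨⟨h0, h3⟩, h1⟩, h2⟩ := hok
      by_cases hc : ((c.q₁ : ℚ) : ℝ) ≤ q
      · exact cell_sound ht0 ht1 hq0 hq1 hu0 hu1 hu2 hu3 hc hq hq₂1 hC hf hfb hLf h1 hγ hv2
      · push Not at hc
        exact ih c.q₁ (le_trans h3 hq₂1) h2 q hq0 hq1 hc.le hγ hv2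

lemma uQ_cast (i j : ℕ) : ((uQ i j : ℚ) : ℝ) = tOf i j ^ 2 := by
  unfold uQ tOf tE
  push_cast
  ring

lemma tOf_le {i j i' j' : ℕ} (h : gridQ i' j' ≤ gridQ i j) : tOf i j ≤ tOf i' j' := by
  have h' : ((gridQ i' j' : ℚ) : ℝ) ≤ ((gridQ i j : ℚ) : ℝ) := by exact_mod_cast h
  have h0 := gridR_pos i j
  have h0' := gridR_pos i' j'
  unfold tOf tE
  rw [div_le_div_iff₀ (by linarith) (by linarith)]
  nlinarith

lemma llo_pos_of_lt_one {i j : ℕ} (h : gridQ i j < 1) : 0 < llo i j := by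
  have hn : ¬(i = 0 ∧ j = 0) := by
    rintro ⟨rfl, rfl⟩
    simp [gridQ] at h
  unfold llo ln2lo lnrlo
  rcases Nat.eq_zero_or_pos i with hi | hi
  · have hj : 0 < j := Nat.pos_of_ne_zero fun hj => hn ⟨hi, hj⟩
    have : (0:ℚ) < j := by exact_mod_cast hj
    rw [hi]
    push_cast
    positivity
  · have : (0:ℚ) < i := by exact_mod_cast hi
    positivity

/-- One slab. -/
theorem slab_sound {i₁ j₁ : ℕ} {s : Slab} (h1 : gridQ i₁ j₁ < 1) (hok : slabOK i₁ j₁ s = true)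
    {t : ℝ} (ht1 : tOf i₁ j₁ ≤ t) (ht2 : t < tOf s.i s.j) :
    ∀ q : ℝ, 0 < q → q < 1 → 0 ≤ gam t q → 0 < v2F t q →
    q * gam t q * (CC t + q * gam t q / 3) ≤
      q * (eeF ((1 - q) * t ^ 2) / (1 - q) ^ 2) + Psi (v2F t q) (hh t) := by
  intro q hq0 hq1 hγ hv2
  simp only [slabOK, Bool.and_eq_true, decide_eq_true_eq] at hok
  obtain ⟨⟨h2, h3⟩, h4⟩ := hok
  have hB1 : gridQ s.i s.j < 1 := lt_of_le_of_lt h2 h1
  have hA0 := gridR_pos i₁ j₁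
  have hA1 : ((gridQ i₁ j₁ : ℚ) : ℝ) < 1 := by exact_mod_cast h1
  have hB0 := gridR_pos s.i s.j
  have hB1' : ((gridQ s.i s.j : ℚ) : ℝ) < 1 := by exact_mod_cast hB1
  have htA0 : 0 < tOf i₁ j₁ := tE_pos hA0 hA1
  have htB1 : tOf s.i s.j < 1 := tE_lt_one hB0 hB1'
  have ht0 : 0 < t := by linarith
  have ht1' : t < 1 := by linarith
  have hAbs := abs_lt_of_Ioo ht0 ht1'
  have hu1 : ((uQ i₁ j₁ : ℚ) : ℝ) ≤ t ^ 2 := by
    rw [uQ_cast]
    nlinarith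
  have hu2 : t ^ 2 ≤ ((uQ s.i s.j : ℚ) : ℝ) := by
    rw [uQ_cast]
    nlinarith
  have hu3 : uQ s.i s.j ≤ 1 := by
    have : ((uQ s.i s.j : ℚ) : ℝ) ≤ 1 := by
      rw [uQ_cast]
      have : 0 < tOf s.i s.j := by linarith
      nlinarith
    exact_mod_cast this
  have hu0 : 0 ≤ uQ i₁ j₁ := by
    unfold uQ
    positivity
  have hC : CC t ≤ ((ChiQ s.i s.j : ℚ) : ℝ) := by
    have h5 := CC_tOf_le hB1 (llo_pos_of_lt_one hB1)
    have h6 : CC t ≤ CC (tOf s.i s.j) :=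
      CC_mono (mem_Ico.mpr ⟨ht0.le, ht1'⟩) (mem_Ico.mpr ⟨by linarith, htB1⟩) ht2.le
    linarith
  have hf : hh t / log 2 ≤ ((gridQ s.fi s.fj : ℚ) : ℝ) := by
    have h5 := hh_tOf_le h1
    have h6 : hh t ≤ hh (tOf i₁ j₁) :=
      hh_anti.antitoneOn (mem_Ico.mpr ⟨htA0.le, by linarith⟩) (mem_Ico.mpr ⟨ht0.le, ht1'⟩) ht1
    have h7 : ((hhiQ i₁ j₁ : ℚ) : ℝ) / ((ln2lo : ℚ) : ℝ) ≤ ((gridQ s.fi s.fj : ℚ) : ℝ) := by
      exact_mod_cast h3
    have hl := ln2lo_le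
    have hl0 : (0:ℝ) < ((ln2lo : ℚ) : ℝ) := by
      unfold ln2lo
      norm_num
    have hp := hh_pos hAbs
    have h8 : hh t / log 2 ≤ hh t / ((ln2lo : ℚ) : ℝ) :=
      div_le_div_of_nonneg_left hp.le hl0 hl
    have h9 : hh t / ((ln2lo : ℚ) : ℝ) ≤ ((hhiQ i₁ j₁ : ℚ) : ℝ) / ((ln2lo : ℚ) : ℝ) :=
      div_le_div_of_nonneg_right (by linarith) hl0.le
    linarith
  exact cells_sound ht0 ht1' hu0 hu1 hu2 hu3 hC hf (gridQ_pos _ _) (llo_le _ _) s.cells 1 le_rfl h4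
    q hq0 hq1 (by simpa using hq1.le) hγ hv2

/-- The last grid point of a list of slabs. -/
def lastOf : ℕ → ℕ → List Slab → ℕ × ℕ
  | i, j, [] => (i, j)
  | _, _, s :: ss => lastOf s.i s.j ss

/-- A list of slabs. -/
theorem slabs_sound : ∀ (L : List Slab) (i₁ j₁ : ℕ), gridQ i₁ j₁ < 1 → slabsOK i₁ j₁ L = true →
    ∀ t : ℝ, tOf i₁ j₁ ≤ t → t < tOf (lastOf i₁ j₁ L).1 (lastOf i₁ j₁ L).2 →
    ∀ q : ℝ, 0 < q → q < 1 → 0 ≤ gam t q → 0 < v2F t q →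
    q * gam t q * (CC t + q * gam t q / 3) ≤
      q * (eeF ((1 - q) * t ^ 2) / (1 - q) ^ 2) + Psi (v2F t q) (hh t) := by
  intro L
  induction L with
  | nil =>
      intro i₁ j₁ _ _ t h1 h2
      simp only [lastOf] at h2
      linarith
  | cons s ss ih =>
      intro i₁ j₁ h1 hok t ht1 ht2
      simp only [slabsOK, Bool.and_eq_true] at hok
      obtain ⟨h3, h4⟩ := hok
      simp only [lastOf] at ht2
      by_cases hc : t < tOf s.i s.j
      · exact slab_sound h1 h3 ht1 hc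
      · push Not at hc
        simp only [slabOK, Bool.and_eq_true, decide_eq_true_eq] at h3
        have hB1 : gridQ s.i s.j < 1 := lt_of_le_of_lt h3.1.1 h1
        exact ih s.i s.j hB1 h4 t hc ht2

end Vale.Agent.Lib.P322B.EC
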