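import Vale.Agent.Lib.P322B.Bellman
import Vale.Agent.Lib.P322.CkBarrier

/-! # Module F: the barrier argument. -/

namespace Vale.Agent.Lib.P322B

open Real Set Finset
open Vale.Agent.Lib.P322

lemma ckA_eq {t : ℝ} (h : |t| < 1) : ckA t = At t := by
  obtain ⟨h1, h2⟩ := abs_lt_one_pos h
  unfold ckA At
  rw [Real.log_div h1.ne' h2.ne']
  ring

lemma ckh_eq {t : ℝ} (h : |t| < 1) : ckh t = hh t := by
  obtain ⟨h1, h2⟩ := abs_lt_one_pos h
  unfold ckh hh Ph binEntropy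
  have e1 : 1 - (1 + t) / 2 = (1 - t) / 2 := by ring
  rw [e1, Real.log_inv, Real.log_inv, Real.log_div h1.ne' two_ne_zero,
    Real.log_div h2.ne' two_ne_zero]
  ring

lemma ckJ_eq {s x : ℝ} (hs : |s| < 1) (hx : |x| < 1) : ckJ s x = JJ s x := by
  unfold ckJ JJ
  rw [ckA_eq hs, ckA_eq hx]

lemma ckE_eq {n : ℕ} {g : Cube n → ℝ} (hg : ∀ y, |g y| < 1) : ckE g = dirichB g := by
  unfold ckE dirichB avg
  rw [← sum_div, sum_comm]
  simp only [ckJ_eq (hg _) (hg _)]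
  ring

lemma mm_zero : mm 0 = 1 := by simp [mm]

/-- Balanced Courtade-Kumar at every noise level. -/
theorem balanced_ck {n : ℕ} (f : Cube n → Bool) (hf : probTrue f = 1 / 2) {ε : ℝ}
    (h0 : 0 ≤ ε) (h1 : ε ≤ 1 / 2) : mutualInfoBits f ε ≤ 1 - h2 ε := by
  refine balanced_ck_of_dirichlet ?_ f hf h0 h1
  intro m g hg hm τ hτ0 hτ1 hle
  have hg1 : ∀ y, |g y| < 1 := fun y => abs_lt.2 (hg y)
  have hτ : |τ| < 1 := abs_lt_of_Ioo hτ0 hτ1
  rw [ckE_eq hg1, ckA_eq hτ]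
  rw [ckh_eq hτ] at hle
  have e : avg (fun y => ckh (g y)) = avg (fun y => hh (g y)) := by
    congr 1
    funext y
    exact ckh_eq (hg1 y)
  rw [e] at hle
  have hb := bellman m g hg1 τ ⟨hτ0.le, hτ1⟩
  rw [hm, mm_zero, hh_zero] at hb
  have hk := kk_nonneg hτ0.le hτ1
  have hid : 2 * log 2 + CC τ * 1 = τ * At τ + (kk τ + 2) * hh τ := by
    unfold CC Xi hh
    ring
  have hm2 := mul_le_mul_of_nonneg_left hle (by linarith : 0 ≤ kk τ + 2)
  linarith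

end Vale.Agent.Lib.P322B
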