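import Vale.Agent.Lib.P322B.UL

/-! # Module G: the elementary monotonicity in `a` at fixed `(b,l)`. -/

namespace Vale.Agent.Lib.P322B

open Real Set

lemma mm_sub_DD_eq (a b : ℝ) : mm a - DD b - (1 - (a + b) ^ 2) * (1 - (a - b) ^ 2) =
    7 / 8 * (a ^ 2 - (a ^ 2) ^ 2) + 7 / 8 * (b ^ 2 - (b ^ 2) ^ 2) + 2 * a ^ 2 * b ^ 2 := by
  unfold mm DD
  ring

lemma Pi_pos {a b : ℝ} (ha : 0 ≤ a) (hb : 0 ≤ b) (hab : a + b < 1) :
    0 < (1 - (a + b) ^ 2) * (1 - (a - b) ^ 2) := by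
  have h1 : |a + b| < 1 := by rw [abs_lt]; constructor <;> linarith
  have h2 : |a - b| < 1 := by rw [abs_lt]; constructor <;> linarith
  exact mul_pos (one_sub_sq_pos h1) (one_sub_sq_pos h2)

lemma mm_sub_DD_ge_Pi {a b : ℝ} (ha : 0 ≤ a) (hb : 0 ≤ b) (hab : a + b < 1) :
    (1 - (a + b) ^ 2) * (1 - (a - b) ^ 2) ≤ mm a - DD b := by
  have e := mm_sub_DD_eq a b
  have ha1 : a ≤ 1 := by linarith
  have hb1 : b ≤ 1 := by linarith
  have hx : a ^ 2 ≤ 1 := by nlinarith
  have hz : b ^ 2 ≤ 1 := by nlinarith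
  have h3 : 0 ≤ a ^ 2 - (a ^ 2) ^ 2 := by nlinarith [sq_nonneg a]
  have h4 : 0 ≤ b ^ 2 - (b ^ 2) ^ 2 := by nlinarith [sq_nonneg b]
  have h5 : 0 ≤ 2 * a ^ 2 * b ^ 2 := by positivity
  linarith

/-- Positivity of the bottom of the window. -/
lemma mm_sub_DD_pos {a b : ℝ} (ha : 0 ≤ a) (hb : 0 ≤ b) (hab : a + b < 1) : 0 < mm a - DD b :=
  lt_of_lt_of_le (Pi_pos ha hb hab) (mm_sub_DD_ge_Pi ha hb hab)

/-- Pointwise polynomial inequality (P). -/
lemma poly_P {a b : ℝ} (ha : 0 ≤ a) (hb : 0 ≤ b) (hab : a + b < 1) :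
    2 / 3 * (9 / 8 - a ^ 2 / 4) * (9 / 8 - b ^ 2 / 4) * ((1 - (a + b) ^ 2) * (1 - (a - b) ^ 2))
      ≤ mm a - DD b := by
  have h1 := Pi_pos ha hb hab
  have h2 := mm_sub_DD_ge_Pi ha hb hab
  have hc : 2 / 3 * (9 / 8 - a ^ 2 / 4) * (9 / 8 - b ^ 2 / 4) ≤ 1 := by
    have ha1 : a ≤ 1 := by linarith
    have hb1 : b ≤ 1 := by linarith
    have hx : a ^ 2 ≤ 1 := by nlinarith
    have hz : b ^ 2 ≤ 1 := by nlinarith
    have hx0 := sq_nonneg a
    have hz0 := sq_nonneg b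
    have h3 : 0 ≤ 9 / 8 - a ^ 2 / 4 := by linarith
    have h4 : 0 ≤ 9 / 8 - b ^ 2 / 4 := by linarith
    have h5 : (9 / 8 - a ^ 2 / 4) * (9 / 8 - b ^ 2 / 4) ≤ 9 / 8 * (9 / 8) := by
      apply mul_le_mul <;> linarith
    nlinarith
  nlinarith

lemma mm_pos {a : ℝ} (ha : 0 ≤ a) (h1 : a < 1) : 0 < mm a := by
  have hx : a ^ 2 < 1 := by nlinarith
  unfold mm
  apply mul_pos <;> nlinarith

lemma DD_nonneg {b : ℝ} (hb : 0 ≤ b) (h1 : b < 1) : 0 ≤ DD b := by
  have hx : b ^ 2 < 1 := by nlinarith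
  unfold DD
  apply mul_nonneg (sq_nonneg b)
  nlinarith

lemma DD_zero : DD 0 = 0 := by simp [DD]

lemma hasDerivAt_mm (a : ℝ) : HasDerivAt mm (-(2 * a * (9 / 8 - a ^ 2 / 4))) a := by
  have h1 : HasDerivAt (fun a : ℝ => 1 - a ^ 2) (-(2 * a)) a := by
    simpa using ((hasDerivAt_id a).pow 2).const_sub 1
  have h2 : HasDerivAt (fun a : ℝ => 1 - a ^ 2 / 8) (-(2 * a / 8)) a := by
    simpa using (((hasDerivAt_id a).pow 2).div_const 8).const_sub 1
  have h3 := h1.mul h2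
  refine HasDerivAt.congr_deriv (f := mm) h3 ?_
  ring

lemma hasDerivAt_DD (b : ℝ) : HasDerivAt DD (2 * b * (9 / 8 - b ^ 2 / 4)) b := by
  have h1 : HasDerivAt (fun b : ℝ => b ^ 2) (2 * b) b := by
    simpa using hasDerivAt_pow 2 b
  have h2 : HasDerivAt (fun b : ℝ => 9 / 8 - b ^ 2 / 8) (-(2 * b / 8)) b := by
    simpa using (((hasDerivAt_id b).pow 2).div_const 8).const_sub (9 / 8)
  have h3 := h1.mul h2
  refine HasDerivAt.congr_deriv (f := DD) h3 ?_
  ring

/-- (M2'') by monotonicity in `b`. -/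
lemma At_second_diff_lower {a b : ℝ} (ha : 0 ≤ a) (hb : 0 ≤ b) (hab : a + b < 1) :
    2 * a * (2 / 3) * (9 / 8 - a ^ 2 / 4) * (log (mm a) - log (mm a - DD b))
      ≤ At (a + b) + At (a - b) - 2 * At a := by
  have hin : ∀ x ∈ Icc 0 b, |a + x| < 1 ∧ |a - x| < 1 ∧ 0 < mm a - DD x ∧ 0 ≤ x ∧ a + x < 1 := by
    intro x hx
    have h1 := hx.1
    have h2 := hx.2
    refine ⟨?_, ?_, mm_sub_DD_pos ha h1 (by linarith), h1, by linarith⟩ <;>
    · rw [abs_lt]; constructor <;> linarith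
  set c := 2 * a * (2 / 3) * (9 / 8 - a ^ 2 / 4) with hc
  have hd : ∀ x ∈ Icc 0 b, HasDerivAt
      (fun x => At (a + x) + At (a - x) - 2 * At a - c * (log (mm a) - log (mm a - DD x)))
      (1 / (1 - (a + x) ^ 2) - 1 / (1 - (a - x) ^ 2) - c * (2 * x * (9 / 8 - x ^ 2 / 4) / (mm a - DD x))) x := by
    intro x hx
    obtain ⟨h1, h2, h3, _, _⟩ := hin x hx
    have d1 : HasDerivAt (fun x => At (a + x)) (1 / (1 - (a + x) ^ 2)) x :=
      (hasDerivAt_At h1).comp_const_add a x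
    have d2 : HasDerivAt (fun x => At (a - x)) (-(1 / (1 - (a - x) ^ 2))) x :=
      (hasDerivAt_At h2).comp_const_sub a x
    have d3 : HasDerivAt (fun x => log (mm a - DD x)) (-(2 * x * (9 / 8 - x ^ 2 / 4)) / (mm a - DD x)) x := by
      have := ((hasDerivAt_DD x).const_sub (mm a)).log h3.ne'
      exact this
    have d4 := ((d1.add d2).sub_const (2 * At a)).sub ((d3.const_sub (log (mm a))).const_mul c)
    refine HasDerivAt.congr_deriv d4 ?_
    field_simp
    ring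
  have hm : MonotoneOn (fun x => At (a + x) + At (a - x) - 2 * At a - c * (log (mm a) - log (mm a - DD x)))
      (Icc 0 b) := by
    apply mono_of_hasDeriv (convex_Icc 0 b)
      (f' := fun x => 1 / (1 - (a + x) ^ 2) - 1 / (1 - (a - x) ^ 2)
        - c * (2 * x * (9 / 8 - x ^ 2 / 4) / (mm a - DD x)))
    · intro x hx
      exact (hd x hx).continuousAt.continuousWithinAt
    · intro x hx
      exact hd x (interior_subset hx)
    · intro x hx
      have hx' := interior_subset hx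
      obtain ⟨h1, h2, h3, h4, h5⟩ := hin x hx'
      have p1 := one_sub_sq_pos h1
      have p2 := one_sub_sq_pos h2
      have hP := poly_P ha h4 h5
      have e : 1 / (1 - (a + x) ^ 2) - 1 / (1 - (a - x) ^ 2)
          - c * (2 * x * (9 / 8 - x ^ 2 / 4) / (mm a - DD x)) =
          4 * a * x * ((mm a - DD x) - 2 / 3 * (9 / 8 - a ^ 2 / 4) * (9 / 8 - x ^ 2 / 4)
            * ((1 - (a + x) ^ 2) * (1 - (a - x) ^ 2)))
            / (((1 - (a + x) ^ 2) * (1 - (a - x) ^ 2)) * (mm a - DD x)) := by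
        rw [hc]
        field_simp
        ring
      rw [e]
      apply div_nonneg
      · apply mul_nonneg (by positivity) (by linarith)
      · positivity
  have h := hm ⟨le_rfl, hb⟩ ⟨hb, le_rfl⟩ hb
  simp only [DD_zero, add_zero, sub_zero, sub_self, mul_zero] at h
  have e : At a + At a - 2 * At a = 0 := by ring
  rw [e] at h
  linarith

/-- The monotone quantity. -/
noncomputable def WW (a b : ℝ) : ℝ :=
  GG a b + 2 / 3 * (mm a * log (mm a) - (mm a - DD b) * log (mm a - DD b))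

lemma WW_mono {a a' b : ℝ} (ha : 0 ≤ a) (haa : a ≤ a') (hb : 0 ≤ b) (hab : a' + b < 1) :
    WW a b ≤ WW a' b := by
  have hin : ∀ x ∈ Icc a a', |x + b| < 1 ∧ |x - b| < 1 ∧ |x| < 1 ∧ 0 < mm x - DD b ∧ 0 < mm x := by
    intro x hx
    have h1 := hx.1
    have h2 := hx.2
    have hb1 : b < 1 := by linarith
    refine ⟨?_, ?_, ?_, mm_sub_DD_pos (by linarith) hb (by linarith), mm_pos (by linarith) (by linarith)⟩ <;>
    · rw [abs_lt]; constructor <;> linarith
  have hd : ∀ x ∈ Icc a a', HasDerivAt (fun x => WW x b)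
      (At (x + b) + At (x - b) - 2 * At x
        - 2 * x * (2 / 3) * (9 / 8 - x ^ 2 / 4) * (log (mm x) - log (mm x - DD b))) x := by
    intro x hx
    obtain ⟨h1, h2, h3, h4, h5⟩ := hin x hx
    have d1 : HasDerivAt (fun x => Ph (x + b)) (At (x + b)) x :=
      (hasDerivAt_Ph h1).comp_add_const x b
    have d2 : HasDerivAt (fun x => Ph (x - b)) (At (x - b)) x :=
      (hasDerivAt_Ph h2).comp_sub_const x b
    have d3 := hasDerivAt_Ph h3
    have dm := hasDerivAt_mm x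
    have dφ : HasDerivAt (fun y => y * log y) (log (mm x) + 1) (mm x) := hasDerivAt_mul_log h5.ne'
    have dφ' : HasDerivAt (fun y => y * log y) (log (mm x - DD b) + 1) (mm x - DD b) :=
      hasDerivAt_mul_log h4.ne'
    have c1 : HasDerivAt (fun x => mm x * log (mm x))
        ((log (mm x) + 1) * (-(2 * x * (9 / 8 - x ^ 2 / 4)))) x := dφ.comp x dm
    have c2 : HasDerivAt (fun x => (mm x - DD b) * log (mm x - DD b))
        ((log (mm x - DD b) + 1) * (-(2 * x * (9 / 8 - x ^ 2 / 4)))) x :=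
      HasDerivAt.comp (h₂ := fun y => y * log y) (h := fun x => mm x - DD b) x dφ' (dm.sub_const (DD b))
    have d4 := ((d1.add d2).sub (d3.const_mul 2)).add ((c1.sub c2).const_mul (2 / 3))
    refine HasDerivAt.congr_deriv d4 ?_
    ring
  have hm : MonotoneOn (fun x => WW x b) (Icc a a') := by
    apply mono_of_hasDeriv (convex_Icc a a')
      (f' := fun x => At (x + b) + At (x - b) - 2 * At x
        - 2 * x * (2 / 3) * (9 / 8 - x ^ 2 / 4) * (log (mm x) - log (mm x - DD b)))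
    · intro x hx
      exact (hd x hx).continuousAt.continuousWithinAt
    · intro x hx
      exact hd x (interior_subset hx)
    · intro x hx
      have hx' := interior_subset hx
      have := At_second_diff_lower (a := x) (b := b) (by linarith [hx'.1]) hb (by linarith [hx'.2])
      linarith
  exact hm ⟨le_rfl, haa⟩ ⟨haa, le_rfl⟩ haa

lemma mm_anti {a a' : ℝ} (ha : 0 ≤ a) (haa : a ≤ a') (h1 : a' < 1) : mm a' ≤ mm a := by
  have hx : a ^ 2 ≤ a' ^ 2 := by nlinarith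
  have hx' : a' ^ 2 < 1 := by nlinarith
  unfold mm
  have h0 := sq_nonneg a
  nlinarith

/-- The step used in the `N` branch. -/
lemma T_step {a a' b l : ℝ} (ha : 0 ≤ a) (haa : a ≤ a') (hb : 0 ≤ b) (hab : a' + b < 1) (hl : 0 < l) :
    GG a b + (Psi (mm a) l - Psi (mm a - DD b) l) ≤ GG a' b + (Psi (mm a') l - Psi (mm a' - DD b) l) := by
  have h1 := WW_mono ha haa hb hab
  have h2 := Psi_increment (m₁ := mm a) (m₂ := mm a') (D := DD b) hl (DD_nonneg hb (by linarith))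
    (mm_sub_DD_pos (by linarith) hb hab) (mm_anti ha haa (by linarith))
  unfold WW at h1
  linarith

end Vale.Agent.Lib.P322B
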