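import Vale.Agent.Lib.P322B.Calculus

/-! # One-dimensional numeric facts `S_le` and `L_key`. -/

namespace Vale.Agent.Lib.P322B

open Real Set

private lemma hd_pow (n : ℕ) (c x : ℝ) :
    HasDerivAt (fun y : ℝ => y ^ (n + 1) * c) ((n + 1 : ℝ) * x ^ n * c) x := by
  have := ((hasDerivAt_id x).pow (n + 1)).mul_const c
  simpa using this

/-- Partial sums of the series of `At` are lower bounds. -/
lemma At_lower {t : ℝ} (h0 : 0 ≤ t) (h1 : t < 1) :
    t + t ^ 3 / 3 + t ^ 5 / 5 + t ^ 7 / 7 + t ^ 9 / 9 ≤ At t := by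
  have hm : MonotoneOn (fun x => At x - (x + x ^ 3 / 3 + x ^ 5 / 5 + x ^ 7 / 7 + x ^ 9 / 9)) (Ico 0 1) := by
    apply mono_of_hasDeriv (convex_Ico 0 1)
      (f' := fun x => 1 / (1 - x ^ 2) - (1 + x ^ 2 + x ^ 4 + x ^ 6 + x ^ 8))
    · apply ContinuousOn.sub
      · exact continuousOn_At' (fun x hx => abs_lt_of_Ico hx.1 hx.2)
      · fun_prop
    · intro x hx
      rw [interior_Ico] at hx
      have hA := hasDerivAt_At (abs_lt_of_Ioo hx.1 hx.2)
      have hP : HasDerivAt (fun x : ℝ => x + x ^ 3 / 3 + x ^ 5 / 5 + x ^ 7 / 7 + x ^ 9 / 9)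
          (1 + x ^ 2 + x ^ 4 + x ^ 6 + x ^ 8) x := by
        have h3 := ((hasDerivAt_id x).pow 3).div_const 3
        have h5 := ((hasDerivAt_id x).pow 5).div_const 5
        have h7 := ((hasDerivAt_id x).pow 7).div_const 7
        have h9 := ((hasDerivAt_id x).pow 9).div_const 9
        have := (((hasDerivAt_id x).add h3).add h5).add h7 |>.add h9
        refine HasDerivAt.congr_deriv (f := fun x : ℝ => x + x ^ 3 / 3 + x ^ 5 / 5 + x ^ 7 / 7 + x ^ 9 / 9) this ?_
        simp only [id]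
        norm_num
      exact hA.sub hP
    · intro x hx
      rw [interior_Ico] at hx
      have hp := one_sub_sq_pos (abs_lt_of_Ioo hx.1 hx.2)
      have : (1 + x ^ 2 + x ^ 4 + x ^ 6 + x ^ 8) ≤ 1 / (1 - x ^ 2) := by
        rw [le_div_iff₀ hp]
        have : 0 ≤ x ^ 10 := by positivity
        nlinarith
      linarith
  have := hm (left_mem_Ico.mpr one_pos) (mem_Ico.mpr ⟨h0, h1⟩) h0
  simp only [At_zero] at this
  norm_num at this
  linarith

/-- Upper bound for `At` on `t² ≤ 13/25`. -/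
lemma At_upper {t : ℝ} (h0 : 0 ≤ t) (h1 : t ^ 2 ≤ 13 / 25) :
    At t ≤ t + t ^ 3 / 3 + t ^ 5 / 5 + t ^ 7 / 7 + t ^ 9 * (25 / 108) := by
  have ht1 : t < 1 := by nlinarith
  set T : ℝ := √(13 / 25) with hT
  have hT1 : T < 1 := by
    rw [hT, Real.sqrt_lt' (by norm_num)]; norm_num
  have hT2 : T ^ 2 = 13 / 25 := by
    rw [hT]; exact Real.sq_sqrt (by norm_num)
  have hT0 : 0 ≤ T := Real.sqrt_nonneg _
  have htT : t ≤ T := by
    rw [hT]; exact Real.le_sqrt_of_sq_le h1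
  have hm : MonotoneOn (fun x => (x + x ^ 3 / 3 + x ^ 5 / 5 + x ^ 7 / 7 + x ^ 9 * (25 / 108)) - At x) (Icc 0 T) := by
    apply mono_of_hasDeriv (convex_Icc 0 T)
      (f' := fun x => (1 + x ^ 2 + x ^ 4 + x ^ 6 + x ^ 8 * (25 / 12)) - 1 / (1 - x ^ 2))
    · apply ContinuousOn.sub
      · fun_prop
      · exact continuousOn_At' (fun x hx => abs_lt_of_Ico hx.1 (lt_of_le_of_lt hx.2 hT1))
    · intro x hx
      rw [interior_Icc] at hx
      have hA := hasDerivAt_At (abs_lt_of_Ioo hx.1 (lt_trans hx.2 hT1))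
      have hP : HasDerivAt (fun x : ℝ => x + x ^ 3 / 3 + x ^ 5 / 5 + x ^ 7 / 7 + x ^ 9 * (25 / 108))
          (1 + x ^ 2 + x ^ 4 + x ^ 6 + x ^ 8 * (25 / 12)) x := by
        have h3 := ((hasDerivAt_id x).pow 3).div_const 3
        have h5 := ((hasDerivAt_id x).pow 5).div_const 5
        have h7 := ((hasDerivAt_id x).pow 7).div_const 7
        have h9 := ((hasDerivAt_id x).pow 9).mul_const (25 / 108 : ℝ)
        have := (((hasDerivAt_id x).add h3).add h5).add h7 |>.add h9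
        refine HasDerivAt.congr_deriv (f := fun x : ℝ => x + x ^ 3 / 3 + x ^ 5 / 5 + x ^ 7 / 7 + x ^ 9 * (25 / 108)) this ?_
        simp only [id]
        norm_num
        ring
      exact hP.sub hA
    · intro x hx
      rw [interior_Icc] at hx
      have hx1 := lt_trans hx.2 hT1
      have hp := one_sub_sq_pos (abs_lt_of_Ioo hx.1 hx1)
      have hx2 : x ^ 2 ≤ 13 / 25 := by nlinarith [hx.1, hx.2]
      have : 1 / (1 - x ^ 2) ≤ (1 + x ^ 2 + x ^ 4 + x ^ 6 + x ^ 8 * (25 / 12)) := by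
        rw [div_le_iff₀ hp]
        have h8 : 0 ≤ x ^ 8 := by positivity
        have : (1 + x ^ 2 + x ^ 4 + x ^ 6 + x ^ 8 * (25 / 12)) * (1 - x ^ 2) - 1
            = x ^ 8 * ((25 / 12) * (1 - x ^ 2) - 1) := by ring
        have h5 : 0 ≤ x ^ 8 * ((25 / 12) * (1 - x ^ 2) - 1) :=
          mul_nonneg h8 (by linarith)
        linarith
      linarith
  have := hm (left_mem_Icc.mpr hT0) (mem_Icc.mpr ⟨h0, htT⟩) h0
  simp only [At_zero] at this
  norm_num at this
  linarith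

/-- Polynomial upper bound for `hh`. -/
lemma hh_upper {t : ℝ} (h0 : 0 ≤ t) (h1 : t < 1) :
    hh t ≤ log 2 - t ^ 2 / 2 - t ^ 4 / 12 - t ^ 6 / 30 := by
  have hm : AntitoneOn (fun x => hh x - (log 2 - x ^ 2 / 2 - x ^ 4 / 12 - x ^ 6 / 30)) (Ico 0 1) := by
    apply anti_of_hasDeriv (convex_Ico 0 1)
      (f' := fun x => -At x - (-x - x ^ 3 / 3 - x ^ 5 / 5))
    · apply ContinuousOn.sub continuous_hh.continuousOn
      fun_prop
    · intro x hx
      rw [interior_Ico] at hx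
      have hA := hasDerivAt_hh (abs_lt_of_Ioo hx.1 hx.2)
      have hP : HasDerivAt (fun x : ℝ => log 2 - x ^ 2 / 2 - x ^ 4 / 12 - x ^ 6 / 30)
          (-x - x ^ 3 / 3 - x ^ 5 / 5) x := by
        have h2 := ((hasDerivAt_id x).pow 2).div_const 2
        have h4 := ((hasDerivAt_id x).pow 4).div_const 12
        have h6 := ((hasDerivAt_id x).pow 6).div_const 30
        have := (((hasDerivAt_const x (log 2)).sub h2).sub h4).sub h6
        refine HasDerivAt.congr_deriv (f := fun x : ℝ => log 2 - x ^ 2 / 2 - x ^ 4 / 12 - x ^ 6 / 30) this ?_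
        simp only [id]
        norm_num
        ring
      exact hA.sub hP
    · intro x hx
      rw [interior_Ico] at hx
      have := At_lower hx.1.le hx.2
      have h7 : 0 ≤ x ^ 7 := by have := hx.1; positivity
      have h9 : 0 ≤ x ^ 9 := by have := hx.1; positivity
      linarith
  have := hm (left_mem_Ico.mpr one_pos) (mem_Ico.mpr ⟨h0, h1⟩) h0
  simp only [hh_zero] at this
  norm_num at this
  linarith


/-- Polynomial inequality behind `S_le` for small `t`, with a Bernstein certificate. -/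
lemma S_poly {u : ℝ} (h0 : 0 ≤ u) (h1 : u ≤ 13 / 25) :
    (13863 / 20000 - u / 2 - u ^ 2 / 12 - u ^ 3 / 30) ^ 2 *
        (1 + (1 + u) * (1 / 3 + u / 5 + u ^ 2 / 7 + u ^ 3 * (25 / 108))) ≤
      2 / 3 * (1 + u * (1 / 3 + u / 5 + u ^ 2 / 7)) ^ 3 * (1 - u) ^ 2 := by
  have hc : 0 ≤ 13 / 25 - u := by linarith
  have key : 2 / 3 * (1 + u * (1 / 3 + u / 5 + u ^ 2 / 7)) ^ 3 * (1 - u) ^ 2 -
      (13863 / 20000 - u / 2 - u ^ 2 / 12 - u ^ 3 / 30) ^ 2 *
        (1 + (1 + u) * (1 / 3 + u / 5 + u ^ 2 / 7 + u ^ 3 * (25 / 108))) =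
      (47712591552734375/1376379182620416) * u ^ 0 * (13 / 25 - u) ^ 11 +
      (526066437060546875/1376379182620416) * u ^ 1 * (13 / 25 - u) ^ 10 +
      (27585256960134765625/14451981417514368) * u ^ 2 * (13 / 25 - u) ^ 9 +
      (23670614374962454296875/4162170648244137984) * u ^ 3 * (13 / 25 - u) ^ 8 +
      (15523451494915725390625/1387390216081379328) * u ^ 4 * (13 / 25 - u) ^ 7 +
      (2340108961556067171875/154154468453486592) * u ^ 5 * (13 / 25 - u) ^ 6 +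
      (139740892705611276321875/9711731512569655296) * u ^ 6 * (13 / 25 - u) ^ 5 +
      (824756942592740334509375/87405583613126897664) * u ^ 7 * (13 / 25 - u) ^ 4 +
      (361379333975392071930125/87405583613126897664) * u ^ 8 * (13 / 25 - u) ^ 3 +
      (25474284433233303461075/22660706862662529024) * u ^ 9 * (13 / 25 - u) ^ 2 +
      (99128066938881490180015/611839085291888283648) * u ^ 10 * (13 / 25 - u) ^ 1 +
      (2466822357980361973457/305919542645944141824) * u ^ 11 * (13 / 25 - u) ^ 0 := by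
    ring
  have : 0 ≤ 2 / 3 * (1 + u * (1 / 3 + u / 5 + u ^ 2 / 7)) ^ 3 * (1 - u) ^ 2 -
      (13863 / 20000 - u / 2 - u ^ 2 / 12 - u ^ 3 / 30) ^ 2 *
        (1 + (1 + u) * (1 / 3 + u / 5 + u ^ 2 / 7 + u ^ 3 * (25 / 108))) := by
    rw [key]
    positivity
  linarith

/-- Cross-multiplied form of `S_le` for `t ≤ 18/25`. -/
lemma S_small {t : ℝ} (h0 : 0 < t) (h1 : t ≤ 18 / 25) :
    hh t ^ 2 * (At t * (1 + t ^ 2) - t) ≤ 2 / 3 * At t ^ 3 * (1 - t ^ 2) ^ 2 := by
  have ht1 : t < 1 := by linarith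
  have hu2 : t ^ 2 ≤ 13 / 25 := by nlinarith
  set u := t ^ 2 with hu
  have hu0 : 0 ≤ u := by positivity
  have hAl := At_lower h0.le ht1
  have hAu := At_upper h0.le hu2
  have hH := hh_upper h0.le ht1
  have hAbs := abs_lt_of_Ioo h0 ht1
  have hh0 := hh_pos hAbs
  have hl := Real.log_two_lt_d9
  -- rewrite powers of `t`
  have e3 : t ^ 3 = t * u := by rw [hu]; ring
  have e4 : t ^ 4 = u ^ 2 := by rw [hu]; ring
  have e5 : t ^ 5 = t * u ^ 2 := by rw [hu]; ring
  have e6 : t ^ 6 = u ^ 3 := by rw [hu]; ring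
  have e7 : t ^ 7 = t * u ^ 3 := by rw [hu]; ring
  have e9 : t ^ 9 = t * u ^ 4 := by rw [hu]; ring
  rw [e3, e5, e7, e9] at hAl hAu
  rw [e4, e6] at hH
  set H : ℝ := 13863 / 20000 - u / 2 - u ^ 2 / 12 - u ^ 3 / 30 with hHdef
  have hHle : hh t ≤ H := by
    rw [hHdef]
    norm_num at hl ⊢
    linarith
  set A := At t with hA
  have hXnn : 0 ≤ A * (1 + u) - t := by
    have : t ≤ A := self_le_At h0.le ht1
    nlinarith
  have h1' : hh t ^ 2 ≤ H ^ 2 := by
    apply pow_le_pow_left₀ hh0.le hHle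
  have yhi : A ≤ t * (1 + u * (1 / 3 + u / 5 + u ^ 2 / 7 + u ^ 3 * (25 / 108))) := by
    nlinarith
  have ylo : t * (1 + u * (1 / 3 + u / 5 + u ^ 2 / 7)) ≤ A := by
    have : 0 ≤ t * u ^ 4 / 9 := by positivity
    nlinarith
  have hX : A * (1 + u) - t ≤ t * u * (1 + (1 + u) * (1 / 3 + u / 5 + u ^ 2 / 7 + u ^ 3 * (25 / 108))) := by
    have := mul_le_mul_of_nonneg_right yhi (show 0 ≤ 1 + u by linarith)
    nlinarith
  have hlo0 : 0 ≤ t * (1 + u * (1 / 3 + u / 5 + u ^ 2 / 7)) := by positivity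
  have hA3 : (t * (1 + u * (1 / 3 + u / 5 + u ^ 2 / 7))) ^ 3 ≤ A ^ 3 := pow_le_pow_left₀ hlo0 ylo 3
  have hp := S_poly hu0 hu2
  have htu : 0 ≤ t * u := by positivity
  have hsq : 0 ≤ (1 - u) ^ 2 := sq_nonneg _
  calc hh t ^ 2 * (A * (1 + u) - t) ≤ H ^ 2 * (A * (1 + u) - t) :=
        mul_le_mul_of_nonneg_right h1' hXnn
    _ ≤ H ^ 2 * (t * u * (1 + (1 + u) * (1 / 3 + u / 5 + u ^ 2 / 7 + u ^ 3 * (25 / 108)))) :=
        mul_le_mul_of_nonneg_left hX (sq_nonneg _)
    _ = t * u * (H ^ 2 * (1 + (1 + u) * (1 / 3 + u / 5 + u ^ 2 / 7 + u ^ 3 * (25 / 108)))) := by ring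
    _ ≤ t * u * (2 / 3 * (1 + u * (1 / 3 + u / 5 + u ^ 2 / 7)) ^ 3 * (1 - u) ^ 2) :=
        mul_le_mul_of_nonneg_left hp htu
    _ = 2 / 3 * (t * (1 + u * (1 / 3 + u / 5 + u ^ 2 / 7))) ^ 3 * (1 - u) ^ 2 := by
        rw [hu]; ring
    _ ≤ 2 / 3 * A ^ 3 * (1 - u) ^ 2 := by
        apply mul_le_mul_of_nonneg_right _ hsq
        linarith

/-- `log y ≤ (y - 1/y)/2` for `y ≥ 1`. -/
lemma log_le_half {y : ℝ} (hy : 1 ≤ y) : log y ≤ (y - 1 / y) / 2 := by
  have hm : MonotoneOn (fun x : ℝ => (x - 1 / x) / 2 - log x) (Ici 1) := by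
    apply mono_of_hasDeriv (convex_Ici 1) (f' := fun x => ((1 + 1 / x ^ 2) / 2 - 1 / x))
    · intro x hx
      have hx0 : x ≠ 0 := by
        have : (1:ℝ) ≤ x := hx
        linarith
      apply ContinuousAt.continuousWithinAt
      have h1 : ContinuousAt (fun x : ℝ => 1 / x) x := continuousAt_const.div continuousAt_id hx0
      have h2 : ContinuousAt log x := continuousAt_log hx0
      exact ((continuousAt_id.sub h1).div_const 2).sub h2
    · intro x hx
      rw [interior_Ici] at hx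
      have hx0 : x ≠ 0 := by
        have : (1:ℝ) < x := hx
        linarith
      have h1 : HasDerivAt (fun x : ℝ => 1 / x) (-(x ^ 2)⁻¹) x := by
        simpa [one_div] using hasDerivAt_inv hx0
      have h2 := hasDerivAt_log hx0
      have h3 := (((hasDerivAt_id x).sub h1).div_const 2).sub h2
      refine HasDerivAt.congr_deriv (f := fun x : ℝ => (x - 1 / x) / 2 - log x) h3 ?_
      field_simp
      ring
    · intro x hx
      rw [interior_Ici] at hx
      have hx0 : (0:ℝ) < x := by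
        have : (1:ℝ) < x := hx
        linarith
      have : (1 + 1 / x ^ 2) / 2 - 1 / x = (x - 1) ^ 2 / (2 * x ^ 2) := by
        field_simp
        ring
      rw [this]
      positivity
  have := hm (self_mem_Ici (a := (1:ℝ))) (mem_Ici.mpr hy) hy
  simp only [log_one] at this
  norm_num at this
  rw [one_div]
  linarith

lemma hh_eq (t : ℝ) : hh t = (log 2 - log (1 + t)) + (1 - t) * At t := by
  unfold hh Ph At
  ring

lemma Q_nonneg {t : ℝ} (h1 : t < 1) (h2 : -1 < t) : 0 ≤ log 2 - log (1 + t) := by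
  have : log (1 + t) ≤ log 2 := log_le_log (by linarith) (by linarith)
  linarith


/-- Polynomial inequality used for large `t`. -/
lemma S_big_poly {a t : ℝ} (ha : 9 / 10 ≤ a) (ht : 18 / 25 ≤ t) (ht1 : t ≤ 1) :
    (3 + t + 4 * (1 + t) * a) ^ 2 * (a * (1 + t ^ 2) - t) ≤ 32 / 3 * a ^ 3 * (1 + t) ^ 4 := by
  obtain ⟨α, rfl⟩ : ∃ α, a = 9 / 10 + α := ⟨a - 9 / 10, by ring⟩
  obtain ⟨s, rfl⟩ : ∃ s, t = 18 / 25 + s := ⟨t - 18 / 25, by ring⟩
  have hα : 0 ≤ α := by linarith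
  have hs : 0 ≤ s := by linarith
  have hs1 : s ≤ 7 / 25 := by linarith
  have hs2 : s ^ 2 ≤ 49 / 625 := by nlinarith
  have hs3 : s ^ 3 ≤ 49 / 625 * s := by nlinarith
  have hs4 : s ^ 4 ≤ 49 / 625 * s ^ 2 := by nlinarith [sq_nonneg s]
  have hss : s ^ 2 ≤ 7 / 25 * s := by nlinarith
  have h2nn : 0 ≤ s ^ 2 := sq_nonneg s
  obtain ⟨c₀, hc0⟩ : ∃ c : ℝ, c = (442725183/97656250) + (137167362/1953125) * s + (697701/78125) * s ^ 2 +
    (-108862/3125) * s ^ 3 + (-2817/250) * s ^ 4 := ⟨_, rfl⟩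
  obtain ⟨c₁, hc1⟩ : ∃ c : ℝ, c = (-102616209/9765625) + (44947098/390625) * s + (150754/15625) * s ^ 2 +
    (-51598/625) * s ^ 3 + (-709/25) * s ^ 4 := ⟨_, rfl⟩
  obtain ⟨c₂, hc2⟩ : ∃ c : ℝ, c = (28053888/1953125) + (9662464/78125) * s + (138672/3125) * s ^ 2 +
    (-6464/125) * s ^ 3 + (-112/5) * s ^ 4 := ⟨_, rfl⟩
  obtain ⟨c₃, hc3⟩ : ∃ c : ℝ, c = (25175984/1171875) + (3064352/46875) * s + (24032/625) * s ^ 2 +
    (-352/75) * s ^ 3 + (-16/3) * s ^ 4 := ⟨_, rfl⟩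
  have key : 32 / 3 * (9 / 10 + α) ^ 3 * (1 + (18 / 25 + s)) ^ 4 -
      (3 + (18 / 25 + s) + 4 * (1 + (18 / 25 + s)) * (9 / 10 + α)) ^ 2 *
        ((9 / 10 + α) * (1 + (18 / 25 + s) ^ 2) - (18 / 25 + s)) =
      c₀ + c₁ * α + c₂ * α ^ 2 + c₃ * α ^ 3 := by
    rw [hc0, hc1, hc2, hc3]
    ring
  have b0 : 453 / 100 ≤ c₀ := by rw [hc0]; linarith
  have b1 : -(1051 / 100) ≤ c₁ := by rw [hc1]; linarith
  have b2 : 1436 / 100 ≤ c₂ := by rw [hc2]; linarith
  have b3 : 0 ≤ c₃ := by rw [hc3]; linarith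
  have t1 : -(1051 / 100) * α ≤ c₁ * α := mul_le_mul_of_nonneg_right b1 hα
  have t2 : 1436 / 100 * α ^ 2 ≤ c₂ * α ^ 2 := mul_le_mul_of_nonneg_right b2 (sq_nonneg α)
  have t3 : 0 ≤ c₃ * α ^ 3 := mul_nonneg b3 (pow_nonneg hα 3)
  have t4 : 0 ≤ 453 / 100 + -(1051 / 100) * α + 1436 / 100 * α ^ 2 := by
    nlinarith [sq_nonneg (α - 37 / 100)]
  have : 0 ≤ c₀ + c₁ * α + c₂ * α ^ 2 + c₃ * α ^ 3 := by linarith
  rw [← key] at this
  linarith

/-- Cross-multiplied form of `S_le` for `t ≥ 18/25`. -/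
lemma S_big {t : ℝ} (h0 : 18 / 25 ≤ t) (h1 : t < 1) :
    hh t ^ 2 * (At t * (1 + t ^ 2) - t) ≤ 2 / 3 * At t ^ 3 * (1 - t ^ 2) ^ 2 := by
  have ht0 : 0 < t := by linarith
  have hAbs := abs_lt_of_Ioo ht0 h1
  have hh0 := hh_pos hAbs
  set a := At t with ha
  have hlow : 9 / 10 ≤ a := by
    have := At_lower ht0.le h1
    have h3 : (18 / 25 : ℝ) ^ 3 ≤ t ^ 3 := pow_le_pow_left₀ (by norm_num) h0 3
    have h5 : (18 / 25 : ℝ) ^ 5 ≤ t ^ 5 := pow_le_pow_left₀ (by norm_num) h0 5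
    have h7 : (18 / 25 : ℝ) ^ 7 ≤ t ^ 7 := pow_le_pow_left₀ (by norm_num) h0 7
    have h9 : (18 / 25 : ℝ) ^ 9 ≤ t ^ 9 := pow_le_pow_left₀ (by norm_num) h0 9
    norm_num at h3 h5 h7 h9
    linarith
  have hT : 0 < 1 + t := by linarith
  have hQ : log 2 - log (1 + t) ≤ (1 - t) * (3 + t) / (4 * (1 + t)) := by
    have hy : 1 ≤ 2 / (1 + t) := by
      rw [le_div_iff₀ hT]; linarith
    have h2 := log_le_half hy
    rw [log_div (by norm_num) hT.ne'] at h2
    have e : (2 / (1 + t) - 1 / (2 / (1 + t))) / 2 = (1 - t) * (3 + t) / (4 * (1 + t)) := by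
      field_simp
      ring
    rw [e] at h2
    exact h2
  have hle : hh t ≤ (1 - t) * ((3 + t + 4 * (1 + t) * a) / (4 * (1 + t))) := by
    rw [hh_eq]
    have e : (1 - t) * ((3 + t + 4 * (1 + t) * a) / (4 * (1 + t))) =
        (1 - t) * (3 + t) / (4 * (1 + t)) + (1 - t) * a := by
      field_simp
    rw [e]
    linarith
  have hX : 0 ≤ a * (1 + t ^ 2) - t := by
    have : t ≤ a := self_le_At ht0.le h1
    nlinarith [sq_nonneg t]
  have h2 : hh t ^ 2 ≤ ((1 - t) * ((3 + t + 4 * (1 + t) * a) / (4 * (1 + t)))) ^ 2 :=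
    pow_le_pow_left₀ hh0.le hle 2
  have hp := S_big_poly hlow h0 h1.le
  have h1t : 0 < 1 - t := by linarith
  have e : (1 - t ^ 2) ^ 2 = (1 - t) ^ 2 * (1 + t) ^ 2 := by ring
  rw [e]
  calc hh t ^ 2 * (a * (1 + t ^ 2) - t)
      ≤ ((1 - t) * ((3 + t + 4 * (1 + t) * a) / (4 * (1 + t)))) ^ 2 * (a * (1 + t ^ 2) - t) :=
        mul_le_mul_of_nonneg_right h2 hX
    _ = (1 - t) ^ 2 * ((3 + t + 4 * (1 + t) * a) ^ 2 * (a * (1 + t ^ 2) - t)) / (16 * (1 + t) ^ 2) := by
        field_simp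
        ring
    _ ≤ (1 - t) ^ 2 * (32 / 3 * a ^ 3 * (1 + t) ^ 4) / (16 * (1 + t) ^ 2) := by
        apply div_le_div_of_nonneg_right _ (by positivity)
        exact mul_le_mul_of_nonneg_left hp (by positivity)
    _ = 2 / 3 * a ^ 3 * ((1 - t) ^ 2 * (1 + t) ^ 2) := by
        field_simp
        ring

/-- One-dimensional numeric fact (F1): `S = h² k' / A ≤ 2/3`. -/
theorem S_le {t : ℝ} (h0 : 0 < t) (h1 : t < 1) : hh t ^ 2 * kkD t ≤ 2 / 3 * At t := by
  have hcross : hh t ^ 2 * (At t * (1 + t ^ 2) - t) ≤ 2 / 3 * At t ^ 3 * (1 - t ^ 2) ^ 2 := by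
    rcases le_total t (18 / 25) with h | h
    · exact S_small h0 h
    · exact S_big h h1
  have hAbs := abs_lt_of_Ioo h0 h1
  have hp := one_sub_sq_pos hAbs
  have hA := At_pos h0 h1
  unfold kkD
  rw [← mul_div_assoc, div_le_iff₀ (by positivity)]
  calc hh t ^ 2 * (At t * (1 + t ^ 2) - t) ≤ 2 / 3 * At t ^ 3 * (1 - t ^ 2) ^ 2 := hcross
    _ = 2 / 3 * At t * ((1 - t ^ 2) ^ 2 * At t ^ 2) := by ring


/-- Polynomial upper bound for `Ph`. -/
lemma Ph_upper {t : ℝ} (h0 : 0 ≤ t) (h1 : t ^ 2 ≤ 13 / 25) :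
    Ph t ≤ t ^ 2 / 2 + t ^ 4 / 12 + t ^ 6 / 30 + t ^ 8 / 56 + t ^ 10 * (25 / 1080) := by
  set T : ℝ := √(13 / 25) with hT
  have hT1 : T < 1 := by
    rw [hT, Real.sqrt_lt' (by norm_num)]; norm_num
  have hT0 : 0 ≤ T := Real.sqrt_nonneg _
  have htT : t ≤ T := by
    rw [hT]; exact Real.le_sqrt_of_sq_le h1
  have hT2 : T ^ 2 = 13 / 25 := by
    rw [hT]; exact Real.sq_sqrt (by norm_num)
  have hm : MonotoneOn (fun x => (x ^ 2 / 2 + x ^ 4 / 12 + x ^ 6 / 30 + x ^ 8 / 56 + x ^ 10 * (25 / 1080)) - Ph x)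
      (Icc 0 T) := by
    apply mono_of_hasDeriv (convex_Icc 0 T)
      (f' := fun x => (x + x ^ 3 / 3 + x ^ 5 / 5 + x ^ 7 / 7 + x ^ 9 * (25 / 108)) - At x)
    · apply ContinuousOn.sub
      · fun_prop
      · exact continuous_Ph.continuousOn
    · intro x hx
      rw [interior_Icc] at hx
      have hA := hasDerivAt_Ph (abs_lt_of_Ioo hx.1 (lt_trans hx.2 hT1))
      have hP : HasDerivAt (fun x : ℝ => x ^ 2 / 2 + x ^ 4 / 12 + x ^ 6 / 30 + x ^ 8 / 56 + x ^ 10 * (25 / 1080))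
          (x + x ^ 3 / 3 + x ^ 5 / 5 + x ^ 7 / 7 + x ^ 9 * (25 / 108)) x := by
        have h2 := ((hasDerivAt_id x).pow 2).div_const 2
        have h4 := ((hasDerivAt_id x).pow 4).div_const 12
        have h6 := ((hasDerivAt_id x).pow 6).div_const 30
        have h8 := ((hasDerivAt_id x).pow 8).div_const 56
        have h10 := ((hasDerivAt_id x).pow 10).mul_const (25 / 1080 : ℝ)
        have := ((h2.add h4).add h6).add h8 |>.add h10
        refine HasDerivAt.congr_deriv (f := fun x : ℝ => x ^ 2 / 2 + x ^ 4 / 12 + x ^ 6 / 30 + x ^ 8 / 56 + x ^ 10 * (25 / 1080)) this ?_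
        simp only [id]
        norm_num
        ring
      exact hP.sub hA
    · intro x hx
      rw [interior_Icc] at hx
      have hx2 : x ^ 2 ≤ 13 / 25 := by nlinarith [hx.1, hx.2]
      have := At_upper hx.1.le hx2
      linarith
  have := hm (left_mem_Icc.mpr hT0) (mem_Icc.mpr ⟨h0, htT⟩) h0
  simp only [Ph_zero] at this
  norm_num at this
  linarith

/-- Partial sums of `-log(1-u)`. -/
lemma neg_log_lower {u : ℝ} (h0 : 0 ≤ u) (h1 : u < 1) :
    u + u ^ 2 / 2 + u ^ 3 / 3 + u ^ 4 / 4 + u ^ 5 / 5 + u ^ 6 / 6 + u ^ 7 / 7 + u ^ 8 / 8 ≤ -log (1 - u) := by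
  have hs := Real.hasSum_pow_div_log_of_abs_lt_one (x := u) (by rw [abs_of_nonneg h0]; exact h1)
  have := sum_le_hasSum (Finset.range 8) (fun i _ => by positivity) hs
  simp only [Finset.sum_range_succ, Finset.sum_range_zero] at this
  norm_num at this
  linarith

/-- Polynomial lower bound for `Xi`. -/
lemma Xi_lower {t : ℝ} (h0 : 0 ≤ t) (h1 : t ^ 2 ≤ 13 / 25) :
    t ^ 4 * (1 / 6 + 2 * t ^ 2 / 15 + 3 * t ^ 4 / 28 + (-17 / 540) * t ^ 6 + t ^ 8 / 6 + t ^ 10 / 7 + t ^ 12 / 8) ≤ Xi t := by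
  have ht1 : t < 1 := by nlinarith
  have hAbs := abs_lt_of_Ico h0 ht1
  rw [Xi_eq hAbs]
  have h2 := neg_log_lower (u := t ^ 2) (by positivity) (by nlinarith)
  have h3 := At_upper h0 h1
  have h4 := mul_le_mul_of_nonneg_left h3 h0
  nlinarith

/-- Polynomial inequality behind `L_key` for small `t`, with a Bernstein certificate. -/
lemma L_poly {u : ℝ} (h0 : 0 ≤ u) (h1 : u ≤ 13 / 25) :
    (1 / 2 + u / 12 + u ^ 2 / 30 + u ^ 3 / 56 + u ^ 4 * (25 / 1080)) ^ 2 ≤
      4 * (34657 / 50000) * ((34657 / 50000) - u * (1 / 2 + u / 12 + u ^ 2 / 30 + u ^ 3 / 56 + u ^ 4 * (25 / 1080))) *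
        (1 / 6 + 2 * u / 15 + 3 * u ^ 2 / 28 + (-17 / 540) * u ^ 3 + u ^ 4 / 6 + u ^ 5 / 7 + u ^ 6 / 8) := by
  have hc : 0 ≤ 13 / 25 - u := by linarith
  have key : 4 * (34657 / 50000) * ((34657 / 50000) - u * (1 / 2 + u / 12 + u ^ 2 / 30 + u ^ 3 / 56 + u ^ 4 * (25 / 1080))) *
        (1 / 6 + 2 * u / 15 + 3 * u ^ 2 / 28 + (-17 / 540) * u ^ 3 + u ^ 4 / 6 + u ^ 5 / 7 + u ^ 6 / 8) -
      (1 / 2 + u / 12 + u ^ 2 / 30 + u ^ 3 / 56 + u ^ 4 * (25 / 1080)) ^ 2 =
      (64357336181640625/688189591310208) * u ^ 0 * (13 / 25 - u) ^ 11 +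
      (680249980708984375/688189591310208) * u ^ 1 * (13 / 25 - u) ^ 10 +
      (19491345310933984375/4129137547861248) * u ^ 2 * (13 / 25 - u) ^ 9 +
      (72519758854799290625/5419493031567888) * u ^ 3 * (13 / 25 - u) ^ 8 +
      (1079465654938011854375/43355944252543104) * u ^ 4 * (13 / 25 - u) ^ 7 +
      (4130154466035263496475/130067832757629312) * u ^ 5 * (13 / 25 - u) ^ 6 +
      (102462019148532381039029/3641899317213620736) * u ^ 6 * (13 / 25 - u) ^ 5 +
      (62461296522541196768245/3641899317213620736) * u ^ 7 * (13 / 25 - u) ^ 4 +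
      (113671743996791183228281/16388546927461293312) * u ^ 8 * (13 / 25 - u) ^ 3 +
      (234009346195256627722219/136571224395510777600) * u ^ 9 * (13 / 25 - u) ^ 2 +
      (289068011491496174841499/1365712243955107776000) * u ^ 10 * (13 / 25 - u) ^ 1 +
      (119556379243400192762021/20485683659326616640000) * u ^ 11 * (13 / 25 - u) ^ 0 := by
    ring
  have : 0 ≤ 4 * (34657 / 50000) * ((34657 / 50000) - u * (1 / 2 + u / 12 + u ^ 2 / 30 + u ^ 3 / 56 + u ^ 4 * (25 / 1080))) *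
        (1 / 6 + 2 * u / 15 + 3 * u ^ 2 / 28 + (-17 / 540) * u ^ 3 + u ^ 4 / 6 + u ^ 5 / 7 + u ^ 6 / 8) -
      (1 / 2 + u / 12 + u ^ 2 / 30 + u ^ 3 / 56 + u ^ 4 * (25 / 1080)) ^ 2 := by
    rw [key]
    positivity
  linarith

/-- Crude form of `L_key`. -/
lemma L_crude {t : ℝ} (h0 : 0 < t) (h1 : t ≤ 18 / 25) :
    (log 2 - hh t) ^ 2 ≤ 4 * log 2 * hh t * Xi t := by
  have ht1 : t < 1 := by linarith
  have hAbs := abs_lt_of_Ioo h0 ht1
  have hu2 : t ^ 2 ≤ 13 / 25 := by nlinarith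
  have hPu := Ph_upper h0.le hu2
  have hXl := Xi_lower h0.le hu2
  have hu0 : 0 ≤ t ^ 2 := by positivity
  have hp := L_poly hu0 hu2
  set u := t ^ 2 with hu
  have e4 : t ^ 4 = u ^ 2 := by rw [hu]; ring
  have e6 : t ^ 6 = u ^ 3 := by rw [hu]; ring
  have e8 : t ^ 8 = u ^ 4 := by rw [hu]; ring
  have e10 : t ^ 10 = u ^ 5 := by rw [hu]; ring
  have e12 : t ^ 12 = u ^ 6 := by rw [hu]; ring
  rw [e4, e6, e8, e10] at hPu
  rw [e4, e6, e8, e10, e12] at hXl
  obtain ⟨P, hPdef⟩ : ∃ P : ℝ, P = 1 / 2 + u / 12 + u ^ 2 / 30 + u ^ 3 / 56 + u ^ 4 * (25 / 1080) := ⟨_, rfl⟩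
  obtain ⟨X, hXdef⟩ : ∃ X : ℝ, X = 1 / 6 + 2 * u / 15 + 3 * u ^ 2 / 28 + (-17 / 540) * u ^ 3 + u ^ 4 / 6 + u ^ 5 / 7 + u ^ 6 / 8 := ⟨_, rfl⟩
  rw [← hPdef, ← hXdef] at hp
  rw [← hXdef] at hXl
  have hl := Real.log_two_gt_d9
  norm_num at hl
  have hPh : Ph t ≤ u * P := by
    rw [hPdef]
    nlinarith
  have hPh0 : 0 ≤ Ph t := by
    have := hh_le hAbs
    unfold hh at this
    linarith
  have hPnn : 0 ≤ P := by
    rw [hPdef]; positivity
  have hu1 : u ≤ 1 := by linarith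
  have u2 : u ^ 2 ≤ 1 := by nlinarith
  have u3 : u ^ 3 ≤ 1 := by nlinarith
  have u4 : u ^ 4 ≤ 1 := by nlinarith
  have hP35 : P ≤ 3 / 5 := by
    rw [hPdef]
    nlinarith
  have hXnn : 0 ≤ X := by
    rw [hXdef]
    have : 0 ≤ u ^ 4 / 6 + u ^ 5 / 7 + u ^ 6 / 8 + 2 * u / 15 + 3 * u ^ 2 / 28 := by positivity
    nlinarith
  have e0 : log 2 - hh t = Ph t := by unfold hh; ring
  have hd : (34657 / 50000 : ℝ) - u * P ≤ hh t := by
    have : hh t = log 2 - Ph t := by unfold hh; ring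
    rw [this]
    linarith
  have hd0 : 0 ≤ (34657 / 50000 : ℝ) - u * P := by nlinarith
  have hh1 := hh_pos hAbs
  have hL0 : (0:ℝ) ≤ 34657 / 50000 := by norm_num
  have hlog : (34657 / 50000 : ℝ) ≤ log 2 := by linarith
  rw [e0]
  calc Ph t ^ 2 ≤ (u * P) ^ 2 := pow_le_pow_left₀ hPh0 hPh 2
    _ = u ^ 2 * P ^ 2 := by ring
    _ ≤ u ^ 2 * (4 * (34657 / 50000) * ((34657 / 50000) - u * P) * X) :=
        mul_le_mul_of_nonneg_left hp (by positivity)
    _ = 4 * (34657 / 50000) * ((34657 / 50000) - u * P) * (u ^ 2 * X) := by ring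
    _ ≤ 4 * log 2 * hh t * (u ^ 2 * X) := by
        apply mul_le_mul_of_nonneg_right _ (by positivity)
        have : (34657 / 50000 : ℝ) * ((34657 / 50000) - u * P) ≤ log 2 * hh t :=
          mul_le_mul hlog hd hd0 (by linarith)
        linarith
    _ ≤ 4 * log 2 * hh t * Xi t := by
        apply mul_le_mul_of_nonneg_left hXl
        have := hh1
        have : 0 < log 2 := by linarith
        positivity

/-- `L_key` for `t ≤ 18/25`. -/
lemma L_key_small {t : ℝ} (h0 : 0 < t) (h1 : t ≤ 18 / 25) :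
    (log (log 2 / hh t) - 1 + hh t / log 2) / 2 ≤ Xi t := by
  have ht1 : t < 1 := by linarith
  have hAbs := abs_lt_of_Ioo h0 ht1
  have hh1 := hh_pos hAbs
  have hle := hh_le hAbs
  have hL : 0 < log 2 := log_two_pos'
  have hy : 1 ≤ log 2 / hh t := by
    rw [le_div_iff₀ hh1]; linarith
  have h2 := log_le_half hy
  have hc := L_crude h0 h1
  have e : (log 2 - hh t) ^ 2 / (4 * log 2 * hh t) ≤ Xi t := by
    rw [div_le_iff₀ (by positivity)]
    linarith
  have e2 : ((log 2 / hh t - 1 / (log 2 / hh t)) / 2 - 1 + hh t / log 2) / 2 =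
      (log 2 - hh t) ^ 2 / (4 * log 2 * hh t) := by
    field_simp
    ring
  linarith

lemma At_ratio {y : ℝ} (hy : 0 < y) : At ((y - 1) / (y + 1)) = log y / 2 := by
  have hy1 : y + 1 ≠ 0 := by linarith
  have h1 : 1 + (y - 1) / (y + 1) = 2 * y / (y + 1) := by field_simp; ring
  have h2 : 1 - (y - 1) / (y + 1) = 2 / (y + 1) := by field_simp; ring
  unfold At
  rw [h1, h2, log_div (by positivity) hy1, log_div (by norm_num) hy1, log_mul (by norm_num) hy.ne']
  ring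

/-- Series lower bound for the logarithm. -/
lemma log_lower {y : ℝ} (hy : 1 ≤ y) :
    2 * ((y - 1) / (y + 1) + ((y - 1) / (y + 1)) ^ 3 / 3 + ((y - 1) / (y + 1)) ^ 5 / 5 +
      ((y - 1) / (y + 1)) ^ 7 / 7 + ((y - 1) / (y + 1)) ^ 9 / 9) ≤ log y := by
  have hy0 : 0 < y := by linarith
  have hz0 : 0 ≤ (y - 1) / (y + 1) := div_nonneg (by linarith) (by linarith)
  have hz1 : (y - 1) / (y + 1) < 1 := by
    rw [div_lt_one (by linarith)]; linarith
  have := At_lower hz0 hz1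
  rw [At_ratio hy0] at this
  linarith

lemma Q_param {x : ℝ} (hx : 0 < x) :
    log 2 - log (1 + (x - 1) / (x + 1)) = log ((x + 1) / x) := by
  have hx1 : x + 1 ≠ 0 := by linarith
  have h1 : 1 + (x - 1) / (x + 1) = 2 * x / (x + 1) := by field_simp; ring
  rw [h1, log_div (by positivity) hx1, log_mul (by norm_num) hx.ne', log_div hx1 hx.ne']
  ring

/-- `V = hh/(1-t)` is monotone. -/
lemma V_mono {s t : ℝ} (hs : 0 ≤ s) (hst : s ≤ t) (ht : t < 1) : hh s / (1 - s) ≤ hh t / (1 - t) := by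
  have hm : MonotoneOn (fun x => hh x / (1 - x)) (Ico 0 1) := by
    apply mono_of_hasDeriv (convex_Ico 0 1)
      (f' := fun x => (log 2 - log (1 + x)) / (1 - x) ^ 2)
    · apply ContinuousOn.div continuous_hh.continuousOn (by fun_prop)
      intro x hx
      have := hx.2
      linarith
    · intro x hx
      rw [interior_Ico] at hx
      have h1 := hasDerivAt_hh (abs_lt_of_Ioo hx.1 hx.2)
      have h2 : HasDerivAt (fun x : ℝ => 1 - x) (-1) x := by
        simpa using (hasDerivAt_id x).const_sub 1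
      have hne : 1 - x ≠ 0 := by linarith [hx.2]
      have h3 := h1.div h2 hne
      refine HasDerivAt.congr_deriv (f := fun x : ℝ => hh x / (1 - x)) h3 ?_
      rw [hh_eq]
      ring
    · intro x hx
      rw [interior_Ico] at hx
      apply div_nonneg (Q_nonneg hx.2 (by linarith [hx.1])) (by positivity)
  exact hm (mem_Ico.mpr ⟨hs, lt_of_le_of_lt hst ht⟩) (mem_Ico.mpr ⟨le_trans hs hst, ht⟩) hst

/-- Reduction of `L_key` for the large range. -/
lemma L_key_reduce {t : ℝ} (h0 : 0 < t) (h1 : t < 1)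
    (h : log (log 2) + 3 * log 2 - 1 ≤
      hh t * (2 - 1 / log 2) + (log 2 - log (1 + t)) + log (hh t / (1 - t))) :
    (log (log 2 / hh t) - 1 + hh t / log 2) / 2 ≤ Xi t := by
  have hAbs := abs_lt_of_Ioo h0 h1
  have hh1 := hh_pos hAbs
  have hL : 0 < log 2 := log_two_pos'
  have h1t : 0 < 1 - t := by linarith
  rw [log_div hL.ne' hh1.ne']
  rw [log_div hh1.ne' h1t.ne'] at h
  have e : hh t * (2 - 1 / log 2) = 2 * hh t - hh t / log 2 := by
    field_simp
  rw [e] at h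
  have eh : hh t = log 2 - Ph t := rfl
  have hX : Xi t = - Ph t - (log (1 + t) + log (1 - t)) / 2 := by
    unfold Xi Ph At
    ring
  rw [hX]
  linarith

lemma K_le : log (log 2) + 3 * log 2 - 1 ≤ 71295 / 100000 := by
  have hl := Real.log_two_lt_d9
  have hl0 := log_two_pos'
  have h1 : log (log 2) ≤ log (13863 / 20000) := log_le_log hl0 (by norm_num at hl ⊢; linarith)
  have h2 := log_lower (y := 20000 / 13863) (by norm_num)
  have h3 : log (13863 / 20000) = - log (20000 / 13863) := by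
    rw [← log_inv]; norm_num
  norm_num at h2 hl
  linarith

lemma kappa_ge : (5573 / 10000 : ℝ) ≤ 2 - 1 / log 2 := by
  have hl := Real.log_two_gt_d9
  norm_num at hl
  have hl0 := log_two_pos'
  have : 1 / log 2 ≤ 14427 / 10000 := by
    rw [div_le_iff₀ hl0]
    linarith
  linarith

/-- One cell for the large range. -/
lemma L_key_cell {t t₁ t₂ h₂ q₂ v₁ ℓ₁ : ℝ} (h01 : 0 < t₁) (h1 : t₁ ≤ t) (h2 : t ≤ t₂) (h3 : t₂ < 1)
    (hh₂ : h₂ ≤ hh t₂) (hq : q₂ ≤ log 2 - log (1 + t₂)) (hv : v₁ ≤ hh t₁ / (1 - t₁)) (hv0 : 0 < v₁)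
    (hl : ℓ₁ ≤ log v₁) (_hh0 : 0 ≤ h₂) (num : 71295 / 100000 ≤ 5573 / 10000 * h₂ + q₂ + ℓ₁) :
    (log (log 2 / hh t) - 1 + hh t / log 2) / 2 ≤ Xi t := by
  have ht0 : 0 < t := by linarith
  have ht1 : t < 1 := by linarith
  apply L_key_reduce ht0 ht1
  have hK := K_le
  have hk := kappa_ge
  have hh_mono : hh t₂ ≤ hh t :=
    hh_strictAnti.antitoneOn (mem_Icc.mpr ⟨ht0.le, ht1.le⟩) (mem_Icc.mpr ⟨by linarith, h3.le⟩) h2
  have hQ : log 2 - log (1 + t₂) ≤ log 2 - log (1 + t) := by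
    have : log (1 + t) ≤ log (1 + t₂) := log_le_log (by linarith) (by linarith)
    linarith
  have hV : v₁ ≤ hh t / (1 - t) := le_trans hv (V_mono h01.le h1 ht1)
  have hlogV : log v₁ ≤ log (hh t / (1 - t)) := log_le_log hv0 hV
  have hhtpos : 0 ≤ hh t := (hh_pos (abs_lt_of_Ioo ht0 ht1)).le
  have h5 : 5573 / 10000 * h₂ ≤ hh t * (2 - 1 / log 2) := by
    have h6 : h₂ ≤ hh t := le_trans hh₂ hh_mono
    have h7 : 5573 / 10000 * h₂ ≤ 5573 / 10000 * hh t :=
      mul_le_mul_of_nonneg_left h6 (by norm_num)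
    have h8 : 5573 / 10000 * hh t ≤ (2 - 1 / log 2) * hh t :=
      mul_le_mul_of_nonneg_right hk hhtpos
    linarith
  linarith

private lemma logx_a : (4479 / 2500 : ℝ) ≤ log (6) := by
  have e : log (6) = 2 * log 2 + log (3 / 2) := by
    rw [show (6 : ℝ) = 2 ^ 2 * (3 / 2) by norm_num, log_mul (by norm_num) (by norm_num), log_pow]
    norm_num
  have h1 := log_lower (y := 3 / 2) (by norm_num)
  norm_num at h1
  have h2 := Real.log_two_gt_d9
  rw [e]
  norm_num at h2 ⊢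
  linarith

private lemma Q_a : (77 / 500 : ℝ) ≤ log 2 - log (1 + 5 / 7) := by
  have e := Q_param (x := 6) (by norm_num)
  norm_num at e
  norm_num
  rw [e]
  have h1 := log_lower (y := 7 / 6) (by norm_num)
  norm_num at h1
  linarith

private lemma A_a : (4479 / 5000 : ℝ) ≤ At (5 / 7) := by
  have e := At_ratio (y := 6) (by norm_num)
  norm_num at e
  rw [e]
  have := logx_a
  norm_num at this ⊢
  linarith

private lemma hh_a : (3587 / 8750 : ℝ) ≤ hh (5 / 7) := by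
  rw [hh_eq]
  have h1 := Q_a
  have h2 := A_a
  norm_num at h1 h2 ⊢
  linarith

private lemma V_a : (1433 / 1000 : ℝ) ≤ hh (5 / 7) / (1 - 5 / 7) := by
  rw [hh_eq, add_div, mul_div_cancel_left₀ _ (by norm_num : (1 - 5 / 7 : ℝ) ≠ 0)]
  have h1 := Q_a
  have h2 := A_a
  have h3 : (77 / 500 : ℝ) / (1 - 5 / 7) ≤ (log 2 - log (1 + 5 / 7)) / (1 - 5 / 7) :=
    div_le_div_of_nonneg_right h1 (by norm_num)
  norm_num at h1 h2 h3 ⊢
  linarith

private lemma ell_a : (899 / 2500 : ℝ) ≤ log (1433 / 1000) := by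
  have h1 := log_lower (y := 1433 / 1000) (by norm_num)
  norm_num at h1 ⊢
  linarith

private lemma logx_b : (18717 / 10000 : ℝ) ≤ log (13 / 2) := by
  have e : log (13 / 2) = 2 * log 2 + log (13 / 8) := by
    rw [show (13 / 2 : ℝ) = 2 ^ 2 * (13 / 8) by norm_num, log_mul (by norm_num) (by norm_num), log_pow]
    norm_num
  have h1 := log_lower (y := 13 / 8) (by norm_num)
  norm_num at h1
  have h2 := Real.log_two_gt_d9
  rw [e]
  norm_num at h2 ⊢
  linarith

private lemma Q_b : (143 / 1000 : ℝ) ≤ log 2 - log (1 + 11 / 15) := by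
  have e := Q_param (x := 13 / 2) (by norm_num)
  norm_num at e
  norm_num
  rw [e]
  have h1 := log_lower (y := 15 / 13) (by norm_num)
  norm_num at h1
  linarith

private lemma A_b : (18717 / 20000 : ℝ) ≤ At (11 / 15) := by
  have e := At_ratio (y := 13 / 2) (by norm_num)
  norm_num at e
  rw [e]
  have := logx_b
  norm_num at this ⊢
  linarith

private lemma hh_b : (4907 / 12500 : ℝ) ≤ hh (11 / 15) := by
  rw [hh_eq]
  have h1 := Q_b
  have h2 := A_b
  norm_num at h1 h2 ⊢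
  linarith

private lemma V_b : (1471 / 1000 : ℝ) ≤ hh (11 / 15) / (1 - 11 / 15) := by
  rw [hh_eq, add_div, mul_div_cancel_left₀ _ (by norm_num : (1 - 11 / 15 : ℝ) ≠ 0)]
  have h1 := Q_b
  have h2 := A_b
  have h3 : (143 / 1000 : ℝ) / (1 - 11 / 15) ≤ (log 2 - log (1 + 11 / 15)) / (1 - 11 / 15) :=
    div_le_div_of_nonneg_right h1 (by norm_num)
  norm_num at h1 h2 h3 ⊢
  linarith

private lemma ell_b : (1929 / 5000 : ℝ) ≤ log (1471 / 1000) := by
  have h1 := log_lower (y := 1471 / 1000) (by norm_num)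
  norm_num at h1 ⊢
  linarith

private lemma logx_c : (9729 / 5000 : ℝ) ≤ log (7) := by
  have e : log (7) = 2 * log 2 + log (7 / 4) := by
    rw [show (7 : ℝ) = 2 ^ 2 * (7 / 4) by norm_num, log_mul (by norm_num) (by norm_num), log_pow]
    norm_num
  have h1 := log_lower (y := 7 / 4) (by norm_num)
  norm_num at h1
  have h2 := Real.log_two_gt_d9
  rw [e]
  norm_num at h2 ⊢
  linarith

private lemma Q_c : (667 / 5000 : ℝ) ≤ log 2 - log (1 + 3 / 4) := by
  have e := Q_param (x := 7) (by norm_num)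
  norm_num at e
  norm_num
  rw [e]
  have h1 := log_lower (y := 8 / 7) (by norm_num)
  norm_num at h1
  linarith

private lemma A_c : (9729 / 10000 : ℝ) ≤ At (3 / 4) := by
  have e := At_ratio (y := 7) (by norm_num)
  norm_num at e
  rw [e]
  have := logx_c
  norm_num at this ⊢
  linarith

private lemma hh_c : (3013 / 8000 : ℝ) ≤ hh (3 / 4) := by
  rw [hh_eq]
  have h1 := Q_c
  have h2 := A_c
  norm_num at h1 h2 ⊢
  linarith

private lemma V_c : (301 / 200 : ℝ) ≤ hh (3 / 4) / (1 - 3 / 4) := by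
  rw [hh_eq, add_div, mul_div_cancel_left₀ _ (by norm_num : (1 - 3 / 4 : ℝ) ≠ 0)]
  have h1 := Q_c
  have h2 := A_c
  have h3 : (667 / 5000 : ℝ) / (1 - 3 / 4) ≤ (log 2 - log (1 + 3 / 4)) / (1 - 3 / 4) :=
    div_le_div_of_nonneg_right h1 (by norm_num)
  norm_num at h1 h2 h3 ⊢
  linarith

private lemma ell_c : (2043 / 5000 : ℝ) ≤ log (301 / 200) := by
  have h1 := log_lower (y := 301 / 200) (by norm_num)
  norm_num at h1 ⊢
  linarith

private lemma logx_d : (20793 / 10000 : ℝ) ≤ log (8) := by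
  have e : log (8) = 3 * log 2 + log (1) := by
    rw [show (8 : ℝ) = 2 ^ 3 * (1) by norm_num, log_mul (by norm_num) (by norm_num), log_pow]
    norm_num
  have h1 := log_lower (y := 1) (by norm_num)
  norm_num at h1
  have h2 := Real.log_two_gt_d9
  rw [e]
  norm_num at h2 ⊢
  linarith

private lemma Q_d : (147 / 1250 : ℝ) ≤ log 2 - log (1 + 7 / 9) := by
  have e := Q_param (x := 8) (by norm_num)
  norm_num at e
  norm_num
  rw [e]
  have h1 := log_lower (y := 9 / 8) (by norm_num)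
  norm_num at h1
  linarith

private lemma A_d : (20793 / 20000 : ℝ) ≤ At (7 / 9) := by
  have e := At_ratio (y := 8) (by norm_num)
  norm_num at e
  rw [e]
  have := logx_d
  norm_num at this ⊢
  linarith

private lemma hh_d : (10459 / 30000 : ℝ) ≤ hh (7 / 9) := by
  rw [hh_eq]
  have h1 := Q_d
  have h2 := A_d
  norm_num at h1 h2 ⊢
  linarith

private lemma V_d : (1567 / 1000 : ℝ) ≤ hh (7 / 9) / (1 - 7 / 9) := by
  rw [hh_eq, add_div, mul_div_cancel_left₀ _ (by norm_num : (1 - 7 / 9 : ℝ) ≠ 0)]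
  have h1 := Q_d
  have h2 := A_d
  have h3 : (147 / 1250 : ℝ) / (1 - 7 / 9) ≤ (log 2 - log (1 + 7 / 9)) / (1 - 7 / 9) :=
    div_le_div_of_nonneg_right h1 (by norm_num)
  norm_num at h1 h2 h3 ⊢
  linarith

private lemma ell_d : (449 / 1000 : ℝ) ≤ log (1567 / 1000) := by
  have h1 := log_lower (y := 1567 / 1000) (by norm_num)
  norm_num at h1 ⊢
  linarith

private lemma logx_e : (1439 / 625 : ℝ) ≤ log (10) := by
  have e : log (10) = 3 * log 2 + log (5 / 4) := by
    rw [show (10 : ℝ) = 2 ^ 3 * (5 / 4) by norm_num, log_mul (by norm_num) (by norm_num), log_pow]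
    norm_num
  have h1 := log_lower (y := 5 / 4) (by norm_num)
  norm_num at h1
  have h2 := Real.log_two_gt_d9
  rw [e]
  norm_num at h2 ⊢
  linarith

private lemma Q_e : (119 / 1250 : ℝ) ≤ log 2 - log (1 + 9 / 11) := by
  have e := Q_param (x := 10) (by norm_num)
  norm_num at e
  norm_num
  rw [e]
  have h1 := log_lower (y := 11 / 10) (by norm_num)
  norm_num at h1
  linarith

private lemma A_e : (1439 / 1250 : ℝ) ≤ At (9 / 11) := by
  have e := At_ratio (y := 10) (by norm_num)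
  norm_num at e
  rw [e]
  have := logx_e
  norm_num at this ⊢
  linarith

private lemma hh_e : (4187 / 13750 : ℝ) ≤ hh (9 / 11) := by
  rw [hh_eq]
  have h1 := Q_e
  have h2 := A_e
  norm_num at h1 h2 ⊢
  linarith

private lemma V_e : (1673 / 1000 : ℝ) ≤ hh (9 / 11) / (1 - 9 / 11) := by
  rw [hh_eq, add_div, mul_div_cancel_left₀ _ (by norm_num : (1 - 9 / 11 : ℝ) ≠ 0)]
  have h1 := Q_e
  have h2 := A_e
  have h3 : (119 / 1250 : ℝ) / (1 - 9 / 11) ≤ (log 2 - log (1 + 9 / 11)) / (1 - 9 / 11) :=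
    div_le_div_of_nonneg_right h1 (by norm_num)
  norm_num at h1 h2 h3 ⊢
  linarith

private lemma ell_e : (1029 / 2000 : ℝ) ≤ log (1673 / 1000) := by
  have h1 := log_lower (y := 1673 / 1000) (by norm_num)
  norm_num at h1 ⊢
  linarith

private lemma logx_f : (26389 / 10000 : ℝ) ≤ log (14) := by
  have e : log (14) = 3 * log 2 + log (7 / 4) := by
    rw [show (14 : ℝ) = 2 ^ 3 * (7 / 4) by norm_num, log_mul (by norm_num) (by norm_num), log_pow]
    norm_num
  have h1 := log_lower (y := 7 / 4) (by norm_num)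
  norm_num at h1
  have h2 := Real.log_two_gt_d9
  rw [e]
  norm_num at h2 ⊢
  linarith

private lemma Q_f : (43 / 625 : ℝ) ≤ log 2 - log (1 + 13 / 15) := by
  have e := Q_param (x := 14) (by norm_num)
  norm_num at e
  norm_num
  rw [e]
  have h1 := log_lower (y := 15 / 14) (by norm_num)
  norm_num at h1
  linarith

private lemma A_f : (26389 / 20000 : ℝ) ≤ At (13 / 15) := by
  have e := At_ratio (y := 14) (by norm_num)
  norm_num at e
  rw [e]
  have := logx_f
  norm_num at this ⊢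
  linarith

private lemma hh_f : (36709 / 150000 : ℝ) ≤ hh (13 / 15) := by
  rw [hh_eq]
  have h1 := Q_f
  have h2 := A_f
  norm_num at h1 h2 ⊢
  linarith

private lemma V_f : (917 / 500 : ℝ) ≤ hh (13 / 15) / (1 - 13 / 15) := by
  rw [hh_eq, add_div, mul_div_cancel_left₀ _ (by norm_num : (1 - 13 / 15 : ℝ) ≠ 0)]
  have h1 := Q_f
  have h2 := A_f
  have h3 : (43 / 625 : ℝ) / (1 - 13 / 15) ≤ (log 2 - log (1 + 13 / 15)) / (1 - 13 / 15) :=
    div_le_div_of_nonneg_right h1 (by norm_num)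
  norm_num at h1 h2 h3 ⊢
  linarith

private lemma ell_f : (6063 / 10000 : ℝ) ≤ log (917 / 500) := by
  have h1 := log_lower (y := 917 / 500) (by norm_num)
  norm_num at h1 ⊢
  linarith

private lemma logx_g : (31779 / 10000 : ℝ) ≤ log (24) := by
  have e : log (24) = 4 * log 2 + log (3 / 2) := by
    rw [show (24 : ℝ) = 2 ^ 4 * (3 / 2) by norm_num, log_mul (by norm_num) (by norm_num), log_pow]
    norm_num
  have h1 := log_lower (y := 3 / 2) (by norm_num)
  norm_num at h1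
  have h2 := Real.log_two_gt_d9
  rw [e]
  norm_num at h2 ⊢
  linarith

private lemma Q_g : (407 / 10000 : ℝ) ≤ log 2 - log (1 + 23 / 25) := by
  have e := Q_param (x := 24) (by norm_num)
  norm_num at e
  norm_num
  rw [e]
  have h1 := log_lower (y := 25 / 24) (by norm_num)
  norm_num at h1
  linarith

private lemma A_g : (31779 / 20000 : ℝ) ≤ At (23 / 25) := by
  have e := At_ratio (y := 24) (by norm_num)
  norm_num at e
  rw [e]
  have := logx_g
  norm_num at this ⊢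
  linarith

private lemma hh_g : (20977 / 125000 : ℝ) ≤ hh (23 / 25) := by
  rw [hh_eq]
  have h1 := Q_g
  have h2 := A_g
  norm_num at h1 h2 ⊢
  linarith

private lemma V_g : (262 / 125 : ℝ) ≤ hh (23 / 25) / (1 - 23 / 25) := by
  rw [hh_eq, add_div, mul_div_cancel_left₀ _ (by norm_num : (1 - 23 / 25 : ℝ) ≠ 0)]
  have h1 := Q_g
  have h2 := A_g
  have h3 : (407 / 10000 : ℝ) / (1 - 23 / 25) ≤ (log 2 - log (1 + 23 / 25)) / (1 - 23 / 25) :=
    div_le_div_of_nonneg_right h1 (by norm_num)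
  norm_num at h1 h2 h3 ⊢
  linarith

private lemma ell_g : (7399 / 10000 : ℝ) ≤ log (262 / 125) := by
  have h1 := log_lower (y := 262 / 125) (by norm_num)
  norm_num at h1 ⊢
  linarith

/-- `L_key` for `t ≥ 5/7`. -/
lemma L_key_big {t : ℝ} (h0 : 5 / 7 ≤ t) (h1 : t < 1) :
    (log (log 2 / hh t) - 1 + hh t / log 2) / 2 ≤ Xi t := by
  rcases le_total t (23 / 25) with h | h
  · rcases le_total t (13 / 15) with h2 | h2
    · rcases le_total t (9 / 11) with h3 | h3
      · rcases le_total t (7 / 9) with h4 | h4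
        · rcases le_total t (3 / 4) with h5 | h5
          · rcases le_total t (11 / 15) with h6 | h6
            · exact L_key_cell (t₁ := 5 / 7) (t₂ := 11 / 15) (by norm_num) (by linarith) (by linarith) (by norm_num)
                hh_b Q_b V_a (by norm_num) ell_a (by norm_num) (by norm_num)
            · exact L_key_cell (t₁ := 11 / 15) (t₂ := 3 / 4) (by norm_num) (by linarith) (by linarith) (by norm_num)
                hh_c Q_c V_b (by norm_num) ell_b (by norm_num) (by norm_num)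
          · exact L_key_cell (t₁ := 3 / 4) (t₂ := 7 / 9) (by norm_num) (by linarith) (by linarith) (by norm_num)
              hh_d Q_d V_c (by norm_num) ell_c (by norm_num) (by norm_num)
        · exact L_key_cell (t₁ := 7 / 9) (t₂ := 9 / 11) (by norm_num) (by linarith) (by linarith) (by norm_num)
            hh_e Q_e V_d (by norm_num) ell_d (by norm_num) (by norm_num)
      · exact L_key_cell (t₁ := 9 / 11) (t₂ := 13 / 15) (by norm_num) (by linarith) (by linarith) (by norm_num)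
          hh_f Q_f V_e (by norm_num) ell_e (by norm_num) (by norm_num)
    · exact L_key_cell (t₁ := 13 / 15) (t₂ := 23 / 25) (by norm_num) (by linarith) (by linarith) (by norm_num)
        hh_g Q_g V_f (by norm_num) ell_f (by norm_num) (by norm_num)
  · -- top range
    have ht0 : 0 < t := by linarith
    apply L_key_reduce ht0 h1
    have hK := K_le
    have hk := kappa_ge
    have hAbs := abs_lt_of_Ioo ht0 h1
    have hhtpos := hh_pos hAbs
    have hQ := Q_nonneg h1 (by linarith)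
    have hV : (262 / 125 : ℝ) ≤ hh t / (1 - t) := le_trans V_g (V_mono (by norm_num) h h1)
    have hlogV : log (262 / 125) ≤ log (hh t / (1 - t)) := log_le_log (by norm_num) hV
    have := ell_g
    have h8 : 0 ≤ hh t * (2 - 1 / log 2) := mul_nonneg hhtpos.le (by linarith)
    linarith

/-- One-dimensional numeric fact (L'). -/
theorem L_key {t : ℝ} (h0 : 0 < t) (h1 : t < 1) :
    (log (log 2 / hh t) - 1 + hh t / log 2) / 2 ≤ Xi t := by
  rcases le_total t (18 / 25) with h | h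
  · exact L_key_small h0 h
  · exact L_key_big (by linarith) h1

end Vale.Agent.Lib.P322B
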