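import Vale.Agent.Lib.P322B.Calculus

/-! # Module PI: the plane inequality (proof by helper62, report id 420). -/

namespace Vale.Agent.Lib.P322B

open Real Set Filter

lemma At_eq_artanh {t : ℝ} (h : |t| < 1) : At t = artanh t := by
  obtain ⟨h1, h2⟩ := abs_lt_one_pos h
  have hm : t ∈ Icc (-1 : ℝ) 1 := by
    have := abs_lt.mp h
    exact ⟨this.1.le, this.2.le⟩
  rw [artanh_eq_half_log hm, log_div h1.ne' h2.ne']
  unfold At
  ring

lemma tanh_At {s : ℝ} (h : |s| < 1) : tanh (At s) = s := by
  rw [At_eq_artanh h]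
  exact tanh_artanh (by have := abs_lt.mp h; exact ⟨this.1, this.2⟩)

lemma At_tanh (u : ℝ) : At (tanh u) = u := by
  rw [At_eq_artanh (abs_tanh_lt_one u)]
  exact artanh_tanh u

lemma one_sub_tanh_sq (u : ℝ) : 1 - tanh u ^ 2 = 1 / cosh u ^ 2 := by
  have h := (cosh_pos u).ne'
  rw [tanh_eq_sinh_div_cosh, div_pow, eq_div_iff (pow_ne_zero 2 h)]
  field_simp
  have := cosh_sq u
  linarith

lemma hasDerivAt_tanh' (u : ℝ) : HasDerivAt tanh (1 - tanh u ^ 2) u := by
  have h := (cosh_pos u).ne'
  have d := (hasDerivAt_sinh u).div (hasDerivAt_cosh u) h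
  have e : tanh = fun x => sinh x / cosh x := by
    funext x
    exact tanh_eq_sinh_div_cosh x
  rw [e]
  refine HasDerivAt.congr_deriv d ?_
  show (cosh u * cosh u - sinh u * sinh u) / cosh u ^ 2 = 1 - (sinh u / cosh u) ^ 2
  field_simp

lemma tendsto_tanh_atTop : Tendsto tanh atTop (nhds 1) := by
  have h1 : Tendsto (fun x : ℝ => 1 - 2 * exp (-x)) atTop (nhds (1 - 2 * 0)) :=
    tendsto_const_nhds.sub (tendsto_exp_neg_atTop_nhds_zero.const_mul 2)
  have h1' : Tendsto (fun x : ℝ => 1 - 2 * exp (-x)) atTop (nhds 1) := by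
    simpa using h1
  refine tendsto_of_tendsto_of_tendsto_of_le_of_le' h1' tendsto_const_nhds ?_ ?_
  · filter_upwards [eventually_ge_atTop (0:ℝ)] with x hx
    rw [tanh_eq]
    have hp := exp_pos x
    have hn := exp_pos (-x)
    have h2 : 1 ≤ exp x := one_le_exp hx
    rw [le_div_iff₀ (by positivity)]
    nlinarith [mul_pos hp hn, mul_pos hn hn]
  · exact Eventually.of_forall fun x => (tanh_lt_one x).le

section plane

variable {T : ℝ}

lemma hsum_pos (h0 : 0 < T) (h1 : T < 1) : 0 < T * At T + hh T :=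
  add_pos (mul_pos h0 (At_pos h0 h1)) (hh_pos (abs_lt_of_Ioo h0 h1))

lemma muP_nonneg (h0 : 0 < T) (h1 : T < 1) : 0 ≤ muP T := by
  unfold muP
  have hp := one_sub_sq_pos (abs_lt_of_Ioo h0 h1)
  have := hsum_pos h0 h1
  positivity

lemma muP_mul (h0 : 0 < T) (h1 : T < 1) : muP T * (T * At T + hh T) = T ^ 2 / (1 - T ^ 2) := by
  unfold muP
  have := (hsum_pos h0 h1).ne'
  field_simp

/-- Contact relation. -/
lemma lam_contact (h0 : 0 < T) (h1 : T < 1) : lamP T * T - muP T * hh T = T * At T := by
  have hm := muP_mul h0 h1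
  have hp := one_sub_sq_pos (abs_lt_of_Ioo h0 h1)
  unfold lamP
  have e : T / (1 - T ^ 2) * T = T ^ 2 / (1 - T ^ 2) := by ring
  have e2 : (At T * (1 - muP T) + T / (1 - T ^ 2)) * T - muP T * hh T =
      T * At T - muP T * (T * At T + hh T) + T / (1 - T ^ 2) * T := by ring
  rw [e2, hm, e]
  ring

lemma lamP_pos (h0 : 0 < T) (h1 : T < 1) : 0 < lamP T := by
  have hc := lam_contact h0 h1
  have hm := muP_nonneg h0 h1
  have hh' := hh_pos (abs_lt_of_Ioo h0 h1)
  have hA := At_pos h0 h1
  have : 0 < lamP T * T := by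
    have : 0 ≤ muP T * hh T := by positivity
    nlinarith [mul_pos h0 hA]
  exact (pos_iff_pos_of_mul_pos this).mpr h0

/-- Contact values: the plane at `T = t` evaluated at `(b,l) = (p t, p hh t)`. -/
lemma plane_contact {t p : ℝ} (h0 : 0 < t) (h1 : t < 1) :
    lamP t * (p * t) - muP t * (p * hh t) = p * t * At t := by
  have := lam_contact h0 h1
  calc lamP t * (p * t) - muP t * (p * hh t) = p * (lamP t * t - muP t * hh t) := by ring
    _ = p * t * At t := by rw [this]; ring

/-- The diagonal inequality. -/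
lemma PI_diag (h0 : 0 < T) (h1 : T < 1) {t : ℝ} (ht0 : 0 ≤ t) (ht1 : t < 1) :
    0 ≤ (At t - lamP T) * t + muP T * hh t := by
  set lam := lamP T with hlam
  set mu := muP T with hmu
  have hlp : 0 < lam := lamP_pos h0 h1
  set ψ : ℝ → ℝ := fun t => (At t - lam) * t + mu * hh t with hψ
  have hψT : ψ T = 0 := by
    have := lam_contact h0 h1
    simp only [hψ]
    rw [← hlam, ← hmu] at this
    nlinarith
  have hc : ContinuousOn ψ (Ico 0 1) := by
    apply ContinuousOn.add
    · exact ((continuousOn_At' (fun x hx => abs_lt_of_Ico hx.1 hx.2)).sub continuousOn_const).mul continuousOn_id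
    · exact continuousOn_const.mul continuous_hh.continuousOn
  have hd : ∀ x, 0 < x → x < 1 → HasDerivAt ψ (At x * (kk x + 2 - mu) - lam) x := by
    intro x hx0 hx1
    have hAbs := abs_lt_of_Ioo hx0 hx1
    have hp := one_sub_sq_pos hAbs
    have hA := At_pos hx0 hx1
    have d := (((hasDerivAt_At hAbs).sub_const lam).mul (hasDerivAt_id x)).add
      ((hasDerivAt_hh hAbs).const_mul mu)
    refine HasDerivAt.congr_deriv (f := ψ) d ?_
    rw [kk_eq hx0.ne']
    simp only [id]
    field_simp
    ring
  have hkT : 0 < kk T + 2 - mu := by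
    have := hd T h0 h1
    have e : At T * (kk T + 2 - mu) = lam := by
      rw [kk_eq h0.ne']
      have hA := At_pos h0 h1
      have hp := one_sub_sq_pos (abs_lt_of_Ioo h0 h1)
      rw [hlam]
      unfold lamP
      rw [← hmu]
      field_simp
      ring
    have hA := At_pos h0 h1
    rw [← e] at hlp
    exact (pos_iff_pos_of_mul_pos hlp).mp hA
  have hq : At T * (kk T + 2 - mu) = lam := by
    rw [kk_eq h0.ne']
    have hA := At_pos h0 h1
    have hp := one_sub_sq_pos (abs_lt_of_Ioo h0 h1)
    rw [hlam]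
    unfold lamP
    rw [← hmu]
    field_simp
    ring
  have hAm : ∀ {x y : ℝ}, 0 ≤ x → x ≤ y → y < 1 → At x ≤ At y := by
    intro x y hx hxy hy
    have hm : MonotoneOn At (Ico 0 1) := by
      apply mono_of_hasDeriv (convex_Ico 0 1) (f' := fun x => 1 / (1 - x ^ 2))
        (continuousOn_At' (fun x hx => abs_lt_of_Ico hx.1 hx.2))
      · intro x hx
        rw [interior_Ico] at hx
        exact hasDerivAt_At (abs_lt_of_Ioo hx.1 hx.2)
      · intro x hx
        rw [interior_Ico] at hx
        have := one_sub_sq_pos (abs_lt_of_Ioo hx.1 hx.2)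
        positivity
    exact hm ⟨hx, by linarith⟩ ⟨by linarith, hy⟩ hxy
  rcases le_total t T with htT | htT
  · -- `ψ` decreases on `[t,T]`
    have hm : AntitoneOn ψ (Icc t T) := by
      apply anti_of_hasDeriv (convex_Icc t T) (f' := fun x => At x * (kk x + 2 - mu) - lam)
        (hc.mono fun x hx => ⟨by linarith [hx.1], by linarith [hx.2]⟩)
      · intro x hx
        rw [interior_Icc] at hx
        exact hd x (by linarith [hx.1]) (by linarith [hx.2])
      · intro x hx
        rw [interior_Icc] at hx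
        have hx0 : 0 < x := by linarith [hx.1]
        have hx1 : x < 1 := by linarith [hx.2]
        have hA0 := At_pos hx0 hx1
        have hAle : At x ≤ At T := hAm hx0.le hx.2.le h1
        have hkle : kk x ≤ kk T := kk_mono ⟨hx0.le, hx1⟩ ⟨h0.le, h1⟩ hx.2.le
        by_cases hs : 0 ≤ kk x + 2 - mu
        · have : At x * (kk x + 2 - mu) ≤ At T * (kk T + 2 - mu) := by
            apply mul_le_mul hAle (by linarith) hs (by linarith)
          linarith
        · push Not at hs
          have : At x * (kk x + 2 - mu) ≤ 0 := by nlinarith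
          linarith
    have := hm ⟨le_rfl, htT⟩ ⟨htT, le_rfl⟩ htT
    rw [hψT] at this
    exact this
  · -- `ψ` increases on `[T,t]`
    have hm : MonotoneOn ψ (Icc T t) := by
      apply mono_of_hasDeriv (convex_Icc T t) (f' := fun x => At x * (kk x + 2 - mu) - lam)
        (hc.mono fun x hx => ⟨by linarith [hx.1], by linarith [hx.2]⟩)
      · intro x hx
        rw [interior_Icc] at hx
        exact hd x (by linarith [hx.1]) (by linarith [hx.2])
      · intro x hx
        rw [interior_Icc] at hx
        have hx0 : 0 < x := by linarith [hx.1]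
        have hx1 : x < 1 := by linarith [hx.2]
        have hAle : At T ≤ At x := hAm h0.le hx.1.le hx1
        have hkle : kk T ≤ kk x := kk_mono ⟨h0.le, h1⟩ ⟨hx0.le, hx1⟩ hx.1.le
        have hA := At_pos h0 h1
        have : At T * (kk T + 2 - mu) ≤ At x * (kk x + 2 - mu) := by
          apply mul_le_mul hAle (by linarith) hkT.le (by linarith)
        linarith
    have := hm ⟨le_rfl, htT⟩ ⟨htT, le_rfl⟩ htT
    rw [hψT] at this
    exact this

end plane

section core

/-- The monotone auxiliary quotient in crossed form. -/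
lemma g_cross {C : ℝ} (hC : 1 ≤ C) {d d' : ℝ} (hd : 0 < d) (hdd : d ≤ d') :
    d * (1 + C * cosh (2 * d)) * sinh (2 * d') ≤ d' * (1 + C * cosh (2 * d')) * sinh (2 * d) := by
  have hS : ∀ {y : ℝ}, 0 < y → 0 < sinh (2 * y) := by
    intro y hy
    exact sinh_pos_iff.mpr (by linarith)
  have hm : MonotoneOn (fun y => y * (1 + C * cosh (2 * y)) / sinh (2 * y)) (Ioi 0) := by
    have hder : ∀ y : ℝ, 0 < y → HasDerivAt (fun y => y * (1 + C * cosh (2 * y)) / sinh (2 * y))
        ((sinh (2 * y) - 2 * y * cosh (2 * y) + C * (cosh (2 * y) * sinh (2 * y) - 2 * y)) / sinh (2 * y) ^ 2) y := by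
      intro y hy
      have h2 : HasDerivAt (fun y : ℝ => 2 * y) 2 y := by
        simpa using (hasDerivAt_id y).const_mul 2
      have dc : HasDerivAt (fun y : ℝ => cosh (2 * y)) (sinh (2 * y) * 2) y :=
        (hasDerivAt_cosh (2 * y)).comp y h2
      have ds : HasDerivAt (fun y : ℝ => sinh (2 * y)) (cosh (2 * y) * 2) y :=
        (hasDerivAt_sinh (2 * y)).comp y h2
      have d1 := ((hasDerivAt_id y).mul ((dc.const_mul C).const_add 1)).div ds (hS hy).ne'
      refine HasDerivAt.congr_deriv (f := fun y => y * (1 + C * cosh (2 * y)) / sinh (2 * y)) d1 ?_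
      simp only [id, Pi.mul_apply]
      have e : cosh (2 * y) ^ 2 = 1 + sinh (2 * y) ^ 2 := by
        have := cosh_sq (2 * y)
        linarith
      congr 1
      linear_combination (-2 * y * C) * e
    apply mono_of_hasDeriv (convex_Ioi 0)
      (f' := fun y => (sinh (2 * y) - 2 * y * cosh (2 * y) + C * (cosh (2 * y) * sinh (2 * y) - 2 * y)) / sinh (2 * y) ^ 2)
    · intro y hy
      exact (hder y hy).continuousAt.continuousWithinAt
    · intro y hy
      rw [interior_Ioi] at hy
      exact hder y hy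
    · intro y hy
      rw [interior_Ioi] at hy
      have hy0 : 0 < y := hy
      apply div_nonneg _ (by positivity)
      have h1 : 2 * y ≤ sinh (2 * y) := self_le_sinh_iff.mpr (by linarith)
      have h2 : 1 ≤ cosh (2 * y) := one_le_cosh _
      have h3 : 0 ≤ cosh (2 * y) * sinh (2 * y) - 2 * y := by nlinarith
      have h4 : cosh (2 * y) * sinh (2 * y) - 2 * y ≤ C * (cosh (2 * y) * sinh (2 * y) - 2 * y) := by
        nlinarith
      nlinarith
  have h := hm (mem_Ioi.mpr hd) (mem_Ioi.mpr (by linarith : (0:ℝ) < d')) hdd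
  have h' := (div_le_div_iff₀ (hS hd) (hS (by linarith : (0:ℝ) < d'))).mp h
  exact h'

lemma sinh_mul_sinh (p r : ℝ) : sinh (p + r) * sinh (p - r) = cosh p ^ 2 - cosh r ^ 2 := by
  rw [sinh_add, sinh_sub]
  have s1 := cosh_sq p
  have s2 := cosh_sq r
  linear_combination (-(cosh r) ^ 2) * s1 + (cosh p) ^ 2 * s2

lemma cosh_mul_cosh (p r : ℝ) : 1 + cosh (p + r) * cosh (p - r) = cosh p ^ 2 + cosh r ^ 2 := by
  rw [cosh_add, cosh_sub]
  have s1 := cosh_sq p
  have s2 := cosh_sq r
  linear_combination (sinh r) ^ 2 * s1 + ((cosh p) ^ 2 - 1) * s2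

/-- The function of the symmetric two-point family. -/
noncomputable def PF (lam mu w d : ℝ) : ℝ :=
  (w - lam) / 2 * (tanh (d + w) - tanh (d - w))
    + mu / 2 * (hh (tanh (d + w)) + hh (tanh (d - w)))

/-- Its derivative numerator. -/
noncomputable def PN (lam mu w d : ℝ) : ℝ :=
  (lam - (1 - mu) * w) * (sinh (2 * d) * sinh (2 * w)) - mu * d * (1 + cosh (2 * d) * cosh (2 * w))

lemma hasDerivAt_PF (lam mu w d : ℝ) : HasDerivAt (PF lam mu w)
    (PN lam mu w d / (2 * cosh (d + w) ^ 2 * cosh (d - w) ^ 2)) d := by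
  have hp := (cosh_pos (d + w)).ne'
  have hr := (cosh_pos (d - w)).ne'
  have d1 : HasDerivAt (fun d => tanh (d + w)) (1 - tanh (d + w) ^ 2) d :=
    (hasDerivAt_tanh' (d + w)).comp_add_const d w
  have d2 : HasDerivAt (fun d => tanh (d - w)) (1 - tanh (d - w) ^ 2) d :=
    (hasDerivAt_tanh' (d - w)).comp_sub_const d w
  have d3 : HasDerivAt (fun d => hh (tanh (d + w))) (-(d + w) * (1 - tanh (d + w) ^ 2)) d := by
    have h := (hasDerivAt_hh (abs_tanh_lt_one (d + w))).comp d d1
    rw [At_tanh] at h
    exact h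
  have d4 : HasDerivAt (fun d => hh (tanh (d - w))) (-(d - w) * (1 - tanh (d - w) ^ 2)) d := by
    have h := (hasDerivAt_hh (abs_tanh_lt_one (d - w))).comp d d2
    rw [At_tanh] at h
    exact h
  have d5 := ((d1.sub d2).const_mul ((w - lam) / 2)).add ((d3.add d4).const_mul (mu / 2))
  refine HasDerivAt.congr_deriv (f := PF lam mu w) d5 ?_
  rw [one_sub_tanh_sq, one_sub_tanh_sq]
  unfold PN
  have e1 : sinh (2 * d) * sinh (2 * w) = cosh (d + w) ^ 2 - cosh (d - w) ^ 2 := by
    have := sinh_mul_sinh (d + w) (d - w)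
    have a1 : d + w + (d - w) = 2 * d := by ring
    have a2 : d + w - (d - w) = 2 * w := by ring
    rwa [a1, a2] at this
  have e2 : 1 + cosh (2 * d) * cosh (2 * w) = cosh (d + w) ^ 2 + cosh (d - w) ^ 2 := by
    have := cosh_mul_cosh (d + w) (d - w)
    have a1 : d + w + (d - w) = 2 * d := by ring
    have a2 : d + w - (d - w) = 2 * w := by ring
    rwa [a1, a2] at this
  rw [e1, e2]
  field_simp
  ring

lemma PF_tendsto (lam mu w : ℝ) : Tendsto (PF lam mu w) atTop (nhds 0) := by
  have h1 : Tendsto (fun d : ℝ => tanh (d + w)) atTop (nhds 1) :=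
    tendsto_tanh_atTop.comp (tendsto_atTop_add_const_right _ w tendsto_id)
  have h2 : Tendsto (fun d : ℝ => tanh (d - w)) atTop (nhds 1) := by
    have : (fun d : ℝ => tanh (d - w)) = fun d : ℝ => tanh (d + -w) := by
      funext d; rw [sub_eq_add_neg]
    rw [this]
    exact tendsto_tanh_atTop.comp (tendsto_atTop_add_const_right _ (-w) tendsto_id)
  have h3 : Tendsto (fun d : ℝ => hh (tanh (d + w))) atTop (nhds (hh 1)) :=
    continuous_hh.continuousAt.tendsto.comp h1
  have h4 : Tendsto (fun d : ℝ => hh (tanh (d - w))) atTop (nhds (hh 1)) :=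
    continuous_hh.continuousAt.tendsto.comp h2
  have := (((h1.sub h2).const_mul ((w - lam) / 2)).add ((h3.add h4).const_mul (mu / 2)))
  rw [hh_one] at this
  have e : PF lam mu w = fun d => (w - lam) / 2 * (tanh (d + w) - tanh (d - w))
      + mu / 2 * (hh (tanh (d + w)) + hh (tanh (d - w))) := rfl
  rw [e]
  simpa using this

/-- The two-point inequality in hyperbolic coordinates. -/
lemma PF_nonneg {T w d : ℝ} (h0 : 0 < T) (h1 : T < 1) (hw : 0 < w) (hd : 0 ≤ d) :
    0 ≤ PF (lamP T) (muP T) w d := by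
  set lam := lamP T with hlam
  set mu := muP T with hmu
  have hmu0 : 0 ≤ mu := muP_nonneg h0 h1
  -- base point
  have hbase : 0 ≤ PF lam mu w 0 := by
    have ht0 : 0 ≤ tanh w := by
      rw [tanh_eq_sinh_div_cosh]
      exact div_nonneg (sinh_nonneg_iff.mpr hw.le) (cosh_pos w).le
    have := PI_diag h0 h1 ht0 (tanh_lt_one w)
    rw [At_tanh] at this
    unfold PF
    have e1 : (0:ℝ) - w = -w := by ring
    have e2 : (0:ℝ) + w = w := by ring
    rw [e1, e2, tanh_neg, hh_neg]
    rw [← hlam, ← hmu] at this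
    nlinarith
  rcases hd.eq_or_lt with rfl | hd0
  · exact hbase
  set C := cosh (2 * w) with hC
  have hC1 : 1 ≤ C := one_le_cosh _
  have hS : ∀ {y : ℝ}, 0 < y → 0 < sinh (2 * y) := by
    intro y hy
    exact sinh_pos_iff.mpr (by linarith)
  -- the crossing relation of `PN`
  have hcross : ∀ {y y' : ℝ}, 0 < y → y ≤ y' →
      sinh (2 * y) * PN lam mu w y' ≤ sinh (2 * y') * PN lam mu w y := by
    intro y y' hy hyy
    have hg := g_cross hC1 hy hyy
    have hg2 := mul_le_mul_of_nonneg_left hg hmu0
    unfold PN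
    rw [← hC]
    nlinarith
  have hden : ∀ y : ℝ, 0 < 2 * cosh (y + w) ^ 2 * cosh (y - w) ^ 2 := by
    intro y
    have := cosh_pos (y + w)
    have := cosh_pos (y - w)
    positivity
  by_cases hN : 0 ≤ PN lam mu w d
  · -- increasing on `[0,d]`
    have hm : MonotoneOn (PF lam mu w) (Icc 0 d) := by
      apply mono_of_hasDeriv (convex_Icc 0 d)
        (f' := fun y => PN lam mu w y / (2 * cosh (y + w) ^ 2 * cosh (y - w) ^ 2))
      · intro y _
        exact (hasDerivAt_PF lam mu w y).continuousAt.continuousWithinAt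
      · intro y _
        exact hasDerivAt_PF lam mu w y
      · intro y hy
        rw [interior_Icc] at hy
        apply div_nonneg _ (hden y).le
        have h3 := hcross hy.1 hy.2.le
        have h4 := hS hy.1
        have h5 := hS hd0
        have h6 : 0 ≤ sinh (2 * y) * PN lam mu w d := mul_nonneg h4.le hN
        have h7 : 0 ≤ sinh (2 * d) * PN lam mu w y := le_trans h6 h3
        exact nonneg_of_mul_nonneg_right h7 h5
    have := hm ⟨le_rfl, hd⟩ ⟨hd, le_rfl⟩ hd
    linarith
  · -- decreasing on `[d,∞)`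
    push Not at hN
    have hm : AntitoneOn (PF lam mu w) (Ici d) := by
      apply anti_of_hasDeriv (convex_Ici d)
        (f' := fun y => PN lam mu w y / (2 * cosh (y + w) ^ 2 * cosh (y - w) ^ 2))
      · intro y _
        exact (hasDerivAt_PF lam mu w y).continuousAt.continuousWithinAt
      · intro y _
        exact hasDerivAt_PF lam mu w y
      · intro y hy
        rw [interior_Ici] at hy
        have hy' : d < y := hy
        apply div_nonpos_of_nonpos_of_nonneg _ (hden y).le
        have h3 := hcross hd0 hy'.le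
        have h4 := hS hd0
        have h5 := hS (by linarith : 0 < y)
        have h6 : sinh (2 * y) * PN lam mu w d < 0 := mul_neg_of_pos_of_neg h5 hN
        by_contra hc
        push Not at hc
        have h7 : 0 < sinh (2 * d) * PN lam mu w y := mul_pos h4 hc
        linarith
    refine le_of_tendsto (PF_tendsto lam mu w) ?_
    filter_upwards [eventually_ge_atTop d] with y hy
    exact hm (mem_Ici.mpr le_rfl) (mem_Ici.mpr hy) hy

end core

theorem PI {T s x : ℝ} (hT0 : 0 < T) (hT1 : T < 1) (hs : |s| < 1) (hx : |x| < 1) :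
    lamP T * ((s - x) / 2) - muP T * ((hh s + hh x) / 2) ≤ JJ s x / 4 := by
  have hl := lamP_pos hT0 hT1
  have hm := muP_nonneg hT0 hT1
  rcases le_or_gt s x with hsx | hsx
  · -- `s ≤ x`: all terms have the right sign
    have h1 : lamP T * ((s - x) / 2) ≤ 0 :=
      mul_nonpos_of_nonneg_of_nonpos hl.le (by linarith)
    have h2 : 0 ≤ muP T * ((hh s + hh x) / 2) := by
      have := hh_pos hs
      have := hh_pos hx
      positivity
    have hAm : At s ≤ At x := by
      have hmono : MonotoneOn At (Ioo (-1) 1) := by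
        apply mono_of_hasDeriv (convex_Ioo (-1) 1) (f' := fun x => 1 / (1 - x ^ 2)) continuousOn_At
        · intro y hy
          rw [interior_Ioo] at hy
          exact hasDerivAt_At (abs_lt.mpr hy)
        · intro y hy
          rw [interior_Ioo] at hy
          have := one_sub_sq_pos (abs_lt.mpr hy)
          positivity
      exact hmono (abs_lt.mp hs) (abs_lt.mp hx) hsx
    have h3 : 0 ≤ JJ s x := by
      unfold JJ
      exact mul_nonneg_of_nonpos_of_nonpos (by linarith) (by linarith)
    linarith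
  -- `s > x`
  have hAm : At x < At s := by
    have hmono : StrictMonoOn At (Ioo (-1) 1) := by
      apply strictMonoOn_of_deriv_pos (convex_Ioo (-1) 1) continuousOn_At
      intro y hy
      rw [interior_Ioo] at hy
      rw [(hasDerivAt_At (abs_lt.mpr hy)).deriv]
      have := one_sub_sq_pos (abs_lt.mpr hy)
      positivity
    exact hmono (abs_lt.mp hx) (abs_lt.mp hs) hsx
  -- the key fact for a pair with nonnegative mean `atanh`
  have key : ∀ {s x : ℝ}, |s| < 1 → |x| < 1 → At x < At s → 0 ≤ At s + At x →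
      lamP T * ((s - x) / 2) - muP T * ((hh s + hh x) / 2) ≤ JJ s x / 4 := by
    intro s x hs hx hAm hd
    set w := (At s - At x) / 2 with hw
    set d := (At s + At x) / 2 with hdd
    have hw0 : 0 < w := by rw [hw]; linarith
    have hd0 : 0 ≤ d := by rw [hdd]; linarith
    have h := PF_nonneg hT0 hT1 hw0 hd0
    have e1 : d + w = At s := by rw [hw, hdd]; ring
    have e2 : d - w = At x := by rw [hw, hdd]; ring
    unfold PF at h
    rw [e1, e2, tanh_At hs, tanh_At hx] at h
    unfold JJ
    have e3 : At s - At x = 2 * w := by rw [hw]; ring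
    rw [e3]
    nlinarith
  rcases le_total 0 (At s + At x) with hd | hd
  · exact key hs hx hAm hd
  · have hs' : |(-x)| < 1 := by rwa [abs_neg]
    have hx' : |(-s)| < 1 := by rwa [abs_neg]
    have := key hs' hx' (by rw [At_neg, At_neg]; linarith) (by rw [At_neg, At_neg]; linarith)
    rw [hh_neg, hh_neg] at this
    have e : JJ (-x) (-s) = JJ s x := by
      unfold JJ
      rw [At_neg, At_neg]
      ring
    rw [e] at this
    have e2 : (-x - -s) / 2 = (s - x) / 2 := by ring
    rw [e2] at this
    have e3 : (hh x + hh s) / 2 = (hh s + hh x) / 2 := by ring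
    rw [e3] at this
    exact this

end Vale.Agent.Lib.P322B
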