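import Vale.Agent.Lib.P322B.ENum
import Vale.Agent.Lib.P322B.GMono

/-! # Module S2: the inequality on the crossing surface. -/

namespace Vale.Agent.Lib.P322B

open Real Set

lemma rhoF_le_sq {v : ℝ} (hv : 1 ≤ v) : rhoF v ≤ (v - 1) ^ 2 / 2 := by
  have hm : MonotoneOn (fun x => (x - 1) ^ 2 / 2 - rhoF x) (Ici 1) := by
    apply mono_of_hasDeriv (convex_Ici 1) (f' := fun x => (x - 1) - log x)
    · intro x hx
      have hx0 : x ≠ 0 := by
        have : (1:ℝ) ≤ x := hx
        linarith
      apply ContinuousAt.continuousWithinAt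
      unfold rhoF
      have : ContinuousAt log x := continuousAt_log hx0
      fun_prop (disch := assumption)
    · intro x hx
      rw [interior_Ici] at hx
      have hx0 : 0 < x := by
        have : (1:ℝ) < x := hx
        linarith
      have d1 : HasDerivAt (fun x : ℝ => (x - 1) ^ 2 / 2) (x - 1) x := by
        have h := (((hasDerivAt_id x).sub_const 1).pow 2).div_const 2
        refine HasDerivAt.congr_deriv (f := fun x : ℝ => (x - 1) ^ 2 / 2) h ?_
        simp only [id]
        norm_num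
      have d2 : HasDerivAt rhoF (log x) x := by
        have h := ((hasDerivAt_mul_log hx0.ne').sub (hasDerivAt_id x)).add_const 1
        refine HasDerivAt.congr_deriv (f := rhoF) h ?_
        ring
      exact d1.sub d2
    · intro x hx
      rw [interior_Ici] at hx
      have hx0 : 0 < x := by
        have : (1:ℝ) < x := hx
        linarith
      have := log_le_sub_one_of_pos hx0
      linarith
  have := hm (mem_Ici.mpr le_rfl) (mem_Ici.mpr hv) hv
  simp only [rhoF, log_one] at this
  norm_num at this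
  unfold rhoF
  linarith

/-- The crossing inequality. -/
theorem S2 {t σ : ℝ} (ht0 : 0 < t) (ht1 : t < 1) (hσ0 : 0 ≤ σ) (hσ1 : σ < 1) :
    Psi (mm (abar t σ)) (pp t σ * hh t) - Psi (mm (abar t σ) - DD (bbar t σ)) (pp t σ * hh t)
      ≤ bbar t σ * At t - GG (abar t σ) (bbar t σ) := by
  have hAbs := abs_lt_of_Ioo ht0 ht1
  have hP := pp_pos ht0 ht1 hσ0 hσ1
  have hpq := pp_add_qq ht0 ht1 hσ0 hσ1
  have hq0 := qq_nonneg ht0 ht1 hσ0 hσ1
  have hq1 := qq_lt_one ht0 ht1 hσ0 hσ1
  have hh0 := hh_pos hAbs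
  have hG := Gamma_eq ht0 ht1 hσ0 hσ1
  have hBB := BB_nonneg ht0 ht1 hσ0 hσ1
  have hBL := BB_lower ht0 ht1 hσ0 hσ1
  have hXi := Xi_nonneg ht0.le ht1
  have hb := bbar_pos ht0 ht1 hσ0 hσ1
  have ha := abar_nonneg ht0 ht1 hσ0 hσ1
  have hab := abar_add_bbar_lt_one ht0 ht1 hσ0 hσ1
  set p := pp t σ with hp
  set q := qq t σ with hq
  have hpe : p = 1 - q := by linarith
  -- the two scaled masses
  set v := 1 + q * gam t q with hv
  set v₂ := v2F t q with hv₂
  have hm1 : mm (abar t σ) = p * v := by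
    rw [mm_abar ht0 ht1 hσ0 hσ1, hv, ← hp, ← hq, hpe]
    unfold gam
    ring
  have hm2 : mm (abar t σ) - DD (bbar t σ) = p * v₂ := by
    rw [mm_abar ht0 ht1 hσ0 hσ1, DD_bbar ht0 ht1 hσ0 hσ1, hv₂, ← hp, ← hq, hpe]
    unfold v2F gam
    ring
  have hmpos := mm_pos (a := abar t σ) ha (by linarith)
  have hm2pos := mm_sub_DD_pos ha hb.le hab
  have hv0 : 0 < v := by
    rw [hm1] at hmpos
    exact (pos_iff_pos_of_mul_pos hmpos).mp hP
  have hv₂0 : 0 < v₂ := by
    rw [hm2] at hm2pos
    exact (pos_iff_pos_of_mul_pos hm2pos).mp hP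
  rw [hm2, hm1, Psi_homog hP hv0, Psi_homog hP hv₂0, hG]
  -- reduce to the scaled inequality
  have hPsi₂ := Psi_nonneg hv₂0 hh0
  suffices hmain : Psi v (hh t) - Psi v₂ (hh t) ≤ Xi t + BB t σ / p by
    have := mul_le_mul_of_nonneg_left hmain hP.le
    have e : p * (Xi t + BB t σ / p) = p * Xi t + BB t σ := by
      field_simp
    rw [e] at this
    linarith
  have hBBp : 0 ≤ BB t σ / p := div_nonneg hBB hP.le
  rcases hq0.eq_or_lt with hq00 | hqpos
  · -- `q = 0`
    have hv1 : v = 1 := by rw [hv, ← hq00]; ring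
    have h1 : Psi v (hh t) = Xi t := by
      have := Psi_eq ht0 ht1 (m := 1) one_pos
      rw [one_mul, one_mul] at this
      rw [hv1, this]
    linarith
  by_cases hfl : v * log 2 ≤ hh t
  · -- the floor
    have h1 : Psi v (hh t) = 0 := Psi_floor hv0 hfl
    linarith
  push Not at hfl
  have hU := Psi_upper ht0 ht1 hv0
  have hBLp : q * (eeF ((1 - q) * t ^ 2) / (1 - q) ^ 2) ≤ BB t σ / p := by
    rw [← hpe, le_div_iff₀ hP]
    have e : q * (eeF (p * t ^ 2) / p ^ 2) * p = q / p * eeF (p * t ^ 2) := by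
      field_simp
    rw [e]
    exact hBL
  have hCC := CC_nonneg ht0.le ht1
  by_cases hγ : 0 ≤ gam t q
  · have hv1 : 1 ≤ v := by
      rw [hv]
      have := mul_nonneg hq0 hγ
      linarith
    have hρ := rhoF_le_sq hv1
    have hE := E_main ht0 ht1 hqpos hq1 hγ hv₂0
    have e1 : v - 1 = q * gam t q := by rw [hv]; ring
    rw [e1] at hρ hU
    have h3 : CC t * (q * gam t q) + 2 / 3 * rhoF v ≤ q * gam t q * (CC t + q * gam t q / 3) := by
      nlinarith
    linarith
  · push Not at hγ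
    have hE := E_neg ht0 ht1 hqpos hq1 hγ hfl
    have e1 : v - 1 = q * gam t q := by rw [hv]; ring
    rw [e1] at hU
    have h4 : Psi v (hh t) ≤ Xi t := by
      have : 2 / 3 * rhoF v ≤ CC t * (-(q * gam t q)) := hE
      nlinarith
    linarith

end Vale.Agent.Lib.P322B
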