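import Vale.Agent.Lib.P322B.S2
import Vale.Agent.Lib.P322B.GMono
import Vale.Agent.Lib.P322B.PI

/-! # Module S3: the two-point Bellman inequality. -/

namespace Vale.Agent.Lib.P322B

open Real Set

/-- The budget bound by the midpoint inequality. -/
lemma budget_le_hh {a b : ℝ} (ha : 0 ≤ a) (hb : 0 < b) (hab : a + b < 1) :
    (hh (a + b) + hh (a - b)) / 2 ≤ hh b := by
  have h1 : |a + b| < 1 := by rw [abs_lt]; constructor <;> linarith
  have h2 : |b - a| < 1 := by rw [abs_lt]; constructor <;> linarith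
  have h3 := Ph_midpoint h1 h2
  have e : (a + b + (b - a)) / 2 = b := by ring
  rw [e] at h3
  have e2 : a - b = -(b - a) := by ring
  rw [e2, hh_neg]
  unfold hh
  linarith

lemma At_strictMono {x y : ℝ} (hx : 0 ≤ x) (hxy : x < y) (hy : y < 1) : At x < At y := by
  have hmono : StrictMonoOn At (Ico 0 1) := by
    apply strictMonoOn_of_deriv_pos (convex_Ico 0 1)
      (continuousOn_At' (fun x hx => abs_lt_of_Ico hx.1 hx.2))
    intro z hz
    rw [interior_Ico] at hz
    rw [(hasDerivAt_At (abs_lt_of_Ioo hz.1 hz.2)).deriv]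
    have := one_sub_sq_pos (abs_lt_of_Ioo hz.1 hz.2)
    positivity
  exact hmono ⟨hx, by linarith⟩ ⟨by linarith, hy⟩ hxy

theorem S3 {a b l c : ℝ} (ha : 0 ≤ a) (hb : 0 < b) (hab : a + b < 1) (hl : 0 < l)
    (hlb : l ≤ (hh (a + b) + hh (a - b)) / 2)
    (hJ : JJ (a + b) (a - b) / 4 ≤ c)
    (hP : ∀ T : ℝ, 0 < T → T < 1 → lamP T * b - muP T * l ≤ c) :
    GG a b + (Psi (mm a) l - Psi (mm a - DD b) l) ≤ c := by
  obtain ⟨t', σ', ht'0, ht'1, hσ'0, hσ'1, hapar, hbpar⟩ := exists_param ha hb hab
  have hmm := mm_sub_DD_pos ha hb.le hab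
  have hDD := DD_nonneg hb.le (by linarith)
  have hmm2 : mm a - DD b ≤ mm a := by linarith
  have hP' := pp_pos ht'0 ht'1 hσ'0 hσ'1
  have hh' := hh_pos (abs_lt_of_Ioo ht'0 ht'1)
  have hbeq := bbar_eq ht'0 ht'1 hσ'0 hσ'1
  rw [hbpar] at hbeq
  by_cases hcase : pp t' σ' * hh t' ≤ l
  · -- the `J` branch
    have hsub := Psi_submod (l' := pp t' σ' * hh t') hmm hmm2 (mul_pos hP' hh') hcase
    have hS2 := S2 ht'0 ht'1 hσ'0 hσ'1
    have hJc := JJ_children ht'0 ht'1 hσ'0 hσ'1
    rw [hapar, hbpar] at hS2 hJc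
    linarith
  · -- the `N` branch
    push Not at hcase
    have hcont : ContinuousOn (fun τ => τ * l - b * hh τ) (Icc t' 1) :=
      (continuousOn_id.mul continuousOn_const).sub (continuousOn_const.mul continuous_hh.continuousOn)
    have hft' : t' * l - b * hh t' < 0 := by
      have : t' * l < t' * (pp t' σ' * hh t') := mul_lt_mul_of_pos_left hcase ht'0
      rw [hbeq]
      nlinarith
    have hf1 : 0 < (1:ℝ) * l - b * hh 1 := by
      rw [hh_one]
      linarith
    obtain ⟨t, htmem, hte⟩ := intermediate_value_Icc ht'1.le hcont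
      (show (0:ℝ) ∈ Icc (t' * l - b * hh t') ((1:ℝ) * l - b * hh 1) from ⟨hft'.le, hf1.le⟩)
    simp only at hte
    have htt' : t' < t := by
      rcases htmem.1.eq_or_lt with h | h
      · rw [← h] at hte
        linarith
      · exact h
    have ht1 : t < 1 := by
      rcases htmem.2.eq_or_lt with h | h
      · rw [h] at hte
        linarith
      · exact h
    have ht0 : 0 < t := by linarith
    have htl : t * l = b * hh t := by linarith
    -- `t ≥ b`
    have hlhb : l ≤ hh b := le_trans hlb (budget_le_hh ha hb hab)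
    have hb1 : b < 1 := by linarith
    have htb : b ≤ t := by
      by_contra hc
      push Not at hc
      have h1 : hh b < hh t := hh_anti ⟨ht0.le, ht1⟩ ⟨hb.le, hb1⟩ hc
      have h2 := hh_pos (abs_lt_of_Ioo hb hb1)
      have h3 := hh_pos (abs_lt_of_Ioo ht0 ht1)
      have h4 : t * l ≤ t * hh b := mul_le_mul_of_nonneg_left hlhb ht0.le
      nlinarith
    set p := b / t with hp
    have hp0 : 0 < p := div_pos hb ht0
    have hp1 : p ≤ 1 := (div_le_one ht0).mpr htb
    obtain ⟨σ, hσ0, hσ1, hpp⟩ := exists_sigma ht0 ht1 hp0 hp1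
    have hbb : bbar t σ = b := by
      rw [bbar_eq ht0 ht1 hσ0 hσ1, hpp, hp]
      field_simp
    have hleq : pp t σ * hh t = l := by
      rw [hpp, hp]
      field_simp
      linarith
    set ac := abar t σ with hac
    have hac0 : 0 ≤ ac := abar_nonneg ht0 ht1 hσ0 hσ1
    have hacb : ac + b < 1 := by
      have := abar_add_bbar_lt_one ht0 ht1 hσ0 hσ1
      rwa [← hac, hbb] at this
    have hch1 := At_children ht0 ht1 hσ0 hσ1
    have hch2 := At_children ht'0 ht'1 hσ'0 hσ'1
    rw [← hac, hbb] at hch1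
    rw [hapar, hbpar] at hch2
    have hAtt : At t' < At t := At_strictMono ht'0.le htt' ht1
    have haac : a ≤ ac := by
      by_contra hc
      push Not at hc
      have := At_diff_mono hac0 hc.le hb.le hab
      linarith
    have hT := T_step ha haac hb.le hacb hl
    have hS2 := S2 ht0 ht1 hσ0 hσ1
    rw [hleq, hbb] at hS2
    have hC := plane_contact (p := pp t σ) ht0 ht1
    have hbt : pp t σ * t = b := by
      rw [← bbar_eq ht0 ht1 hσ0 hσ1, hbb]
    rw [hleq, hbt] at hC
    have hPc := hP t ht0 ht1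
    rw [hC] at hPc
    rw [← hac] at hS2
    linarith

end Vale.Agent.Lib.P322B
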