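import Vale.Agent.Lib.P322B.Dual
import Vale.Agent.Lib.P322B.OneD

/-! # Module UL: upper and lower bounds for `Psi` from the one-dimensional facts `S_le`, `L_key`
(proved in `OneD.lean`). -/

namespace Vale.Agent.Lib.P322B

open Real Set

/-- The product `hh x * exp((CC x - c)/(2/3))` is antitone, by `S_le`. -/
private lemma H_anti (c : ℝ) :
    AntitoneOn (fun x => hh x * exp ((CC x - c) / (2 / 3))) (Ico 0 1) := by
  apply anti_of_hasDeriv (convex_Ico 0 1)
    (f' := fun x => exp ((CC x - c) / (2 / 3)) * (-At x + 3 / 2 * (hh x ^ 2 * kkD x)))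
  · apply ContinuousOn.mul continuous_hh.continuousOn
    apply ContinuousOn.rexp
    exact (continuousOn_CC.sub continuousOn_const).div_const _
  · intro x hx
    rw [interior_Ico] at hx
    have hAbs := abs_lt_of_Ioo hx.1 hx.2
    have h1 := hasDerivAt_hh hAbs
    have h2 := ((hasDerivAt_CC hx.1 hx.2).sub_const c).div_const (2 / 3 : ℝ)
    have h3 := h2.exp
    have h4 := h1.mul h3
    refine HasDerivAt.congr_deriv (f := fun x => hh x * exp ((CC x - c) / (2 / 3))) h4 ?_
    ring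
  · intro x hx
    rw [interior_Ico] at hx
    have hS := S_le hx.1 hx.2
    apply mul_nonpos_of_nonneg_of_nonpos (exp_pos _).le
    linarith

/-- Consequence of `S_le` by two monotonicity arguments. -/
lemma U_prime {τ₀ τ : ℝ} (h₀ : τ₀ ∈ Ico (0:ℝ) 1) (hτ : τ ∈ Ico (0:ℝ) 1) :
    2 / 3 * (exp ((CC τ - CC τ₀) / (2 / 3)) - 1) ≤ (kk τ - kk τ₀) * hh τ₀ := by
  set G : ℝ → ℝ := fun x => (kk x - kk τ₀) * hh τ₀ - 2 / 3 * (exp ((CC x - CC τ₀) / (2 / 3)) - 1) with hG
  have hG0 : G τ₀ = 0 := by simp [hG]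
  have hd : ∀ x, 0 < x → x < 1 →
      HasDerivAt G (kkD x * (hh τ₀ - hh x * exp ((CC x - CC τ₀) / (2 / 3)))) x := by
    intro x hx0 hx1
    have h1 := ((hasDerivAt_kk hx0 hx1).sub_const (kk τ₀)).mul_const (hh τ₀)
    have h2 := ((hasDerivAt_CC hx0 hx1).sub_const (CC τ₀)).div_const (2 / 3 : ℝ)
    have h3 := ((h2.exp).sub_const 1).const_mul (2 / 3 : ℝ)
    have h4 := h1.sub h3
    refine HasDerivAt.congr_deriv (f := G) h4 ?_
    field_simp
  have hcont : ContinuousOn G (Ico 0 1) := by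
    apply ContinuousOn.sub
    · exact (continuousOn_kk.sub continuousOn_const).mul continuousOn_const
    · apply ContinuousOn.mul continuousOn_const
      apply ContinuousOn.sub _ continuousOn_const
      apply ContinuousOn.rexp
      exact (continuousOn_CC.sub continuousOn_const).div_const _
  have hH := H_anti (CC τ₀)
  have hHτ₀ : hh τ₀ * exp ((CC τ₀ - CC τ₀) / (2 / 3)) = hh τ₀ := by simp
  have key : 0 ≤ G τ := by
    rcases le_total τ₀ τ with h | h
    · have hm : MonotoneOn G (Ico τ₀ 1) := by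
        apply mono_of_hasDeriv (convex_Ico τ₀ 1)
          (f' := fun x => kkD x * (hh τ₀ - hh x * exp ((CC x - CC τ₀) / (2 / 3))))
        · exact hcont.mono (fun x hx => ⟨le_trans h₀.1 hx.1, hx.2⟩)
        · intro x hx
          rw [interior_Ico] at hx
          exact hd x (lt_of_le_of_lt h₀.1 hx.1) hx.2
        · intro x hx
          rw [interior_Ico] at hx
          have hx0 : 0 < x := lt_of_le_of_lt h₀.1 hx.1
          apply mul_nonneg (kkD_nonneg hx0 hx.2)
          have := hH (a := τ₀) (b := x) h₀ ⟨hx0.le, hx.2⟩ hx.1.le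
          simp only at this
          rw [hHτ₀] at this
          linarith
      have := hm (left_mem_Ico.mpr h₀.2) (mem_Ico.mpr ⟨h, hτ.2⟩) h
      rwa [hG0] at this
    · have hm : AntitoneOn G (Icc 0 τ₀) := by
        apply anti_of_hasDeriv (convex_Icc 0 τ₀)
          (f' := fun x => kkD x * (hh τ₀ - hh x * exp ((CC x - CC τ₀) / (2 / 3))))
        · exact hcont.mono (fun x hx => ⟨hx.1, lt_of_le_of_lt hx.2 h₀.2⟩)
        · intro x hx
          rw [interior_Icc] at hx
          exact hd x hx.1 (lt_trans hx.2 h₀.2)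
        · intro x hx
          rw [interior_Icc] at hx
          have hx1 : x < 1 := lt_trans hx.2 h₀.2
          apply mul_nonpos_of_nonneg_of_nonpos (kkD_nonneg hx.1 hx1)
          have := hH (a := x) (b := τ₀) ⟨hx.1.le, hx1⟩ h₀ hx.2.le
          simp only at this
          rw [hHτ₀] at this
          linarith
      have := hm (mem_Icc.mpr ⟨hτ.1, h⟩) (right_mem_Icc.mpr h₀.1) h
      rwa [hG0] at this
  simp only [hG] at key
  linarith

/-- Young's inequality in the form used below. -/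
private lemma young {c m m₀ : ℝ} (hm : 0 < m) (hm₀ : 0 < m₀) :
    c * m - m₀ * (exp c - 1) ≤ m * log (m / m₀) - m + m₀ := by
  have hz : 0 < exp c * m₀ / m := by positivity
  have h1 := log_le_sub_one_of_pos hz
  rw [log_div (by positivity) hm.ne', log_mul (exp_pos c).ne' hm₀.ne', log_exp] at h1
  have h2 := mul_le_mul_of_nonneg_left h1 hm.le
  have e : m * (exp c * m₀ / m - 1) = exp c * m₀ - m := by
    field_simp
  rw [e] at h2
  rw [log_div hm.ne' hm₀.ne']
  nlinarith

/-- Semi-concavity of `Psi` in `m`: the graph lies below the `x log x` parabola at each base point. -/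
lemma U_bound {m m₀ l : ℝ} (hm : 0 < m) (hm₀ : 0 < m₀) (hl : 0 < l) :
    Psi m l ≤ Psi m₀ l + CC (tauY (l / m₀)) * (m - m₀)
      + 2 / 3 * (m * log (m / m₀) - m + m₀) := by
  unfold Psi
  set τ := tauY (l / m) with hτ
  set τ₀ := tauY (l / m₀) with hτ₀
  have hτm : τ ∈ Ico (0:ℝ) 1 := tauY_mem _
  have hτ₀m : τ₀ ∈ Ico (0:ℝ) 1 := tauY_mem _
  have hU := U_prime hτ₀m hτm
  have hkey : m₀ * ((kk τ - kk τ₀) * hh τ₀) ≤ (kk τ - kk τ₀) * l := by
    rcases lt_or_ge (l / m₀) (log 2) with h | h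
    · obtain ⟨_, h2⟩ := tauY_spec (div_pos hl hm₀) h
      rw [← hτ₀] at h2
      rw [h2]
      apply le_of_eq
      field_simp
    · have h0 : τ₀ = 0 := tauY_floor h
      have hk : 0 ≤ kk τ := kk_nonneg hτm.1 hτm.2
      rw [h0, hh_zero, kk_zero, sub_zero]
      rw [le_div_iff₀ hm₀] at h
      have : kk τ * (log 2 * m₀) ≤ kk τ * l := mul_le_mul_of_nonneg_left h hk
      linarith
  have hy := young (c := (CC τ - CC τ₀) / (2 / 3)) hm hm₀
  have h3 : m₀ * (2 / 3 * (exp ((CC τ - CC τ₀) / (2 / 3)) - 1)) ≤ m₀ * ((kk τ - kk τ₀) * hh τ₀) :=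
    mul_le_mul_of_nonneg_left hU hm₀.le
  have e : (CC τ - CC τ₀) = 2 / 3 * ((CC τ - CC τ₀) / (2 / 3)) := by ring
  nlinarith

/-- Base point `1`, `l = hh t`. -/
lemma Psi_upper {t v : ℝ} (h0 : 0 < t) (h1 : t < 1) (hv : 0 < v) :
    Psi v (hh t) ≤ Xi t + CC t * (v - 1) + 2 / 3 * rhoF v := by
  have hh1 := hh_pos (abs_lt_of_Ioo h0 h1)
  have hU := U_bound hv one_pos hh1
  rw [div_one, tauY_hh h0 h1, div_one] at hU
  have hP : Psi 1 (hh t) = Xi t := by
    have := Psi_eq h0 h1 one_pos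
    simpa using this
  rw [hP] at hU
  unfold rhoF
  linarith

/-- Lower bound from `L_key`. -/
lemma Psi_lower {m l : ℝ} (hl : 0 < l) (h : l ≤ m * log 2) :
    (m * log (m * log 2 / l) - m + l / log 2) / 2 ≤ Psi m l := by
  have hL : 0 < log 2 := log_two_pos'
  have hm : 0 < m := by
    by_contra hc
    push Not at hc
    have : m * log 2 ≤ 0 := mul_nonpos_of_nonpos_of_nonneg hc hL.le
    linarith
  rcases h.eq_or_lt with he | hlt
  · rw [Psi_floor hm he.ge, he]
    have e1 : m * log 2 / (m * log 2) = 1 := div_self (by positivity)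
    have e2 : m * log 2 / log 2 = m := by field_simp
    rw [e1, e2, log_one]
    norm_num
  · have hy0 : 0 < l / m := div_pos hl hm
    have hy1 : l / m < log 2 := by
      rw [div_lt_iff₀ hm]; linarith
    obtain ⟨⟨hτ0, hτ1⟩, hτ⟩ := tauY_spec hy0 hy1
    set τ := tauY (l / m) with hτdef
    have hle : l = m * hh τ := by
      rw [hτ]; field_simp
    have hP : Psi m l = m * Xi τ := by
      rw [hle]
      exact Psi_eq hτ0 hτ1 hm
    rw [hP]
    have hK := L_key hτ0 hτ1
    have e : m * log 2 / l = log 2 / hh τ := by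
      rw [hτ]; field_simp
    have e2 : l / log 2 = m * (hh τ / log 2) := by
      rw [hle]; ring
    rw [e, e2]
    have := mul_le_mul_of_nonneg_left hK hm.le
    nlinarith

/-- The supporting line at `m₀`. -/
private lemma support {m m₀ l : ℝ} (hm : 0 < m) (hm₀ : 0 < m₀) (hl : 0 < l) :
    (2 / 3 * (log m₀ + 1) - CC (tauY (l / m₀))) * (m - m₀) ≤
      (2 / 3 * (m * log m) - Psi m l) - (2 / 3 * (m₀ * log m₀) - Psi m₀ l) := by
  have h := U_bound hm hm₀ hl
  rw [log_div hm.ne' hm₀.ne'] at h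
  nlinarith

/-- Increment monotonicity: `x log x · 2/3 - Psi(x,l)` is convex in `x`, so its increments of
fixed length grow.  Points: `m₂ ≤ m₁`, `0 < m₂ - D`, `0 ≤ D`. -/
lemma Psi_increment {m₁ m₂ D l : ℝ} (hl : 0 < l) (hD : 0 ≤ D) (h2 : 0 < m₂ - D) (h12 : m₂ ≤ m₁) :
    (Psi m₁ l - Psi (m₁ - D) l) - (Psi m₂ l - Psi (m₂ - D) l) ≤
      2 / 3 * ((m₁ * log m₁ - (m₁ - D) * log (m₁ - D)) - (m₂ * log m₂ - (m₂ - D) * log (m₂ - D))) := by
  set f : ℝ → ℝ := fun x => 2 / 3 * (x * log x) - Psi x l with hf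
  set s : ℝ → ℝ := fun x => 2 / 3 * (log x + 1) - CC (tauY (l / x)) with hs
  have hsup : ∀ {x y : ℝ}, 0 < x → 0 < y → s y * (x - y) ≤ f x - f y := by
    intro x y hx hy
    exact support hx hy hl
  have hmono : ∀ {x y : ℝ}, 0 < x → x ≤ y → s x ≤ s y := by
    intro x y hx hxy
    have hy : 0 < y := lt_of_lt_of_le hx hxy
    have h1 := hsup hy hx
    have h2 := hsup hx hy
    rcases hxy.eq_or_lt with rfl | hlt
    · exact le_rfl
    · have : (s x - s y) * (y - x) ≤ 0 := by nlinarith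
      have hyx : 0 < y - x := by linarith
      by_contra hc
      push Not at hc
      have : 0 < (s x - s y) * (y - x) := mul_pos (by linarith) hyx
      linarith
  have hm2 : 0 < m₂ := by linarith
  have hm1 : 0 < m₁ := by linarith
  have ha : 0 < m₂ - D := h2
  have hc : 0 < m₁ - D := by linarith
  have goal : f m₂ - f (m₂ - D) ≤ f m₁ - f (m₁ - D) := by
    rcases le_total m₂ (m₁ - D) with hb | hb
    · -- `m₂ - D ≤ m₂ ≤ m₁ - D ≤ m₁`
      have h1 := hsup ha hm2
      have h3 := hsup hm1 hc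
      have h4 : s m₂ ≤ s (m₁ - D) := hmono hm2 hb
      nlinarith
    · -- `m₂ - D ≤ m₁ - D ≤ m₂ ≤ m₁`
      have h1 := hsup ha hc
      have h3 := hsup hm1 hm2
      have h4 : s (m₁ - D) ≤ s m₂ := hmono hc hb
      have hδ : 0 ≤ m₁ - m₂ := by linarith
      nlinarith
  simp only [hf] at goal
  linarith

end Vale.Agent.Lib.P322B
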