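import Vale.Agent.Lib.P322B.UnbMain

/-! # Courtade-Kumar at all noise levels for functions of mean `|a| ≥ 3/10`. -/

namespace Vale.Agent.Lib.P322B

open Real Set Finset
open Vale.Agent.Lib.P322

lemma log_three_tenths : -(12047 / 10000 : ℝ) ≤ log (3 / 10) := by
  have h1 : log (10 / 3) = 2 * At (7 / 13) := by
    have := At_ratio (y := 10 / 3) (by norm_num)
    norm_num at this ⊢
    linarith
  have h2 := At_upper (t := 7 / 13) (by norm_num) (by norm_num)
  have h3 : log (3 / 10) = - log (10 / 3) := by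
    rw [← Real.log_inv]
    norm_num
  norm_num at h2
  rw [h3, h1]
  linarith

lemma PhiB_three_tenths : (84 / 100 : ℝ) ≤ PhiB (3 / 10) := by
  have hL : -(24094 / 10000 : ℝ) ≤ log ((3 / 10 : ℝ) ^ 2) := by
    rw [Real.log_pow]
    have := log_three_tenths
    push_cast
    linarith
  have := PhiB_lower (r := 3 / 10) (by norm_num) (by norm_num) hL
  norm_num at this ⊢
  linarith

lemma Ph_three_tenths : Ph (3 / 10) ≤ 45702 / 1000000 := by
  have := Ph_upper (t := 3 / 10) (by norm_num) (by norm_num)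
  norm_num at this ⊢
  linarith

section Flow

variable {l D : ℝ → ℝ} {a : ℝ}

/-- At correlation `3/10` the information is at most `ρ²/2` when `|a| ≥ 3/10`. -/
lemma flow_at_three_tenths (h : FlowData l D a) (ha : |a| < 1) (ha0 : 3 / 10 ≤ |a|) :
    hh a - l (7 / 20) ≤ 9 / 200 := by
  have hb := flow_barrier_PhiB h ha (7 / 20) ⟨by norm_num, by norm_num⟩
  have hI := If_nonneg ha
  have e1 : (1 - 2 * (7 / 20) : ℝ) = 3 / 10 := by norm_num
  rw [e1] at hb
  have hH : binEntropy (7 / 20) = hh (3 / 10) := by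
    rw [← hh_one_sub_two_mul (e := 7 / 20) (by norm_num) (by norm_num), e1]
  rw [hH] at hb
  have hΦ := PhiB_three_tenths
  have hP := Ph_three_tenths
  have hm : 0 < mm a := mm_pos_of_abs ha
  have hA1 : a ^ 2 < 1 := by
    have := abs_lt_one_pos ha
    nlinarith [this.1, this.2]
  have hA0 : 9 / 100 ≤ a ^ 2 := by
    have := pow_le_pow_left₀ (by norm_num) ha0 2
    rw [sq_abs] at this
    norm_num at this
    linarith
  have hPa := Ph_ge_half_sq ha
  have e4 : a ^ 4 = (a ^ 2) ^ 2 := by ring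
  rw [e4] at hPa
  have hl2 := Real.log_two_lt_d9
  have hl2' := Real.log_two_gt_d9
  have h1 : (hh a - mm a * log 2) * (1 - PhiB (3 / 10)) ≤ (hh a - mm a * log 2) * (16 / 100) :=
    mul_le_mul_of_nonneg_left (by linarith) hI
  have h2 : mm a * Ph (3 / 10) ≤ mm a * (45702 / 1000000) := mul_le_mul_of_nonneg_left hP hm.le
  have e5 : hh a - (mm a * hh (3 / 10) + (hh a - mm a * log 2) * PhiB (3 / 10)) =
      (hh a - mm a * log 2) * (1 - PhiB (3 / 10)) + mm a * Ph (3 / 10) := by
    unfold hh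
    ring
  have h3 : hh a - l (7 / 20) ≤
      (hh a - mm a * log 2) * (16 / 100) + mm a * (45702 / 1000000) := by
    linarith
  have h4 : hh a - mm a * log 2 ≤ (1 - mm a) * log 2 - a ^ 2 / 2 - (a ^ 2) ^ 2 / 12 := by
    unfold hh
    linarith
  have hmA : mm a = (1 - a ^ 2) * (1 - a ^ 2 / 8) := rfl
  set A := a ^ 2 with hA
  have hn : 0 ≤ 1 - mm a := by
    rw [hmA]
    nlinarith
  have h5 : (1 - mm a) * log 2 ≤ (1 - mm a) * (6931472 / 10000000) :=
    mul_le_mul_of_nonneg_left (by linarith) hn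
  rw [hmA] at h3 h4 h5
  nlinarith

/-- The inequality along the flow when `|a| ≥ 3/10`, at high noise. -/
theorem flow_high_noise (h : FlowData l D a) (ha : |a| < 1) (ha0 : 3 / 10 ≤ |a|) :
    ∀ e ∈ Icc (7 / 20 : ℝ) (1 / 2), hh a - l e ≤ log 2 - binEntropy e := by
  intro e he
  have h1 := flow_at_three_tenths h ha ha0
  have h2 := flow_ratio h (c := 7 / 20) (by norm_num) (by norm_num) e he
  have e1 : (1 - 2 * (7 / 20) : ℝ) = 3 / 10 := by norm_num
  rw [e1] at h2
  have h3 : (1 - 2 * e) ^ 2 * (hh a - l (7 / 20)) ≤ (1 - 2 * e) ^ 2 * (9 / 200) :=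
    mul_le_mul_of_nonneg_left h1 (sq_nonneg _)
  have h4 : hh a - l e ≤ (1 - 2 * e) ^ 2 / 2 := by
    norm_num at h2
    nlinarith
  have h5 : (1 - 2 * e) ^ 2 / 2 ≤ log 2 - binEntropy e := by
    rcases eq_or_lt_of_le he.2 with h6 | h6
    · rw [h6]
      have := binEntropy_le_log_two (p := 1 / 2)
      norm_num at this ⊢
      linarith
    · have he0 : 0 < e := by linarith [he.1]
      rw [← hh_one_sub_two_mul he0 h6]
      have := Ph_lower (t := 1 - 2 * e) (by linarith) (by linarith)
      have h7 : 0 ≤ (1 - 2 * e) ^ 4 := by positivity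
      unfold hh
      linarith
  linarith

end Flow

variable {n : ℕ}

lemma abs_meanS_lt (f : Cube n → Bool) {x₀ x₁ : Cube n} (hx₀ : f x₀ = false)
    (hx₁ : f x₁ = true) : |meanS f| < 1 := by
  have hg := indTrue_cases f
  have hg0 : indTrue f x₀ = 0 := by simp [indTrue, hx₀]
  have hg1 : indTrue f x₁ = 1 := by simp [indTrue, hx₁]
  have hs1 : ∀ y, |2 * noiseOp (1 / 4) (indTrue f) y - 1| < 1 := by
    intro y
    have := noiseOp_bounds hg hg0 hg1 (ε := 1 / 4) (by norm_num) (by norm_num) y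
    rw [abs_lt]
    constructor <;> linarith [this.1, this.2]
  have h := abs_avg_lt hs1
  have e1 : avg (fun y => 2 * noiseOp (1 / 4) (indTrue f) y - 1) = meanS f := by
    have := avg_sub (fun y => 2 * noiseOp (1 / 4) (indTrue f) y) (fun _ => (1:ℝ))
    rw [this, avg_const_mul, avg_const, avg_noiseOp, ← probTrue_eq]
    rfl
  rwa [e1] at h

/-- From the flow inequality to the Courtade-Kumar inequality in bits. -/
lemma ck_of_flow (f : Cube n → Bool) {x₀ x₁ : Cube n} (hx₀ : f x₀ = false)
    (hx₁ : f x₁ = true) {ε : ℝ} (h0 : 0 ≤ ε) (h1 : ε ≤ 1 / 2)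
    (H : hh (meanS f) - Hent (indTrue f) ε ≤ log 2 - binEntropy ε) :
    mutualInfoBits f ε ≤ 1 - h2 ε := by
  have hmi := mutualInfo_eq f h0 (by linarith)
  have hlog2 : 0 < log 2 := Real.log_pos (by norm_num)
  have hab := abs_meanS_lt f hx₀ hx₁
  have e1 : hh (meanS f) = binEntropy (probTrue f) := by
    rw [← ckh_eq hab]
    unfold ckh meanS
    congr 1
    ring
  rw [e1] at H
  have hI : mutualInfoBits f ε = (binEntropy (probTrue f) - Hent (indTrue f) ε) / log 2 := by
    rw [← hmi]
    field_simp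
  rw [hI, h2_eq]
  have e : 1 - binEntropy ε / log 2 = (log 2 - binEntropy ε) / log 2 := by
    field_simp
  rw [e]
  exact div_le_div_of_nonneg_right H hlog2.le

/-- The inequality for constant functions. -/
lemma ck_of_const (f : Cube n → Bool) (hc : (∀ x, f x = true) ∨ (∀ x, f x = false)) {ε : ℝ}
    (h0 : 0 ≤ ε) (h1 : ε ≤ 1 / 2) : mutualInfoBits f ε ≤ 1 - h2 ε := by
  have hmi := mutualInfo_eq f h0 (by linarith)
  have hlog2 : 0 < log 2 := Real.log_pos (by norm_num)
  have hp : binEntropy (probTrue f) = 0 := by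
    rcases hc with hc | hc
    · have : probTrue f = 1 := by
        unfold probTrue
        simp [hc, Finset.card_univ, Fintype.card_pi]
      rw [this, binEntropy_one]
    · have : probTrue f = 0 := by
        unfold probTrue
        simp [hc]
      rw [this, binEntropy_zero]
  have hu : ∀ y, 0 ≤ noiseOp ε (indTrue f) y ∧ noiseOp ε (indTrue f) y ≤ 1 := by
    intro y
    constructor
    · exact sum_nonneg (fun x _ => mul_nonneg (by unfold indTrue; split_ifs <;> norm_num)
        (noisePr_nonneg h0 (by linarith) x y))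
    · have h3 := noiseOp_one_sub ε (indTrue f) y
      have h4 : 0 ≤ noiseOp ε (fun x => 1 - indTrue f x) y :=
        sum_nonneg (fun x _ => mul_nonneg (by
          show 0 ≤ 1 - indTrue f x
          unfold indTrue; split_ifs <;> norm_num)
          (noisePr_nonneg h0 (by linarith) x y))
      linarith
  have hH : 0 ≤ Hent (indTrue f) ε := by
    unfold Hent
    apply avg_nonneg
    intro y
    exact binEntropy_nonneg (hu y).1 (hu y).2
  have hI : mutualInfoBits f ε ≤ 0 := by
    rw [hp] at hmi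
    have : mutualInfoBits f ε * log 2 ≤ 0 := by linarith
    by_contra hcon
    push Not at hcon
    have := mul_pos hcon hlog2
    linarith
  have hh2 : h2 ε ≤ 1 := by
    rw [h2_eq, div_le_one hlog2]
    exact binEntropy_le_log_two
  linarith

/-- The Courtade-Kumar inequality for every Boolean function at `ε ≤ 2/5`, and at every noise level
for every Boolean function with `|E f| ≥ 3/10` and for every balanced function. -/
theorem ck_partial (f : Cube n → Bool) {ε : ℝ} (h0 : 0 ≤ ε) (h1 : ε ≤ 1 / 2)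
    (hcase : ε ≤ 2 / 5 ∨ 3 / 10 ≤ |2 * probTrue f - 1| ∨ probTrue f = 1 / 2) :
    mutualInfoBits f ε ≤ 1 - h2 ε := by
  by_cases hc : (∀ x, f x = true) ∨ (∀ x, f x = false)
  · exact ck_of_const f hc h0 h1
  push Not at hc
  obtain ⟨⟨x₀, hx₀⟩, ⟨x₁, hx₁⟩⟩ := hc
  have hx₀' : f x₀ = false := by simpa using hx₀
  have hx₁' : f x₁ = true := by simpa using hx₁
  have hF := flowData_of_bool f hx₀' hx₁'
  have hab := abs_meanS_lt f hx₀' hx₁'
  rcases hcase with hc | hc | hc
  · exact ck_of_flow f hx₀' hx₁' h0 h1 (flow_large_rho hF hab ε ⟨h0, hc⟩)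
  · by_cases h7 : ε ≤ 2 / 5
    · exact ck_of_flow f hx₀' hx₁' h0 h1 (flow_large_rho hF hab ε ⟨h0, h7⟩)
    · push Not at h7
      exact ck_of_flow f hx₀' hx₁' h0 h1
        (flow_high_noise hF hab hc ε ⟨by linarith, h1⟩)
  · exact balanced_ck f hc h0 h1

end Vale.Agent.Lib.P322B
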