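import Vale.Agent.Lib.P322B.UnbAll

/-! # Sharper barrier: a chain of linear pieces near `ρ = 1` and a polynomial piece below. -/

namespace Vale.Agent.Lib.P322B

open Real Set Finset
open Vale.Agent.Lib.P322

section Chain

variable {l D : ℝ → ℝ} {a : ℝ}

lemma barrier_algebra {r w w' : ℝ} (h0 : 0 < r) (h1 : r < 1) :
    2 - (kk r + 2) * (2 * r * At r * w) +
      r * (2 * At r * w + 2 * r * (1 / (1 - r ^ 2)) * w + 2 * r * At r * w') =
      2 * (1 + r ^ 2 * At r * w') := by
  have hA := At_pos h0 h1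
  have hp := one_sub_sq_pos (abs_lt_of_Ioo h0 h1)
  rw [kk_eq h0.ne']
  field_simp
  ring

/-- The barrier in terms of a potential `W`. -/
theorem flow_chain (h : FlowData l D a) (hI : 0 ≤ hh a - mm a * log 2) {W W' : ℝ → ℝ} {ra rb : ℝ}
    (hra : 0 < ra) (hrb : rb < 1)
    (hstart : mm a * binEntropy ((1 - rb) / 2) +
      (hh a - mm a * log 2) * (2 * rb * At rb * W rb) ≤ l ((1 - rb) / 2))
    (hWc : ContinuousOn W (Icc ra rb))
    (hWd : ∀ r ∈ Ioo ra rb, HasDerivAt W (W' r) r)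
    (hB : ∀ r ∈ Ioo ra rb, 0 ≤ 1 + r ^ 2 * At r * W' r) :
    ∀ e ∈ Icc ((1 - rb) / 2) ((1 - ra) / 2),
      mm a * binEntropy e + (hh a - mm a * log 2) * (2 * (1 - 2 * e) * At (1 - 2 * e) *
        W (1 - 2 * e)) ≤ l e := by
  have e1 : ∀ x : ℝ, 1 - 2 * ((1 - x) / 2) = x := by intro x; ring
  refine flow_barrier h rfl hI (Φ := fun r => 2 * r * At r * W r)
    (Φ' := fun r => 2 * At r * W r + 2 * r * (1 / (1 - r ^ 2)) * W r +
      2 * r * At r * W' r) (c := (1 - rb) / 2) (b := (1 - ra) / 2)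
    (by linarith) (by linarith) ?_ ?_ ?_ ?_
  · simp only [e1]
    exact hstart
  · rw [e1, e1]
    apply ContinuousOn.mul _ hWc
    apply ContinuousOn.mul (by fun_prop)
    apply continuousOn_At'
    intro x hx
    exact abs_lt_of_Ioo (by linarith [hx.1]) (by linarith [hx.2])
  · intro r h1 h2
    rw [e1] at h1 h2
    have hA := hasDerivAt_At (abs_lt_of_Ioo (by linarith) (by linarith) : |r| < 1)
    have h3 : HasDerivAt (fun x : ℝ => 2 * x) 2 r := by
      simpa using (hasDerivAt_id r).const_mul (2:ℝ)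
    have h4 := (h3.mul hA).mul (hWd r ⟨h1, h2⟩)
    refine HasDerivAt.congr_deriv (f := fun r => 2 * r * At r * W r) h4 ?_
    simp only [Pi.mul_apply]
    ring
  · intro r h1 h2
    rw [e1] at h1 h2
    have h3 := barrier_algebra (w := W r) (w' := W' r) (r := r) (by linarith) (by linarith)
    rw [h3]
    have := hB r ⟨h1, h2⟩
    linarith

/-- A linear step of the chain. -/
lemma flow_linear_step (h : FlowData l D a) (hI : 0 ≤ hh a - mm a * log 2) {ra rb w w' v : ℝ}
    (hra : 0 < ra) (hab : ra ≤ rb) (hrb : rb < 1) (hv0 : 0 ≤ v) (hv : v * rb ^ 2 * At rb ≤ 1)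
    (hw' : w' ≤ w + v * (rb - ra))
    (hstart : mm a * binEntropy ((1 - rb) / 2) +
      (hh a - mm a * log 2) * (2 * rb * At rb * w) ≤ l ((1 - rb) / 2)) :
    mm a * binEntropy ((1 - ra) / 2) +
      (hh a - mm a * log 2) * (2 * ra * At ra * w') ≤ l ((1 - ra) / 2) := by
  have key := flow_chain h hI (W := fun r => w + v * (rb - r)) (W' := fun _ => -v) hra hrb
    (by simpa using hstart) (by fun_prop) ?_ ?_ ((1 - ra) / 2) ⟨by linarith, le_rfl⟩
  · have e1 : 1 - 2 * ((1 - ra) / 2) = ra := by ring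
    rw [e1] at key
    have hA := At_pos hra (by linarith)
    have h3 : (hh a - mm a * log 2) * (2 * ra * At ra * w') ≤
        (hh a - mm a * log 2) * (2 * ra * At ra * (w + v * (rb - ra))) := by
      apply mul_le_mul_of_nonneg_left _ hI
      apply mul_le_mul_of_nonneg_left hw' (by positivity)
    linarith
  · intro r hr
    have h1 := (((hasDerivAt_id r).const_sub rb).const_mul v).const_add w
    refine h1.congr_deriv ?_
    simp
  · intro r hr
    have hr0 : 0 < r := by linarith [hr.1]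
    have hr1 : r < rb := hr.2
    have hA0 := At_pos hr0 (by linarith)
    have hmono : At r ≤ At rb := by
      exact (At_strictMono hr0.le hr1 hrb).le
    have h2 : r ^ 2 ≤ rb ^ 2 := pow_le_pow_left₀ hr0.le hr1.le 2
    have h3 : r ^ 2 * At r ≤ rb ^ 2 * At rb :=
      mul_le_mul h2 hmono hA0.le (by positivity)
    have h4 := mul_le_mul_of_nonneg_left h3 hv0
    nlinarith

lemma At_pow_two (k : ℕ) : At (((2:ℝ) ^ k - 1) / ((2:ℝ) ^ k + 1)) = k / 2 * log 2 := by
  rw [At_ratio (by positivity), Real.log_pow]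
  ring

/-- The top part of the chain, from `ρ = 4095/4097` down to `ρ = 31/33`. -/
lemma chain_top (h : FlowData l D a) (hI : 0 ≤ hh a - mm a * log 2) :
    mm a * binEntropy ((1 - 31 / 33) / 2) +
      (hh a - mm a * log 2) * (2 * (31 / 33) * At (31 / 33) * (2671 / 100000)) ≤
        l ((1 - 31 / 33) / 2) := by
  have hl2 := Real.log_two_lt_d9
  have hfl := flow_floor h hI
  have s12 : mm a * binEntropy ((1 - 4095/4097) / 2) +
      (hh a - mm a * log 2) * (2 * (4095/4097) * At (4095/4097) * 0) ≤ l ((1 - 4095/4097) / 2) := by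
    have := hfl ((1 - 4095/4097) / 2) ⟨by norm_num, by norm_num⟩
    simpa using this
  have A12 : At (4095/4097) = 12 / 2 * log 2 := by
    have := At_pow_two 12
    norm_num at this ⊢
    exact this
  have s11 := flow_linear_step h hI (ra := 2047/2049) (rb := 4095/4097) (w := 0) (w' := 11/100000)
    (v := 24/100) (by norm_num) (by norm_num) (by norm_num) (by norm_num)
    (by rw [A12]; norm_num; linarith) (by norm_num) s12
  have A11 : At (2047/2049) = 11 / 2 * log 2 := by
    have := At_pow_two 11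
    norm_num at this ⊢
    exact this
  have s10 := flow_linear_step h hI (ra := 1023/1025) (rb := 2047/2049) (w := 11/100000) (w' := 36/100000)
    (v := 262/1000) (by norm_num) (by norm_num) (by norm_num) (by norm_num)
    (by rw [A11]; norm_num; linarith) (by norm_num) s11
  have A10 : At (1023/1025) = 10 / 2 * log 2 := by
    have := At_pow_two 10
    norm_num at this ⊢
    exact this
  have s9 := flow_linear_step h hI (ra := 511/513) (rb := 1023/1025) (w := 36/100000) (w' := 92/100000)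
    (v := 289/1000) (by norm_num) (by norm_num) (by norm_num) (by norm_num)
    (by rw [A10]; norm_num; linarith) (by norm_num) s10
  have A9 : At (511/513) = 9 / 2 * log 2 := by
    have := At_pow_two 9
    norm_num at this ⊢
    exact this
  have s8 := flow_linear_step h hI (ra := 255/257) (rb := 511/513) (w := 92/100000) (w' := 217/100000)
    (v := 323/1000) (by norm_num) (by norm_num) (by norm_num) (by norm_num)
    (by rw [A9]; norm_num; linarith) (by norm_num) s9
  have A8 : At (255/257) = 8 / 2 * log 2 := by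
    have := At_pow_two 8
    norm_num at this ⊢
    exact this
  have s7 := flow_linear_step h hI (ra := 127/129) (rb := 255/257) (w := 217/100000) (w' := 499/100000)
    (v := 366/1000) (by norm_num) (by norm_num) (by norm_num) (by norm_num)
    (by rw [A8]; norm_num; linarith) (by norm_num) s8
  have A7 : At (127/129) = 7 / 2 * log 2 := by
    have := At_pow_two 7
    norm_num at this ⊢
    exact this
  have s6 := flow_linear_step h hI (ra := 63/65) (rb := 127/129) (w := 499/100000) (w' := 1147/100000)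
    (v := 425/1000) (by norm_num) (by norm_num) (by norm_num) (by norm_num)
    (by rw [A7]; norm_num; linarith) (by norm_num) s7
  have A6 : At (63/65) = 6 / 2 * log 2 := by
    have := At_pow_two 6
    norm_num at this ⊢
    exact this
  have s5 := flow_linear_step h hI (ra := 31/33) (rb := 63/65) (w := 1147/100000) (w' := 2671/100000)
    (v := 511/1000) (by norm_num) (by norm_num) (by norm_num) (by norm_num)
    (by rw [A6]; norm_num; linarith) (by norm_num) s6
  exact s5

end Chain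

/-- Polynomial lower bound of `ρ / At ρ`, degree five in `u = ρ²`. -/
noncomputable def Q4 (u : ℝ) : ℝ :=
  1 - u / 3 - 4 / 45 * u ^ 2 - 44 / 945 * u ^ 3 - 428 / 14175 * u ^ 4 - 29 / 250 * u ^ 5

lemma Q4_pos {u : ℝ} (h0 : 0 ≤ u) (h1 : u ≤ 961 / 1089) : 0 < Q4 u := by
  unfold Q4
  have h2 : u ^ 2 ≤ (961 / 1089) ^ 2 := pow_le_pow_left₀ h0 h1 2
  have h3 : u ^ 3 ≤ (961 / 1089) ^ 3 := pow_le_pow_left₀ h0 h1 3
  have h4 : u ^ 4 ≤ (961 / 1089) ^ 4 := pow_le_pow_left₀ h0 h1 4
  have h5 : u ^ 5 ≤ (961 / 1089) ^ 5 := pow_le_pow_left₀ h0 h1 5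
  norm_num at h2 h3 h4 h5
  linarith

lemma Q4_key {u : ℝ} (h0 : 0 ≤ u) (h1 : u ≤ 961 / 1089) :
    Q4 u ^ 2 ≤ (Q4 u + 2 * u * (1 / 3 + 8 / 45 * u + 44 / 315 * u ^ 2 + 1712 / 14175 * u ^ 3 +
      29 / 50 * u ^ 4)) * (1 - u) := by
  have h2 : u ^ 2 ≤ (961 / 1089) ^ 2 := pow_le_pow_left₀ h0 h1 2
  have h3 : u ^ 3 ≤ (961 / 1089) ^ 3 := pow_le_pow_left₀ h0 h1 3
  have h4 : u ^ 4 ≤ (961 / 1089) ^ 4 := pow_le_pow_left₀ h0 h1 4
  have h5 : u ^ 5 ≤ (961 / 1089) ^ 5 := pow_le_pow_left₀ h0 h1 5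
  have hb : 0 ≤ 440659 / 425250 - 3360361 / 2976750 * u - 1569532 / 66976875 * u ^ 2
      - 470732 / 40186125 * u ^ 3 - 12412 / 1771875 * u ^ 4 - 841 / 62500 * u ^ 5 := by
    norm_num at h2 h3 h4 h5 ⊢
    linarith
  have hp : 0 ≤ u ^ 5 := by positivity
  have := mul_nonneg hp hb
  have e : (Q4 u + 2 * u * (1 / 3 + 8 / 45 * u + 44 / 315 * u ^ 2 + 1712 / 14175 * u ^ 3 +
      29 / 50 * u ^ 4)) * (1 - u) - Q4 u ^ 2 = u ^ 5 * (440659 / 425250 - 3360361 / 2976750 * u -
      1569532 / 66976875 * u ^ 2 - 470732 / 40186125 * u ^ 3 - 12412 / 1771875 * u ^ 4 -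
      841 / 62500 * u ^ 5) := by
    unfold Q4
    ring
  linarith

/-- The key inequality `Q(ρ²) At ρ ≤ ρ`. -/
lemma Q4_At_le {r : ℝ} (h0 : 0 ≤ r) (h1 : r ≤ 31 / 33) : Q4 (r ^ 2) * At r ≤ r := by
  have hu : ∀ x ∈ Icc (0:ℝ) (31 / 33), 0 ≤ x ^ 2 ∧ x ^ 2 ≤ 961 / 1089 := by
    intro x hx
    constructor
    · positivity
    · have := pow_le_pow_left₀ hx.1 hx.2 2
      norm_num at this
      linarith
  have hQ : ∀ x ∈ Icc (0:ℝ) (31 / 33), 0 < Q4 (x ^ 2) :=
    fun x hx => Q4_pos (hu x hx).1 (hu x hx).2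
  have hm : MonotoneOn (fun x => x / Q4 (x ^ 2) - At x) (Icc 0 (31 / 33)) := by
    apply mono_of_hasDeriv (convex_Icc _ _)
      (f' := fun x => (Q4 (x ^ 2) + 2 * x ^ 2 * (1 / 3 + 8 / 45 * x ^ 2 + 44 / 315 * (x ^ 2) ^ 2 +
        1712 / 14175 * (x ^ 2) ^ 3 + 29 / 50 * (x ^ 2) ^ 4)) / Q4 (x ^ 2) ^ 2 - 1 / (1 - x ^ 2))
    · apply ContinuousOn.sub
      · apply ContinuousOn.div continuousOn_id
        · unfold Q4; fun_prop
        · intro x hx; exact (hQ x hx).ne'
      · apply continuousOn_At'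
        intro x hx
        exact abs_lt_of_Ico hx.1 (by linarith [hx.2])
    · intro x hx
      rw [interior_Icc] at hx
      have hx' : x ∈ Icc (0:ℝ) (31 / 33) := ⟨hx.1.le, hx.2.le⟩
      have hQd : HasDerivAt (fun x : ℝ => Q4 (x ^ 2))
          (-(2 * x * (1 / 3 + 8 / 45 * x ^ 2 + 44 / 315 * (x ^ 2) ^ 2 +
        1712 / 14175 * (x ^ 2) ^ 3 + 29 / 50 * (x ^ 2) ^ 4))) x := by
        unfold Q4
        have h1 := hasDerivAt_pow 2 x
        have h2 := h1.div_const 3
        have h3 := (h1.pow 2).const_mul (4 / 45 : ℝ)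
        have h4 := (h1.pow 3).const_mul (44 / 945 : ℝ)
        have h5 := (h1.pow 4).const_mul (428 / 14175 : ℝ)
        have h6 := (h1.pow 5).const_mul (29 / 250 : ℝ)
        have := ((((h2.const_sub 1).sub h3).sub h4).sub h5).sub h6
        refine this.congr_deriv ?_
        norm_num
        ring
      have hdiv := (hasDerivAt_id x).div hQd (hQ x hx').ne'
      have hA := hasDerivAt_At (abs_lt_of_Ioo hx.1 (by linarith [hx.2]))
      refine (hdiv.sub hA).congr_deriv ?_
      simp only [id]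
      congr 1
      congr 1
      ring
    · intro x hx
      rw [interior_Icc] at hx
      have hx' : x ∈ Icc (0:ℝ) (31 / 33) := ⟨hx.1.le, hx.2.le⟩
      have hQ2 := hQ x hx'
      have hub := hu x hx'
      have h1x : 0 < 1 - x ^ 2 := by linarith [hub.2]
      rw [sub_nonneg, div_le_div_iff₀ h1x (by positivity), one_mul]
      have := Q4_key hub.1 hub.2
      linarith
  have hr : r ∈ Icc (0:ℝ) (31 / 33) := ⟨h0, h1⟩
  have h3 := hm (left_mem_Icc.mpr (by norm_num)) hr h0
  simp only [At_zero, zero_div, sub_zero] at h3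
  have hQ2 := hQ r hr
  have h4 : At r ≤ r / Q4 (r ^ 2) := by linarith
  rw [le_div_iff₀ hQ2] at h4
  linarith

/-- The potential below `ρ = 31/33`. -/
noncomputable def Wh4 (r : ℝ) : ℝ :=
  1 / (2 * r ^ 2) + 1 / 3 * log r + 2 / 45 * r ^ 2 + 11 / 945 * r ^ 4 + 214 / 42525 * r ^ 6 +
    29 / 2000 * r ^ 8 - 5796 / 10000

lemma hasDerivAt_Wh4 {r : ℝ} (h0 : 0 < r) : HasDerivAt Wh4 (-(Q4 (r ^ 2) / r ^ 3)) r := by
  unfold Wh4
  have hr : r ≠ 0 := h0.ne'
  have h1 : HasDerivAt (fun x : ℝ => 1 / (2 * x ^ 2)) (-(1 / r ^ 3)) r := by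
    have h2 : HasDerivAt (fun x : ℝ => 2 * x ^ 2) (2 * (2 * r)) r := by
      have := (hasDerivAt_pow 2 r).const_mul (2:ℝ)
      simpa using this
    have h3 := (hasDerivAt_const r (1:ℝ)).div h2 (by positivity)
    refine h3.congr_deriv ?_
    field_simp
    ring
  have h4 := (Real.hasDerivAt_log hr).const_mul (1 / 3 : ℝ)
  have h5 := (hasDerivAt_pow 2 r).const_mul (2 / 45 : ℝ)
  have h6 := (hasDerivAt_pow 4 r).const_mul (11 / 945 : ℝ)
  have h7 := (hasDerivAt_pow 6 r).const_mul (214 / 42525 : ℝ)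
  have h8 := (hasDerivAt_pow 8 r).const_mul (29 / 2000 : ℝ)
  have h9 := (((((h1.add h4).add h5).add h6).add h7).add h8).sub_const (5796 / 10000 : ℝ)
  refine h9.congr_deriv ?_
  unfold Q4
  field_simp
  ring

lemma Wh4_start : Wh4 (31 / 33) ≤ 2671 / 100000 := by
  unfold Wh4
  have h1 : (2 * (1 / 32 + (1 / 32) ^ 3 / 3) : ℝ) ≤ log (33 / 31) := by
    have := log_lower (y := 33 / 31) (by norm_num)
    norm_num at this ⊢
    have h5 : (0:ℝ) ≤ (1 / 32) ^ 5 / 5 := by positivity
    linarith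
  have h2 : log (31 / 33) = - log (33 / 31) := by
    rw [← Real.log_inv]
    norm_num
  rw [h2]
  norm_num at h1 ⊢
  linarith

/-- Positivity of the potential on the relevant range. -/
lemma Wh4_nonneg {r : ℝ} (h0 : 0 < r) (h1 : r ≤ 17 / 25) : 0 ≤ Wh4 r := by
  unfold Wh4
  have hu : r ^ 2 ≤ 289 / 625 := by
    have := pow_le_pow_left₀ h0.le h1 2
    norm_num at this
    linarith
  have hu0 : 0 < r ^ 2 := by positivity
  have hlog : log r = (1 / 2) * log (r ^ 2) := by
    rw [Real.log_pow]; push_cast; ring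
  have hl2 : 1 - 1 / r ^ 2 ≤ log (r ^ 2) := by
    have := Real.one_sub_inv_le_log_of_pos hu0
    simpa [one_div] using this
  have hinv : 625 / 289 ≤ 1 / r ^ 2 := by
    rw [div_le_div_iff₀ (by norm_num) hu0]
    linarith
  have e : 1 / (2 * r ^ 2) = (1 / 2) * (1 / r ^ 2) := by
    field_simp
  rw [e, hlog]
  have h4 : 0 ≤ r ^ 4 := by positivity
  have h6 : 0 ≤ r ^ 6 := by positivity
  have h8 : 0 ≤ r ^ 8 := by positivity
  nlinarith

/-- The barrier shape below `ρ = 31/33`. -/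
noncomputable def PhiC (r : ℝ) : ℝ := 2 * r * At r * Wh4 r

lemma PhiC_lower {r L : ℝ} (h0 : 0 < r) (h1 : r ≤ 17 / 25) (hL : L ≤ log (r ^ 2)) :
    (1 + r ^ 2 / 3 + (r ^ 2) ^ 2 / 5) * (1 + r ^ 2 * (L / 3 + 4 / 45 * r ^ 2 - 5796 / 5000)) ≤
      PhiC r := by
  have hr1 : r < 1 := by linarith
  have hW := Wh4_nonneg h0 h1
  have hA : r + r ^ 3 / 3 + r ^ 5 / 5 ≤ At r := by
    have := At_lower h0.le hr1
    have h7 : 0 ≤ r ^ 7 := by positivity
    have h9 : 0 ≤ r ^ 9 := by positivity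
    linarith
  have hu : 0 < r ^ 2 := by positivity
  have h2 : 2 * r * (r + r ^ 3 / 3 + r ^ 5 / 5) * Wh4 r ≤ PhiC r := by
    unfold PhiC
    apply mul_le_mul_of_nonneg_right _ hW
    apply mul_le_mul_of_nonneg_left hA (by positivity)
  have h3 : 1 + r ^ 2 * (L / 3 + 4 / 45 * r ^ 2 - 5796 / 5000) ≤ 2 * r ^ 2 * Wh4 r := by
    unfold Wh4
    have hlog : log r = (1 / 2) * log (r ^ 2) := by
      rw [Real.log_pow]; push_cast; ring
    have e : 2 * r ^ 2 * (1 / (2 * r ^ 2) + 1 / 3 * log r + 2 / 45 * r ^ 2 + 11 / 945 * r ^ 4 +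
        214 / 42525 * r ^ 6 + 29 / 2000 * r ^ 8 - 5796 / 10000)
        = 1 + r ^ 2 * (log (r ^ 2) / 3 + 4 / 45 * r ^ 2 + 22 / 945 * r ^ 4 + 428 / 42525 * r ^ 6 +
          29 / 1000 * r ^ 8 - 5796 / 5000) := by
      rw [hlog]
      field_simp
      ring
    rw [e]
    have h6 : 0 ≤ r ^ 2 * (r ^ 4 * (22 / 945) + r ^ 6 * (428 / 42525) + r ^ 8 * (29 / 1000)) := by
      positivity
    have h7 := mul_le_mul_of_nonneg_left hL hu.le
    nlinarith
  have e2 : 2 * r * (r + r ^ 3 / 3 + r ^ 5 / 5) * Wh4 r =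
      (1 + r ^ 2 / 3 + (r ^ 2) ^ 2 / 5) * (2 * r ^ 2 * Wh4 r) := by ring
  rw [e2] at h2
  have h8 := mul_le_mul_of_nonneg_left h3 (by positivity : 0 ≤ 1 + r ^ 2 / 3 + (r ^ 2) ^ 2 / 5)
  linarith

lemma log_seven_fifths : (33647 / 100000 : ℝ) ≤ log (7 / 5) := by
  have := log_lower (y := 7 / 5) (by norm_num)
  norm_num at this ⊢
  linarith

/-- The one dimensional inequality behind the range `ρ ≥ 7/40`. -/
lemma final_1d_C {r : ℝ} (h0 : 7 / 40 ≤ r) (h1 : r ≤ 17 / 25) :
    (log 2 - 4 / 9) * (1 - PhiC r) ≤ Ph r := by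
  have hr0 : 0 < r := by linarith
  have hr1 : r < 1 := by linarith
  have hu0 : (49 / 1600 : ℝ) ≤ r ^ 2 := by
    have := pow_le_pow_left₀ (by norm_num) h0 2
    norm_num at this
    linarith
  have hu1 : r ^ 2 ≤ 289 / 625 := by
    have := pow_le_pow_left₀ hr0.le h1 2
    norm_num at this
    linarith
  have hP := Ph_lower hr0.le hr1
  have e4 : r ^ 4 = (r ^ 2) ^ 2 := by ring
  rw [e4] at hP
  have hlow : ∀ L : ℝ, L ≤ log (r ^ 2) → _ := fun L hL => PhiC_lower hr0 h1 hL
  set u := r ^ 2 with hu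
  have hl2 := Real.log_two_lt_d9
  have hl2' := Real.log_two_gt_d9
  have hPpos : 0 ≤ Ph r := by
    have : 0 ≤ (u : ℝ) ^ 2 := by positivity
    linarith
  by_cases hneg : 1 - PhiC r ≤ 0
  · have : (log 2 - 4 / 9) * (1 - PhiC r) ≤ 0 :=
      mul_nonpos_of_nonneg_of_nonpos (by linarith) hneg
    linarith
  push Not at hneg
  have h2 : (log 2 - 4 / 9) * (1 - PhiC r) ≤ (24871 / 100000) * (1 - PhiC r) :=
    mul_le_mul_of_nonneg_right (by linarith) hneg.le
  have hu00 : 0 < u := by linarith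
  have hu2 : 0 < u ^ 2 := by positivity
  have hu4 : 0 < u ^ 4 := by positivity
  by_cases hc : u ≤ 1 / 25
  · -- first cell
    have hL : -(34861 / 10000 : ℝ) ≤ log u := by
      have h6 : log (49 / 1600) ≤ log u := Real.log_le_log (by norm_num) hu0
      have h7 : log (49 / 1600 : ℝ) = 2 * (log (7 / 5) - 3 * log 2) := by
        have e5 : (49 / 1600 : ℝ) = ((7 / 5) / 2 ^ 3) ^ 2 := by norm_num
        rw [e5, Real.log_pow, Real.log_div (by norm_num) (by norm_num), Real.log_pow]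
        norm_num
      rw [h7] at h6
      have := log_seven_fifths
      linarith
    have h3 := hlow _ hL
    have h4 : (24871 / 100000) * (1 - (1 + u / 3 + u ^ 2 / 5) *
        (1 + u * (-(34861 / 10000) / 3 + 4 / 45 * u - 5796 / 5000))) ≤ u / 2 + u ^ 2 / 12 := by
      have key : 0 ≤ u * (55 / 10000 - 42 / 1000 * u) := by
        apply mul_nonneg hu00.le
        linarith
      have key2 : 0 ≤ u ^ 2 * (1 / 25 - u) := by
        apply mul_nonneg hu2.le
        linarith
      nlinarith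
    have h5 := mul_le_mul_of_nonneg_left h3 (by norm_num : (0:ℝ) ≤ 24871 / 100000)
    linarith
  push Not at hc
  by_cases hc2 : u ≤ 1 / 16
  · have hL : -(3219 / 1000 : ℝ) ≤ log u := by
      have h5 := log_five_le
      have h6 : log (1 / 25) ≤ log u := Real.log_le_log (by norm_num) hc.le
      have h7 : log (1 / 25 : ℝ) = - (2 * log 5) := by
        rw [one_div, Real.log_inv, show (25:ℝ) = 5 ^ 2 by norm_num, Real.log_pow]
        norm_num
      rw [h7] at h6
      linarith
    have h3 := hlow _ hL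
    have h4 : (24871 / 100000) * (1 - (1 + u / 3 + u ^ 2 / 5) *
        (1 + u * (-(3219 / 1000) / 3 + 4 / 45 * u - 5796 / 5000))) ≤ u / 2 + u ^ 2 / 12 := by
      have key : 0 ≤ u * (27 / 1000 - 36 / 1000 * u) := by
        apply mul_nonneg hu00.le
        linarith
      have key2 : 0 ≤ u ^ 2 * (1 / 16 - u) := by
        apply mul_nonneg hu2.le
        linarith
      nlinarith
    have h5 := mul_le_mul_of_nonneg_left h3 (by norm_num : (0:ℝ) ≤ 24871 / 100000)
    linarith
  · push Not at hc2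
    have hL : -(27726 / 10000 : ℝ) ≤ log u := by
      have h6 : log (1 / 16) ≤ log u := Real.log_le_log (by norm_num) hc2.le
      have h7 : log (1 / 16 : ℝ) = - (4 * log 2) := by
        rw [one_div, Real.log_inv, show (16:ℝ) = 2 ^ 4 by norm_num, Real.log_pow]
        norm_num
      rw [h7] at h6
      linarith
    have h3 := hlow _ hL
    have h4 : (24871 / 100000) * (1 - (1 + u / 3 + u ^ 2 / 5) *
        (1 + u * (-(27726 / 10000) / 3 + 4 / 45 * u - 5796 / 5000))) ≤ u / 2 + u ^ 2 / 12 := by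
      have key : 0 ≤ u * (64 / 1000 - 64 / 1000 * u) := by
        apply mul_nonneg hu00.le
        nlinarith
      have key2 : 0 ≤ u ^ 2 * (289 / 625 - u) := by
        apply mul_nonneg hu2.le
        linarith
      nlinarith
    have h5 := mul_le_mul_of_nonneg_left h3 (by norm_num : (0:ℝ) ≤ 24871 / 100000)
    linarith

section Chain2

variable {l D : ℝ → ℝ} {a : ℝ}

/-- The bound produced by the full chain, valid on `ε ∈ [1/33, 33/80]`. -/
lemma flow_barrier_PhiC (h : FlowData l D a) (ha : |a| < 1) :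
    ∀ e ∈ Icc (1 / 33 : ℝ) (33 / 80),
      mm a * binEntropy e + (hh a - mm a * log 2) * PhiC (1 - 2 * e) ≤ l e := by
  have hI := If_nonneg ha
  have key := flow_chain h hI (W := Wh4) (W' := fun r => -(Q4 (r ^ 2) / r ^ 3))
    (ra := 7 / 40) (rb := 31 / 33) (by norm_num) (by norm_num) ?_ ?_ ?_ ?_
  · intro e he
    have := key e ⟨by norm_num at he ⊢; linarith [he.1], by norm_num at he ⊢; linarith [he.2]⟩
    exact this
  · have h1 := chain_top h hI
    have hA : 0 < 2 * (31 / 33) * At (31 / 33) := by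
      have := At_pos (t := 31 / 33) (by norm_num) (by norm_num)
      positivity
    have h2 := mul_le_mul_of_nonneg_left Wh4_start hA.le
    have h3 := mul_le_mul_of_nonneg_left h2 hI
    linarith
  · intro r hr
    exact (hasDerivAt_Wh4 (by linarith [hr.1])).continuousAt.continuousWithinAt
  · intro r hr
    exact hasDerivAt_Wh4 (by linarith [hr.1])
  · intro r hr
    have hr0 : 0 < r := by linarith [hr.1]
    have h3 := Q4_At_le hr0.le hr.2.le
    have e : 1 + r ^ 2 * At r * (-(Q4 (r ^ 2) / r ^ 3)) = (r - Q4 (r ^ 2) * At r) / r := by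
      field_simp
      ring
    rw [e]
    apply div_nonneg _ hr0.le
    linarith

/-- The Courtade-Kumar inequality along the flow, for `ε ≤ 33/80`. -/
theorem flow_large_rho_C (h : FlowData l D a) (ha : |a| < 1) :
    ∀ e ∈ Icc (0 : ℝ) (33 / 80), hh a - l e ≤ log 2 - binEntropy e := by
  intro e he
  by_cases hc : e ≤ 2 / 5
  · exact flow_large_rho h ha e ⟨he.1, hc⟩
  push Not at hc
  have hI := If_nonneg ha
  have hIle := If_le ha
  have hn : 0 ≤ 1 - mm a := by
    have e1 : 1 - mm a = DD a := by unfold mm DD; ring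
    rw [e1]
    unfold DD
    have h3 : a ^ 2 < 1 := by
      have := abs_lt_one_pos ha
      nlinarith [this.1, this.2]
    have h4 : 0 ≤ a ^ 2 := by positivity
    apply mul_nonneg h4
    linarith
  have he0 : 0 < e := by linarith
  have he1 : e < 1 / 2 := by linarith [he.2]
  have hb := flow_barrier_PhiC h ha e ⟨by linarith, he.2⟩
  have hr0 : 7 / 40 ≤ 1 - 2 * e := by linarith [he.2]
  have hr1 : 1 - 2 * e ≤ 17 / 25 := by linarith
  have hf := final_1d_C hr0 hr1
  set r := 1 - 2 * e with hr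
  have hPr : log 2 - binEntropy e = Ph r := by
    rw [← hh_one_sub_two_mul he0 he1]
    unfold hh
    ring
  have hPpos : 0 ≤ Ph r := by
    have := Ph_lower (t := r) (by linarith) (by linarith)
    have h2 : 0 ≤ r ^ 2 := by positivity
    have h4 : 0 ≤ r ^ 4 := by positivity
    linarith
  have key : (hh a - mm a * log 2) * (1 - PhiC r) ≤ (1 - mm a) * Ph r := by
    by_cases hneg : 1 - PhiC r ≤ 0
    · have h5 := mul_nonpos_of_nonneg_of_nonpos hI hneg
      have h6 := mul_nonneg hn hPpos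
      linarith
    · push Not at hneg
      have h5 := mul_le_mul_of_nonneg_right hIle hneg.le
      have h6 := mul_le_mul_of_nonneg_left hf hn
      nlinarith
  rw [hPr]
  have e5 : hh a - mm a * binEntropy e - (hh a - mm a * log 2) * PhiC r =
      (hh a - mm a * log 2) * (1 - PhiC r) + mm a * (log 2 - binEntropy e) := by ring
  rw [hPr] at e5
  nlinarith

lemma PhiC_quarter : (88894 / 100000 : ℝ) ≤ PhiC (1 / 4) := by
  have hL : -(4 * (6931471808 / 10000000000) : ℝ) ≤ log ((1 / 4 : ℝ) ^ 2) := by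
    have e : ((1 / 4 : ℝ) ^ 2) = (2 ^ 4)⁻¹ := by norm_num
    rw [e, Real.log_inv, Real.log_pow]
    have := Real.log_two_lt_d9
    norm_num at this ⊢
    linarith
  have := PhiC_lower (r := 1 / 4) (by norm_num) (by norm_num) hL
  norm_num at this ⊢
  linarith

lemma Ph_quarter : Ph (1 / 4) ≤ 3158396 / 100000000 := by
  have := Ph_upper (t := 1 / 4) (by norm_num) (by norm_num)
  norm_num at this ⊢
  linarith

/-- At correlation `1/4` the information is at most `ρ²/2` when `|a| ≥ 1/4`. -/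
lemma flow_at_quarter (h : FlowData l D a) (ha : |a| < 1) (ha0 : 1 / 4 ≤ |a|) :
    hh a - l (3 / 8) ≤ 1 / 32 := by
  have hb := flow_barrier_PhiC h ha (3 / 8) ⟨by norm_num, by norm_num⟩
  have hI := If_nonneg ha
  have e1 : (1 - 2 * (3 / 8) : ℝ) = 1 / 4 := by norm_num
  rw [e1] at hb
  have hH : binEntropy (3 / 8) = hh (1 / 4) := by
    rw [← hh_one_sub_two_mul (e := 3 / 8) (by norm_num) (by norm_num), e1]
  rw [hH] at hb
  have hΦ := PhiC_quarter
  have hP := Ph_quarter
  have hm : 0 < mm a := mm_pos_of_abs ha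
  have hA1 : a ^ 2 < 1 := by
    have := abs_lt_one_pos ha
    nlinarith [this.1, this.2]
  have hA0 : 1 / 16 ≤ a ^ 2 := by
    have := pow_le_pow_left₀ (by norm_num) ha0 2
    rw [sq_abs] at this
    norm_num at this
    linarith
  have hPa := Ph_ge_half_sq ha
  have e4 : a ^ 4 = (a ^ 2) ^ 2 := by ring
  rw [e4] at hPa
  have hl2 := Real.log_two_lt_d9
  have hl2' := Real.log_two_gt_d9
  have h1 : (hh a - mm a * log 2) * (1 - PhiC (1 / 4)) ≤ (hh a - mm a * log 2) * (11106 / 100000) :=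
    mul_le_mul_of_nonneg_left (by linarith) hI
  have h2 : mm a * Ph (1 / 4) ≤ mm a * (3158396 / 100000000) := mul_le_mul_of_nonneg_left hP hm.le
  have e5 : hh a - (mm a * hh (1 / 4) + (hh a - mm a * log 2) * PhiC (1 / 4)) =
      (hh a - mm a * log 2) * (1 - PhiC (1 / 4)) + mm a * Ph (1 / 4) := by
    unfold hh
    ring
  have h3 : hh a - l (3 / 8) ≤
      (hh a - mm a * log 2) * (11106 / 100000) + mm a * (3158396 / 100000000) := by
    linarith
  have h4 : hh a - mm a * log 2 ≤ (1 - mm a) * log 2 - a ^ 2 / 2 - (a ^ 2) ^ 2 / 12 := by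
    unfold hh
    linarith
  have hmA : mm a = (1 - a ^ 2) * (1 - a ^ 2 / 8) := rfl
  set A := a ^ 2 with hA
  have hn : 0 ≤ 1 - mm a := by
    rw [hmA]
    nlinarith
  have h5 : (1 - mm a) * log 2 ≤ (1 - mm a) * (6931471808 / 10000000000) :=
    mul_le_mul_of_nonneg_left (by linarith) hn
  rw [hmA] at h3 h4 h5
  nlinarith

/-- The inequality along the flow when `|a| ≥ 1/4`, at high noise. -/
theorem flow_high_noise_C (h : FlowData l D a) (ha : |a| < 1) (ha0 : 1 / 4 ≤ |a|) :
    ∀ e ∈ Icc (3 / 8 : ℝ) (1 / 2), hh a - l e ≤ log 2 - binEntropy e := by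
  intro e he
  have h1 := flow_at_quarter h ha ha0
  have h2 := flow_ratio h (c := 3 / 8) (by norm_num) (by norm_num) e he
  have e1 : (1 - 2 * (3 / 8) : ℝ) = 1 / 4 := by norm_num
  rw [e1] at h2
  have h3 : (1 - 2 * e) ^ 2 * (hh a - l (3 / 8)) ≤ (1 - 2 * e) ^ 2 * (1 / 32) :=
    mul_le_mul_of_nonneg_left h1 (sq_nonneg _)
  have h4 : hh a - l e ≤ (1 - 2 * e) ^ 2 / 2 := by
    norm_num at h2
    nlinarith
  have h5 : (1 - 2 * e) ^ 2 / 2 ≤ log 2 - binEntropy e := by
    rcases eq_or_lt_of_le he.2 with h6 | h6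
    · rw [h6]
      have := binEntropy_le_log_two (p := 1 / 2)
      norm_num at this ⊢
      linarith
    · have he0 : 0 < e := by linarith [he.1]
      rw [← hh_one_sub_two_mul he0 h6]
      have := Ph_lower (t := 1 - 2 * e) (by linarith) (by linarith)
      have h7 : 0 ≤ (1 - 2 * e) ^ 4 := by positivity
      unfold hh
      linarith
  linarith

end Chain2

variable {n : ℕ}

/-- The Courtade-Kumar inequality for every Boolean function at `ε ≤ 33/80` (that is `ρ ≥ 7/40`), and
at every noise level for every Boolean function with `|E f| ≥ 1/4` and for every balanced function. -/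
theorem ck_partial2 (f : Cube n → Bool) {ε : ℝ} (h0 : 0 ≤ ε) (h1 : ε ≤ 1 / 2)
    (hcase : ε ≤ 33 / 80 ∨ 1 / 4 ≤ |2 * probTrue f - 1| ∨ probTrue f = 1 / 2) :
    mutualInfoBits f ε ≤ 1 - h2 ε := by
  by_cases hc : (∀ x, f x = true) ∨ (∀ x, f x = false)
  · exact ck_of_const f hc h0 h1
  push Not at hc
  obtain ⟨⟨x₀, hx₀⟩, ⟨x₁, hx₁⟩⟩ := hc
  have hx₀' : f x₀ = false := by simpa using hx₀
  have hx₁' : f x₁ = true := by simpa using hx₁
  have hF := flowData_of_bool f hx₀' hx₁'
  have hab := abs_meanS_lt f hx₀' hx₁'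
  rcases hcase with hc | hc | hc
  · exact ck_of_flow f hx₀' hx₁' h0 h1 (flow_large_rho_C hF hab ε ⟨h0, hc⟩)
  · by_cases h7 : ε ≤ 33 / 80
    · exact ck_of_flow f hx₀' hx₁' h0 h1 (flow_large_rho_C hF hab ε ⟨h0, h7⟩)
    · push Not at h7
      exact ck_of_flow f hx₀' hx₁' h0 h1
        (flow_high_noise_C hF hab hc ε ⟨by linarith, h1⟩)
  · exact balanced_ck f hc h0 h1

end Vale.Agent.Lib.P322B
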