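import Vale.Agent.Lib.P322B.Final

/-! # The entropy flow of an arbitrary Boolean function, barrier lemmas. -/

namespace Vale.Agent.Lib.P322B

open Real Set Finset
open Vale.Agent.Lib.P322

/-- Barrier on an arbitrary interval. -/
lemma barrier_Icc {D D' : ℝ → ℝ} {c b : ℝ}
    (hc : ContinuousOn D (Icc c b)) (h0 : 0 ≤ D c)
    (hd : ∀ x ∈ Ioo c b, HasDerivAt D (D' x) x)
    (hpos : ∀ x ∈ Ioo c b, D x < 0 → 0 ≤ D' x) :
    ∀ x ∈ Icc c b, 0 ≤ D x := by
  intro x hx
  have key := nonneg_of_deriv_nonneg_on_neg (D := fun y => D (y + c)) (D' := fun y => D' (y + c))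
    (b := b - c) ?_ (by simpa using h0) ?_ ?_ (x - c) ⟨by linarith [hx.1], by linarith [hx.2]⟩
  · simpa using key
  · have hm : Set.MapsTo (fun y => y + c) (Icc 0 (b - c)) (Icc c b) := by
      intro y hy
      exact ⟨by linarith [hy.1], by linarith [hy.2]⟩
    exact hc.comp (by fun_prop) hm
  · intro y hy
    have h1 := hd (y + c) ⟨by linarith [hy.1], by linarith [hy.2]⟩
    have h2 : HasDerivAt (fun y : ℝ => y + c) 1 y := (hasDerivAt_id y).add_const c
    have h3 := h1.comp y h2
    simp only [mul_one] at h3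
    exact h3
  · intro y hy hneg
    exact hpos (y + c) ⟨by linarith [hy.1], by linarith [hy.2]⟩ hneg

/-- The analytic data of the entropy flow of a Boolean function with mean `a`. -/
structure FlowData (l D : ℝ → ℝ) (a : ℝ) : Prop where
  cont : Continuous l
  l0 : l 0 = 0
  deriv : ∀ e, 0 < e → e < 1 / 2 → HasDerivAt l (2 * D e / (1 - 2 * e)) e
  bell : ∀ e, 0 < e → e < 1 / 2 → ∀ τ, 0 ≤ τ → τ < 1 →
    2 * hh a + CC τ * mm a ≤ D e + (kk τ + 2) * l e

variable {n : ℕ}

/-- The mean of a Boolean function on the scale `(-1,1)`. -/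
noncomputable def meanS (f : Cube n → Bool) : ℝ := 2 * probTrue f - 1

/-- A nonconstant Boolean function gives flow data. -/
theorem flowData_of_bool (f : Cube n → Bool) {x₀ x₁ : Cube n} (hx₀ : f x₀ = false)
    (hx₁ : f x₁ = true) :
    FlowData (Hent (indTrue f))
      (fun e => dirichB (fun y => 2 * noiseOp e (indTrue f) y - 1)) (meanS f) := by
  have hg := indTrue_cases f
  have hg0 : indTrue f x₀ = 0 := by simp [indTrue, hx₀]
  have hg1 : indTrue f x₁ = 1 := by simp [indTrue, hx₁]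
  set g₀ := indTrue f with hg₀
  have hbds : ∀ e, 0 < e → e < 1 / 2 → ∀ y, 0 < noiseOp e g₀ y ∧ noiseOp e g₀ y < 1 :=
    fun e h2 h3 y => noiseOp_bounds hg hg0 hg1 h2 (by linarith) y
  have hs1 : ∀ e, 0 < e → e < 1 / 2 → ∀ y, |2 * noiseOp e g₀ y - 1| < 1 := by
    intro e h2 h3 y
    have := hbds e h2 h3 y
    rw [abs_lt]
    constructor <;> linarith [this.1, this.2]
  refine ⟨continuous_Hent g₀, Hent_zero hg, ?_, ?_⟩
  · intro e he0 he1
    have hρ : 1 - 2 * e ≠ 0 := by linarith
    have h3 := hasDerivAt_Hent hρ g₀ (fun y => (hbds e he0 he1 y).1)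
      (fun y => (hbds e he0 he1 y).2)
    refine h3.congr_deriv ?_
    have e2 := avg_logit_eq_ckE (noiseOp e g₀) (fun y => (hbds e he0 he1 y).1)
      (fun y => (hbds e he0 he1 y).2)
    rw [ckE_eq (hs1 e he0 he1)] at e2
    rw [← e2, ← mul_one_div, mul_comm (avg _), ← avg_const_mul]
    congr 1
    funext y
    field_simp
  · intro e he0 he1 τ hτ0 hτ1
    have hb := bellman n (fun y => 2 * noiseOp e g₀ y - 1) (hs1 e he0 he1) τ ⟨hτ0, hτ1⟩
    have e1 : avg (fun y => 2 * noiseOp e g₀ y - 1) = meanS f := by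
      have := avg_sub (fun y => 2 * noiseOp e g₀ y) (fun _ => (1:ℝ))
      rw [this, avg_const_mul, avg_const, avg_noiseOp, ← probTrue_eq]
      rfl
    have e2 : avg (fun y => hh (2 * noiseOp e g₀ y - 1)) = Hent g₀ e := by
      unfold Hent
      congr 1
      funext y
      rw [← ckh_eq (hs1 e he0 he1 y)]
      unfold ckh
      congr 1
      ring
    rw [e1, e2] at hb
    exact hb

lemma hh_one_sub_two_mul {e : ℝ} (h0 : 0 < e) (h1 : e < 1 / 2) : hh (1 - 2 * e) = binEntropy e := by
  have h : |1 - 2 * e| < 1 := by rw [abs_lt]; constructor <;> linarith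
  rw [← ckh_eq h, ckh_one_sub_two_mul]

lemma At_one_sub_two_mul {e : ℝ} (h0 : 0 < e) (h1 : e < 1 / 2) :
    At (1 - 2 * e) = (1 / 2) * (log (1 - e) - log e) := by
  have h : |1 - 2 * e| < 1 := by rw [abs_lt]; constructor <;> linarith
  rw [← ckA_eq h, ckA_one_sub_two_mul h0 (by linarith)]

section Barrier

variable {l D : ℝ → ℝ} {a : ℝ}

/-- The general barrier. -/
theorem flow_barrier (h : FlowData l D a) {If : ℝ} (hIf : If = hh a - mm a * log 2) (hIf0 : 0 ≤ If)
    {Φ Φ' : ℝ → ℝ} {c b : ℝ} (hc0 : 0 ≤ c) (hb : b ≤ 1 / 2)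
    (hstart : mm a * binEntropy c + If * Φ (1 - 2 * c) ≤ l c)
    (hΦc : ContinuousOn Φ (Icc (1 - 2 * b) (1 - 2 * c)))
    (hΦd : ∀ r, 1 - 2 * b < r → r < 1 - 2 * c → HasDerivAt Φ (Φ' r) r)
    (hB : ∀ r, 1 - 2 * b < r → r < 1 - 2 * c → 0 ≤ 2 - (kk r + 2) * Φ r + r * Φ' r) :
    ∀ e ∈ Icc c b, mm a * binEntropy e + If * Φ (1 - 2 * e) ≤ l e := by
  have hm : Set.MapsTo (fun e : ℝ => 1 - 2 * e) (Icc c b) (Icc (1 - 2 * b) (1 - 2 * c)) := by
    intro e he
    exact ⟨by linarith [he.2], by linarith [he.1]⟩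
  have key := barrier_Icc (c := c) (b := b)
    (D := fun e => l e - mm a * binEntropy e - If * Φ (1 - 2 * e))
    (D' := fun e => 2 * D e / (1 - 2 * e) - mm a * (log (1 - e) - log e)
      - If * (Φ' (1 - 2 * e) * (-2))) ?_ ?_ ?_ ?_
  · intro e he
    have := key e he
    linarith
  · apply ContinuousOn.sub
    · apply ContinuousOn.sub h.cont.continuousOn
      exact continuousOn_const.mul binEntropy_continuous.continuousOn
    · apply ContinuousOn.mul continuousOn_const
      exact hΦc.comp (by fun_prop) hm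
  · linarith
  · intro e he
    have he0 : 0 < e := lt_of_le_of_lt hc0 he.1
    have he1 : e < 1 / 2 := lt_of_lt_of_le he.2 hb
    have hd1 := h.deriv e he0 he1
    have hd2 : HasDerivAt binEntropy (log (1 - e) - log e) e :=
      hasDerivAt_binEntropy he0.ne' (by linarith)
    have hd3 := hΦd (1 - 2 * e) (by linarith [he.2]) (by linarith [he.1])
    have hd4 : HasDerivAt (fun e : ℝ => 1 - 2 * e) (-2) e := by
      have := ((hasDerivAt_id e).const_mul 2).const_sub 1
      simpa using this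
    have hd5 : HasDerivAt (fun e : ℝ => Φ (1 - 2 * e)) (Φ' (1 - 2 * e) * (-2)) e :=
      hd3.comp e hd4
    exact (hd1.sub (hd2.const_mul (mm a))).sub (hd5.const_mul If)
  · intro e he hneg
    have he0 : 0 < e := lt_of_le_of_lt hc0 he.1
    have he1 : e < 1 / 2 := lt_of_lt_of_le he.2 hb
    set r := 1 - 2 * e with hr
    have hr0 : 0 < r := by rw [hr]; linarith
    have hr1 : r < 1 := by rw [hr]; linarith
    have hH : binEntropy e = hh r := (hh_one_sub_two_mul he0 he1).symm
    have hA : log (1 - e) - log e = 2 * At r := by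
      rw [hr, At_one_sub_two_mul he0 he1]; ring
    have hbell := h.bell e he0 he1 r hr0.le hr1
    have hk := kk_nonneg hr0.le hr1
    have hle : l e ≤ mm a * hh r + If * Φ r := by
      rw [← hH]; linarith
    have h2 := mul_le_mul_of_nonneg_left hle (by linarith : 0 ≤ kk r + 2)
    have hB' := hB r (by rw [hr]; linarith [he.2]) (by rw [hr]; linarith [he.1])
    have hIB := mul_nonneg hIf0 hB'
    have hid : 2 * hh a + CC r * mm a - (kk r + 2) * (mm a * hh r + If * Φ r) =
        2 * If + mm a * (r * At r) - (kk r + 2) * (If * Φ r) := by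
      rw [hIf]
      unfold CC Xi hh
      ring
    have hDe : 2 * If + mm a * (r * At r) - (kk r + 2) * (If * Φ r) ≤ D e := by
      rw [← hid]; linarith
    rw [hA]
    have e3 : 2 * D e / r - mm a * (2 * At r) - If * (Φ' r * (-2)) =
        (2 / r) * (D e - mm a * (r * At r) + If * (r * Φ' r)) := by
      field_simp
      ring
    rw [e3]
    apply mul_nonneg (by positivity)
    nlinarith

/-- Phase 1: the floor `l ≥ m(a) h(ε)`. -/
theorem flow_floor (h : FlowData l D a) (hIf0 : 0 ≤ hh a - mm a * log 2) :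
    ∀ e ∈ Icc (0:ℝ) (1 / 2), mm a * binEntropy e ≤ l e := by
  intro e he
  have key := flow_barrier h rfl hIf0 (Φ := fun _ => 0) (Φ' := fun _ => 0) (c := 0) (b := 1 / 2)
    le_rfl le_rfl (by simp [h.l0]) continuousOn_const (fun r _ _ => hasDerivAt_const r (0:ℝ))
    (fun r _ _ => by simp) e he
  simpa using key

/-- The function `I(ε)/ρ²` is nonincreasing in `ε`. -/
theorem flow_ratio (h : FlowData l D a) {c : ℝ} (hc0 : 0 ≤ c) (hc1 : c < 1 / 2) :
    ∀ e ∈ Icc c (1 / 2), (1 - 2 * c) ^ 2 * (hh a - l e) ≤ (1 - 2 * e) ^ 2 * (hh a - l c) := by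
  have hρ : 0 < 1 - 2 * c := by linarith
  have key := barrier_Icc (c := c) (b := 1 / 2)
    (D := fun e => (1 - 2 * e) ^ 2 * (hh a - l c) - (1 - 2 * c) ^ 2 * (hh a - l e))
    (D' := fun e => (2 * (1 - 2 * e) * (-2)) * (hh a - l c) +
      (1 - 2 * c) ^ 2 * (2 * D e / (1 - 2 * e))) ?_ ?_ ?_ ?_
  · intro e he
    have := key e he
    linarith
  · have := h.cont
    fun_prop
  · linarith
  · intro e he
    have he0 : 0 < e := lt_of_le_of_lt hc0 he.1
    have he1 : e < 1 / 2 := he.2
    have hd1 := h.deriv e he0 he1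
    have hd4 : HasDerivAt (fun e : ℝ => 1 - 2 * e) (-2) e := by
      have := ((hasDerivAt_id e).const_mul 2).const_sub 1
      simpa using this
    have hd5 := ((hd4.pow 2).mul_const (hh a - l c)).sub
      ((hd1.const_sub (hh a)).const_mul ((1 - 2 * c) ^ 2))
    refine hd5.congr_deriv ?_
    norm_num
  · intro e he hneg
    have he0 : 0 < e := lt_of_le_of_lt hc0 he.1
    have he1 : e < 1 / 2 := he.2
    have hr0 : 0 < 1 - 2 * e := by linarith
    have hbell := h.bell e he0 he1 0 le_rfl one_pos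
    rw [CC_zero, kk_zero] at hbell
    have hDI : 2 * (hh a - l e) ≤ D e := by linarith
    have e3 : (2 * (1 - 2 * e) * (-2)) * (hh a - l c) +
        (1 - 2 * c) ^ 2 * (2 * D e / (1 - 2 * e)) =
        (2 / (1 - 2 * e)) * ((1 - 2 * c) ^ 2 * D e -
          2 * ((1 - 2 * e) ^ 2 * (hh a - l c))) := by
      field_simp
      ring
    rw [e3]
    apply mul_nonneg (by positivity)
    have := mul_le_mul_of_nonneg_left hDI (sq_nonneg (1 - 2 * c))
    nlinarith

end Barrier

end Vale.Agent.Lib.P322B
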