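import Vale.Agent.Lib.P322B.UnbPhi

/-! # Courtade-Kumar for unbalanced functions at large correlation. -/

namespace Vale.Agent.Lib.P322B

open Real Set Finset
open Vale.Agent.Lib.P322

lemma Ph_lower {t : ℝ} (h0 : 0 ≤ t) (h1 : t < 1) : t ^ 2 / 2 + t ^ 4 / 12 ≤ Ph t := by
  have hm : MonotoneOn (fun x => Ph x - (x ^ 2 / 2 + x ^ 4 / 12)) (Ico 0 1) := by
    apply mono_of_hasDeriv (convex_Ico 0 1) (f' := fun x => At x - (x + x ^ 3 / 3))
    · apply ContinuousOn.sub
      · intro x hx
        exact (hasDerivAt_Ph (abs_lt_of_Ico hx.1 hx.2)).continuousAt.continuousWithinAt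
      · fun_prop
    · intro x hx
      rw [interior_Ico] at hx
      have hA := hasDerivAt_Ph (abs_lt_of_Ioo hx.1 hx.2)
      have h2 := (hasDerivAt_pow 2 x).div_const 2
      have h4 := (hasDerivAt_pow 4 x).div_const 12
      refine (hA.sub (h2.add h4)).congr_deriv ?_
      norm_num
      ring
    · intro x hx
      rw [interior_Ico] at hx
      have := At_lower hx.1.le hx.2
      have h5 : 0 ≤ x ^ 5 := by have := hx.1.le; positivity
      have h7 : 0 ≤ x ^ 7 := by have := hx.1.le; positivity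
      have h9 : 0 ≤ x ^ 9 := by have := hx.1.le; positivity
      linarith
  have := hm (left_mem_Ico.mpr one_pos) (mem_Ico.mpr ⟨h0, h1⟩) h0
  simp only [Ph_zero] at this
  norm_num at this
  linarith

lemma log_five_le : log 5 ≤ 16095 / 10000 := by
  have h1 : log (5 / 4) = 2 * At (1 / 9) := by
    have := At_ratio (y := 5 / 4) (by norm_num)
    norm_num at this ⊢
    linarith
  have h2 := At_upper (t := 1 / 9) (by norm_num) (by norm_num)
  have h3 : log 5 = log (5 / 4) + 2 * log 2 := by
    have : (5:ℝ) = 5 / 4 * 2 ^ 2 := by norm_num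
    conv_lhs => rw [this]
    rw [Real.log_mul (by norm_num) (by norm_num), Real.log_pow]
    norm_num
  have h4 := Real.log_two_lt_d9
  norm_num at h2
  rw [h3, h1]
  linarith

/-- Lower bound of the barrier on the relevant range. -/
lemma PhiB_lower {r L : ℝ} (h0 : 0 < r) (h1 : r ≤ 17 / 25) (hL : L ≤ log (r ^ 2)) :
    (1 + r ^ 2 / 3) * (1 + r ^ 2 * (L / 3 + 4 / 45 * r ^ 2 - 623 / 500)) ≤ PhiB r := by
  have hr1 : r < 1 := by linarith
  have hW := Wh_nonneg h0 h1
  have hA : r + r ^ 3 / 3 ≤ At r := by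
    have := At_lower h0.le hr1
    have h5 : 0 ≤ r ^ 5 := by positivity
    have h7 : 0 ≤ r ^ 7 := by positivity
    have h9 : 0 ≤ r ^ 9 := by positivity
    linarith
  have hu : 0 < r ^ 2 := by positivity
  have h2 : 2 * r * (r + r ^ 3 / 3) * Wh r ≤ PhiB r := by
    unfold PhiB
    apply mul_le_mul_of_nonneg_right _ hW
    apply mul_le_mul_of_nonneg_left hA (by positivity)
  have h3 : 1 + r ^ 2 * (L / 3 + 4 / 45 * r ^ 2 - 623 / 500) ≤ 2 * r ^ 2 * Wh r := by
    unfold Wh
    have hlog : log r = (1 / 2) * log (r ^ 2) := by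
      rw [Real.log_pow]; push_cast; ring
    have e : 2 * r ^ 2 * (1 / (2 * r ^ 2) + 1 / 3 * log r + 2 / 45 * r ^ 2 + 11 / 200 * r ^ 4 - 623 / 1000)
        = 1 + r ^ 2 * (log (r ^ 2) / 3 + 4 / 45 * r ^ 2 + 11 / 100 * r ^ 4 - 623 / 500) := by
      rw [hlog]
      field_simp
      ring
    rw [e]
    have h6 : 0 ≤ r ^ 2 * (r ^ 4 * (11 / 100)) := by positivity
    have h7 := mul_le_mul_of_nonneg_left hL hu.le
    nlinarith
  have e2 : 2 * r * (r + r ^ 3 / 3) * Wh r = (1 + r ^ 2 / 3) * (2 * r ^ 2 * Wh r) := by ring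
  rw [e2] at h2
  have h8 := mul_le_mul_of_nonneg_left h3 (by positivity : 0 ≤ 1 + r ^ 2 / 3)
  linarith

/-- The one dimensional inequality behind the range `ρ ≥ 1/5`. -/
lemma final_1d {r : ℝ} (h0 : 1 / 5 ≤ r) (h1 : r ≤ 17 / 25) :
    (log 2 - 4 / 9) * (1 - PhiB r) ≤ Ph r := by
  have hr0 : 0 < r := by linarith
  have hr1 : r < 1 := by linarith
  have hu0 : (1 / 25 : ℝ) ≤ r ^ 2 := by
    have := pow_le_pow_left₀ (by norm_num) h0 2
    norm_num at this
    linarith
  have hu1 : r ^ 2 ≤ 289 / 625 := by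
    have := pow_le_pow_left₀ hr0.le h1 2
    norm_num at this
    linarith
  have hP := Ph_lower hr0.le hr1
  have e4 : r ^ 4 = (r ^ 2) ^ 2 := by ring
  rw [e4] at hP
  set u := r ^ 2 with hu
  have hl2 := Real.log_two_lt_d9
  have hl2' := Real.log_two_gt_d9
  have hPpos : 0 ≤ Ph r := by
    have : 0 ≤ (u : ℝ) ^ 2 := by positivity
    linarith
  by_cases hneg : 1 - PhiB r ≤ 0
  · have : (log 2 - 4 / 9) * (1 - PhiB r) ≤ 0 :=
      mul_nonpos_of_nonneg_of_nonpos (by linarith) hneg
    linarith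
  push Not at hneg
  have h2 : (log 2 - 4 / 9) * (1 - PhiB r) ≤ (2488 / 10000) * (1 - PhiB r) :=
    mul_le_mul_of_nonneg_right (by linarith) hneg.le
  by_cases hc : u ≤ 1 / 16
  · -- first cell
    have hL : -(32190 / 10000 : ℝ) ≤ log u := by
      have h5 := log_five_le
      have h6 : log (1 / 25) ≤ log u := Real.log_le_log (by norm_num) hu0
      have h7 : log (1 / 25 : ℝ) = - (2 * log 5) := by
        rw [one_div, Real.log_inv, show (25:ℝ) = 5 ^ 2 by norm_num, Real.log_pow]
        norm_num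
      rw [h7] at h6
      linarith
    have h3 := PhiB_lower hr0 h1 hL
    rw [← hu] at h3
    have h4 : (2488 / 10000) * (1 - (1 + u / 3) * (1 + u * (-(32190 / 10000) / 3 + 4 / 45 * u - 623 / 500)))
        ≤ u / 2 + u ^ 2 / 12 := by
      have hu00 : 0 < u := by linarith
      have key : 0 ≤ u * (590 / 100000 - 8690 / 100000 * u) := by
        apply mul_nonneg hu00.le
        linarith
      nlinarith [mul_pos hu00 hu00, mul_pos (mul_pos hu00 hu00) hu00]
    have h5 := mul_le_mul_of_nonneg_left h3 (by norm_num : (0:ℝ) ≤ 2488 / 10000)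
    linarith
  · push Not at hc
    have hL : -(27726 / 10000 : ℝ) ≤ log u := by
      have h6 : log (1 / 16) ≤ log u := Real.log_le_log (by norm_num) hc.le
      have h7 : log (1 / 16 : ℝ) = - (4 * log 2) := by
        rw [one_div, Real.log_inv, show (16:ℝ) = 2 ^ 4 by norm_num, Real.log_pow]
        norm_num
      rw [h7] at h6
      linarith
    have h3 := PhiB_lower hr0 h1 hL
    rw [← hu] at h3
    have h4 : (2488 / 10000) * (1 - (1 + u / 3) * (1 + u * (-(27726 / 10000) / 3 + 4 / 45 * u - 623 / 500)))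
        ≤ u / 2 + u ^ 2 / 12 := by
      have hu00 : 0 < u := by linarith
      have key : 0 ≤ u * (429 / 10000 - 746 / 10000 * u) := by
        apply mul_nonneg hu00.le
        linarith
      nlinarith [mul_pos hu00 hu00, mul_pos (mul_pos hu00 hu00) hu00]
    have h5 := mul_le_mul_of_nonneg_left h3 (by norm_num : (0:ℝ) ≤ 2488 / 10000)
    linarith

section Flow

variable {l D : ℝ → ℝ} {a : ℝ}

lemma If_nonneg (ha : |a| < 1) : 0 ≤ hh a - mm a * log 2 := by
  have := log_two_mul_mm_le_hh ha
  linarith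

lemma Ph_ge_half_sq (ha : |a| < 1) : a ^ 2 / 2 + a ^ 4 / 12 ≤ Ph a := by
  have h := Ph_lower (abs_nonneg a) ha
  have e : Ph |a| = Ph a := by
    rcases abs_cases a with ⟨h1, _⟩ | ⟨h1, _⟩ <;> rw [h1]
    exact Ph_neg a
  rw [e, sq_abs] at h
  have e4 : |a| ^ 4 = a ^ 4 := by
    rw [show (4:ℕ) = 2 * 2 by norm_num, pow_mul, sq_abs, pow_mul]
  rw [e4] at h
  exact h

lemma If_le (ha : |a| < 1) :
    hh a - mm a * log 2 ≤ (1 - mm a) * (log 2 - 4 / 9) := by
  have h1 := Ph_ge_half_sq ha
  have h2 : 0 ≤ a ^ 4 := by positivity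
  have h3 : a ^ 2 < 1 := by
    have := abs_lt_one_pos ha
    nlinarith [this.1, this.2]
  have h4 : 0 ≤ a ^ 2 := by positivity
  unfold hh mm
  have e : a ^ 4 = (a ^ 2) ^ 2 := by ring
  nlinarith

/-- The bound produced by the barrier, valid on `ε ∈ [1/40, 2/5]`. -/
lemma flow_barrier_PhiB (h : FlowData l D a) (ha : |a| < 1) :
    ∀ e ∈ Icc (1 / 40 : ℝ) (2 / 5),
      mm a * binEntropy e + (hh a - mm a * log 2) * PhiB (1 - 2 * e) ≤ l e := by
  have hI := If_nonneg ha
  have hm : 0 < mm a := mm_pos_of_abs ha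
  have hfl := flow_floor h hI
  refine flow_barrier h rfl hI (Φ := PhiB)
    (Φ' := fun r => 2 * At r * Wh r + 2 * r * (1 / (1 - r ^ 2)) * Wh r +
      2 * r * At r * (-(QPoly (r ^ 2) / r ^ 3))) (c := 1 / 40) (b := 2 / 5)
    (by norm_num) (by norm_num) ?_ ?_ ?_ ?_
  · have h1 := hfl (1 / 40) ⟨by norm_num, by norm_num⟩
    have h2 : PhiB (1 - 2 * (1 / 40)) ≤ 0 := by
      have := PhiB_start
      norm_num at this ⊢
      exact this
    have h3 := mul_nonpos_of_nonneg_of_nonpos hI h2
    linarith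
  · refine continuousOn_PhiB.mono ?_
    intro x hx
    norm_num at hx
    exact ⟨by linarith [hx.1], by linarith [hx.2]⟩
  · intro r h1 h2
    norm_num at h1 h2
    exact hasDerivAt_PhiB (by linarith) (by linarith)
  · intro r h1 h2
    norm_num at h1 h2
    exact PhiB_barrier (by linarith) (by linarith)

/-- The Courtade-Kumar inequality along the flow, for `ε ≤ 2/5`. -/
theorem flow_large_rho (h : FlowData l D a) (ha : |a| < 1) :
    ∀ e ∈ Icc (0 : ℝ) (2 / 5), hh a - l e ≤ log 2 - binEntropy e := by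
  intro e he
  have hI := If_nonneg ha
  have hIle := If_le ha
  have hn : 0 ≤ 1 - mm a := by
    have e1 : 1 - mm a = DD a := by unfold mm DD; ring
    rw [e1]
    unfold DD
    have h3 : a ^ 2 < 1 := by
      have := abs_lt_one_pos ha
      nlinarith [this.1, this.2]
    have h4 : 0 ≤ a ^ 2 := by positivity
    apply mul_nonneg h4
    linarith
  have hl2 := Real.log_two_lt_d9
  have hl2' := Real.log_two_gt_d9
  by_cases hc : e ≤ 4 / 25
  · have hfl := flow_floor h hI e ⟨he.1, by linarith [he.2]⟩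
    have hH : binEntropy e ≤ 4 / 9 := by
      rcases eq_or_lt_of_le he.1 with h0 | h0
      · rw [← h0, binEntropy_zero]; norm_num
      · rw [← hh_one_sub_two_mul h0 (by linarith)]
        have hr0 : (17 / 25 : ℝ) ≤ 1 - 2 * e := by linarith
        have hP := Ph_lower (t := 1 - 2 * e) (by linarith) (by linarith)
        have h2 := pow_le_pow_left₀ (by norm_num) hr0 2
        have h4 := pow_le_pow_left₀ (by norm_num) hr0 4
        norm_num at h2 h4
        unfold hh
        linarith
    have : (1 - mm a) * (log 2 - 4 / 9) ≤ (1 - mm a) * (log 2 - binEntropy e) :=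
      mul_le_mul_of_nonneg_left (by linarith) hn
    nlinarith
  · push Not at hc
    have he0 : 0 < e := by linarith
    have he1 : e < 1 / 2 := by linarith [he.2]
    have hb := flow_barrier_PhiB h ha e ⟨by linarith, he.2⟩
    have hr0 : 1 / 5 ≤ 1 - 2 * e := by linarith [he.2]
    have hr1 : 1 - 2 * e ≤ 17 / 25 := by linarith
    have hf := final_1d hr0 hr1
    set r := 1 - 2 * e with hr
    have hPr : log 2 - binEntropy e = Ph r := by
      rw [← hh_one_sub_two_mul he0 he1]
      unfold hh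
      ring
    have hPpos : 0 ≤ Ph r := by
      have := Ph_lower (t := r) (by linarith) (by linarith)
      have h2 : 0 ≤ r ^ 2 := by positivity
      have h4 : 0 ≤ r ^ 4 := by positivity
      linarith
    have key : (hh a - mm a * log 2) * (1 - PhiB r) ≤ (1 - mm a) * Ph r := by
      by_cases hneg : 1 - PhiB r ≤ 0
      · have h5 := mul_nonpos_of_nonneg_of_nonpos hI hneg
        have h6 := mul_nonneg hn hPpos
        linarith
      · push Not at hneg
        have h5 := mul_le_mul_of_nonneg_right hIle hneg.le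
        have h6 := mul_le_mul_of_nonneg_left hf hn
        nlinarith
    rw [hPr]
    have e5 : hh a - mm a * binEntropy e - (hh a - mm a * log 2) * PhiB r =
        (hh a - mm a * log 2) * (1 - PhiB r) + mm a * (log 2 - binEntropy e) := by ring
    rw [hPr] at e5
    nlinarith

end Flow

end Vale.Agent.Lib.P322B
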