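import Vale.Agent.Lib.P322B.UnbFlow

/-! # The explicit barrier function. -/

namespace Vale.Agent.Lib.P322B

open Real Set

/-- Polynomial lower bound of `ρ / At ρ` as a function of `u = ρ²`. -/
noncomputable def QPoly (u : ℝ) : ℝ := 1 - u / 3 - 4 / 45 * u ^ 2 - 11 / 50 * u ^ 3

lemma QPoly_pos {u : ℝ} (h0 : 0 ≤ u) (h1 : u ≤ 361 / 400) : 0 < QPoly u := by
  unfold QPoly
  have h2 : u ^ 2 ≤ (361 / 400) ^ 2 := pow_le_pow_left₀ h0 h1 2
  have h3 : u ^ 3 ≤ (361 / 400) ^ 3 := pow_le_pow_left₀ h0 h1 3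
  norm_num at h2 h3
  linarith

lemma QPoly_key {u : ℝ} (h0 : 0 ≤ u) (h1 : u ≤ 361 / 400) :
    QPoly u ^ 2 * 1 ≤ (QPoly u + 2 * u * (1 / 3 + 8 / 45 * u + 33 / 50 * u ^ 2)) * (1 - u) := by
  have h2 : u ^ 2 ≤ (361 / 400) ^ 2 := pow_le_pow_left₀ h0 h1 2
  have h3 : u ^ 3 ≤ (361 / 400) ^ 3 := pow_le_pow_left₀ h0 h1 3
  norm_num at h2 h3
  have hb : 0 ≤ 7 * (11 / 50) - 44 / 135 - ((17 / 3) * (11 / 50) + (4 / 45) ^ 2) * u
      - 2 * (4 / 45) * (11 / 50) * u ^ 2 - (11 / 50) ^ 2 * u ^ 3 := by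
    norm_num
    linarith
  have hp : 0 ≤ u ^ 3 := by positivity
  have := mul_nonneg hp hb
  unfold QPoly
  nlinarith

/-- The key inequality `Q(ρ²) At ρ ≤ ρ`. -/
lemma QPoly_At_le {r : ℝ} (h0 : 0 ≤ r) (h1 : r ≤ 19 / 20) : QPoly (r ^ 2) * At r ≤ r := by
  have hu : ∀ x ∈ Icc (0:ℝ) (19 / 20), 0 ≤ x ^ 2 ∧ x ^ 2 ≤ 361 / 400 := by
    intro x hx
    constructor
    · positivity
    · have := pow_le_pow_left₀ hx.1 hx.2 2
      norm_num at this
      linarith
  have hQ : ∀ x ∈ Icc (0:ℝ) (19 / 20), 0 < QPoly (x ^ 2) :=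
    fun x hx => QPoly_pos (hu x hx).1 (hu x hx).2
  have hm : MonotoneOn (fun x => x / QPoly (x ^ 2) - At x) (Icc 0 (19 / 20)) := by
    apply mono_of_hasDeriv (convex_Icc _ _)
      (f' := fun x => (QPoly (x ^ 2) + 2 * x ^ 2 * (1 / 3 + 8 / 45 * x ^ 2 + 33 / 50 * (x ^ 2) ^ 2)) /
        QPoly (x ^ 2) ^ 2 - 1 / (1 - x ^ 2))
    · apply ContinuousOn.sub
      · apply ContinuousOn.div continuousOn_id
        · unfold QPoly; fun_prop
        · intro x hx; exact (hQ x hx).ne'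
      · apply continuousOn_At'
        intro x hx
        exact abs_lt_of_Ico hx.1 (by linarith [hx.2])
    · intro x hx
      rw [interior_Icc] at hx
      have hx' : x ∈ Icc (0:ℝ) (19 / 20) := ⟨hx.1.le, hx.2.le⟩
      have hQd : HasDerivAt (fun x : ℝ => QPoly (x ^ 2))
          (-(2 * x * (1 / 3 + 8 / 45 * x ^ 2 + 33 / 50 * (x ^ 2) ^ 2))) x := by
        unfold QPoly
        have h1 := hasDerivAt_pow 2 x
        have h2 := h1.div_const 3
        have h3 := (h1.pow 2).const_mul (4 / 45 : ℝ)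
        have h4 := (h1.pow 3).const_mul (11 / 50 : ℝ)
        have := ((h2.const_sub 1).sub h3).sub h4
        refine this.congr_deriv ?_
        norm_num
        ring
      have hdiv := (hasDerivAt_id x).div hQd (hQ x hx').ne'
      have hA := hasDerivAt_At (abs_lt_of_Ioo hx.1 (by linarith [hx.2]))
      refine (hdiv.sub hA).congr_deriv ?_
      simp only [id]
      congr 1
      congr 1
      ring
    · intro x hx
      rw [interior_Icc] at hx
      have hx' : x ∈ Icc (0:ℝ) (19 / 20) := ⟨hx.1.le, hx.2.le⟩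
      have hQ2 := hQ x hx'
      have hub := hu x hx'
      have h1x : 0 < 1 - x ^ 2 := by linarith [hub.2]
      rw [sub_nonneg, div_le_div_iff₀ h1x (by positivity), one_mul]
      have := QPoly_key hub.1 hub.2
      linarith
  have hr : r ∈ Icc (0:ℝ) (19 / 20) := ⟨h0, h1⟩
  have h3 := hm (left_mem_Icc.mpr (by norm_num)) hr h0
  simp only [At_zero, zero_div, sub_zero] at h3
  have hQ2 := hQ r hr
  have h4 : At r ≤ r / QPoly (r ^ 2) := by linarith
  rw [le_div_iff₀ hQ2] at h4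
  linarith

/-- The potential `Ŵ`. -/
noncomputable def Wh (r : ℝ) : ℝ :=
  1 / (2 * r ^ 2) + 1 / 3 * log r + 2 / 45 * r ^ 2 + 11 / 200 * r ^ 4 - 623 / 1000

/-- The barrier shape. -/
noncomputable def PhiB (r : ℝ) : ℝ := 2 * r * At r * Wh r

lemma hasDerivAt_Wh {r : ℝ} (h0 : 0 < r) : HasDerivAt Wh (-(QPoly (r ^ 2) / r ^ 3)) r := by
  unfold Wh
  have hr : r ≠ 0 := h0.ne'
  have h1 : HasDerivAt (fun x : ℝ => 1 / (2 * x ^ 2)) (-(1 / r ^ 3)) r := by
    have h2 : HasDerivAt (fun x : ℝ => 2 * x ^ 2) (2 * (2 * r)) r := by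
      have := (hasDerivAt_pow 2 r).const_mul (2:ℝ)
      simpa using this
    have h3 := (hasDerivAt_const r (1:ℝ)).div h2 (by positivity)
    refine h3.congr_deriv ?_
    field_simp
    ring
  have h4 := (Real.hasDerivAt_log hr).const_mul (1 / 3 : ℝ)
  have h5 := (hasDerivAt_pow 2 r).const_mul (2 / 45 : ℝ)
  have h6 := (hasDerivAt_pow 4 r).const_mul (11 / 200 : ℝ)
  have h7 := (((h1.add h4).add h5).add h6).sub_const (623 / 1000 : ℝ)
  refine h7.congr_deriv ?_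
  unfold QPoly
  field_simp
  ring

lemma hasDerivAt_PhiB {r : ℝ} (h0 : 0 < r) (h1 : r < 1) :
    HasDerivAt PhiB (2 * At r * Wh r + 2 * r * (1 / (1 - r ^ 2)) * Wh r +
      2 * r * At r * (-(QPoly (r ^ 2) / r ^ 3))) r := by
  unfold PhiB
  have hA := hasDerivAt_At (abs_lt_of_Ioo h0 h1)
  have h2 : HasDerivAt (fun x : ℝ => 2 * x) 2 r := by
    simpa using (hasDerivAt_id r).const_mul (2:ℝ)
  have h3 := (h2.mul hA).mul (hasDerivAt_Wh h0)
  refine HasDerivAt.congr_deriv (f := fun r => 2 * r * At r * Wh r) h3 ?_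
  simp only [Pi.mul_apply]
  ring

/-- The barrier inequality. -/
lemma PhiB_barrier {r : ℝ} (h0 : 0 < r) (h1 : r ≤ 19 / 20) :
    0 ≤ 2 - (kk r + 2) * PhiB r + r * (2 * At r * Wh r + 2 * r * (1 / (1 - r ^ 2)) * Wh r +
      2 * r * At r * (-(QPoly (r ^ 2) / r ^ 3))) := by
  have hr1 : r < 1 := by linarith
  have hA := At_pos h0 hr1
  have hp := one_sub_sq_pos (abs_lt_of_Ioo h0 hr1)
  have hk := kk_eq h0.ne'
  have key : 2 - (kk r + 2) * PhiB r + r * (2 * At r * Wh r + 2 * r * (1 / (1 - r ^ 2)) * Wh r +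
      2 * r * At r * (-(QPoly (r ^ 2) / r ^ 3))) = 2 * (r - QPoly (r ^ 2) * At r) / r := by
    rw [hk]
    unfold PhiB
    field_simp
    ring
  rw [key]
  have := QPoly_At_le h0.le h1
  apply div_nonneg _ h0.le
  linarith

lemma continuousOn_PhiB : ContinuousOn PhiB (Ioo 0 1) := by
  intro r hr
  exact (hasDerivAt_PhiB hr.1 hr.2).continuousAt.continuousWithinAt

lemma PhiB_start : PhiB (19 / 20) ≤ 0 := by
  unfold PhiB
  have h0 : (0:ℝ) < 19 / 20 := by norm_num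
  have hA := At_pos h0 (by norm_num)
  have hW : Wh (19 / 20) ≤ 0 := by
    unfold Wh
    have hlog : log (19 / 20) ≤ 19 / 20 - 1 := Real.log_le_sub_one_of_pos h0
    norm_num at hlog ⊢
    linarith
  have : 0 ≤ 2 * (19 / 20) * At (19 / 20) := by positivity
  exact mul_nonpos_of_nonneg_of_nonpos this hW

/-- `Ŵ` is positive on the range used. -/
lemma Wh_nonneg {r : ℝ} (h0 : 0 < r) (h1 : r ≤ 17 / 25) : 0 ≤ Wh r := by
  unfold Wh
  have hu : r ^ 2 ≤ 289 / 625 := by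
    have := pow_le_pow_left₀ h0.le h1 2
    norm_num at this
    linarith
  have hu0 : 0 < r ^ 2 := by positivity
  have hlog : log r = (1 / 2) * log (r ^ 2) := by
    rw [Real.log_pow]; push_cast; ring
  have hl2 : 1 - 1 / r ^ 2 ≤ log (r ^ 2) := by
    have := Real.one_sub_inv_le_log_of_pos hu0
    simpa [one_div] using this
  have hinv : 625 / 289 ≤ 1 / r ^ 2 := by
    rw [div_le_div_iff₀ (by norm_num) hu0]
    linarith
  have e : 1 / (2 * r ^ 2) = (1 / 2) * (1 / r ^ 2) := by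
    field_simp
  rw [e, hlog]
  have : 0 ≤ r ^ 4 := by positivity
  nlinarith

end Vale.Agent.Lib.P322B
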